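import Claimed.Agent.R280.Gal.Defs
import Claimed.Agent.R280.FF.Main

/-!
# Row 280, package FF8 (`Gal/ConstExt.lean`): general facts on `Over`, and ALGEBRAIC (infinite) constant field extensions in characteristic zero

`L ⊆ Om` an algebraic closure, `F/L` a function field, `FOm = F ⊗_L Om` (a field, hypothesis `Algebra.IsPushout L Om F FOm`).

Sub-packages
* FF8a (~300 lines) `Place.over_of_comap_eq`, `Place.Over.comap_eq`, `Place.Over.unique_below`, `Place.OverE.unique`, `Place.ramIdx_eq_of_overE`,
  `Place.Over.trans`  (ground fields may differ; only normalisation is used: take `π` with `P.v π = exp (-1)`, write `f = π ^ j u`).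
* FF8b (~500 lines) `isFF_constExt_alg`, `algClosed_of_pushout`, `exists_finite_level`.
  - `isFF_constExt_alg`: `x` transcendental over `L` with `[F : L(x)] < ∞`; a basis of `Om/L` is a basis of `FOm/F`, so `x` stays transcendental over `Om`
    (a polynomial relation over `Om` decomposes along the basis) and `FOm = Om(x)[F]` is generated over `Om(x)` by a basis of `F/L(x)`.
  - `algClosed_of_pushout`: `y ∈ F` algebraic over `L`; its image in `FOm` is algebraic over `Om`, so equals `c ∈ Om`.  If `1, c` were `L`-independent, they would be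
    `F`-independent in `FOm`, but `y · 1 - 1 · c = 0`.  So `c ∈ L`, and `F → FOm` is injective.
  - `exists_finite_level`: every finite subset of `FOm` lies in `F ⊗_L L'` for a finite `L'/L`, `L' ⊆ Om` (abstract types; both squares are pushouts:
    `F ⊗_L L' → F ⊗_L Om` is injective by flatness, the image is a domain, finite over the field `F`, hence a field).
* FF8c (~300 lines) `Place.ramIdx_constExt_alg`: let `t̃` be a uniformiser of `Q̃`, take a finite level `F'` containing it (`exists_finite_level`), `Q'` the place of `F'/L'`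
  below `Q̃` (`exists_place_of_valuationSubring` + `over_of_comap_eq`), `e (Q'|Q) = 1` by FF7 `Place.ramIdx_constExt`; `Q̃.v = Q'.v ^ e'` on `F'` and
  `Q̃.v t̃ = exp (-1)` force `e' = 1`; conclude with `Place.Over.trans`.

Owner of the statements: helper256.  PROVED (helper268): no sorry of its own.
-/

set_option autoImplicit false

namespace Claimed.Agent.R280

open WithZero
open scoped TensorProduct

/-! ### FF8a: generalities on `Over`: MOVED to `FF/Below.lean` and `FF/Discrete.lean` (same names, universe polymorphic; helper168) -/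

/-! ### FF8b, FF8c: algebraic constant field extensions -/
section FF8b

variable {L Om F FOm : Type} [Field L] [Field Om] [Field F] [Field FOm] [Algebra L Om] [Algebra L F]
  [Algebra Om FOm] [Algebra F FOm] [Algebra L FOm] [IsScalarTower L Om FOm] [IsScalarTower L F FOm]

theorem isFF_constExt_alg [IsFF L F] [Algebra.IsAlgebraic L Om]
    (po : Algebra.IsPushout L Om F FOm) : IsFF Om FOm := by
  classical
  obtain ⟨x, hx, hfin⟩ := IsFF.exists_finite (k := L) (M := F)
  refine ⟨algebraMap F FOm x, ?_, ?_⟩
  · have h1 : Transcendental L (algebraMap F FOm x) :=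
      (_root_.transcendental_algebraMap_iff (algebraMap F FOm).injective).2 hx
    exact (Algebra.IsAlgebraic.transcendental_iff (R := L) (S := Om)).1 h1
  · obtain ⟨s, hs⟩ := hfin.fg_top
    have ha : ∀ a ∈ IntermediateField.adjoin L {x},
        algebraMap F FOm a ∈ IntermediateField.adjoin Om {algebraMap F FOm x} := by
      have hle : IntermediateField.adjoin L {x}
          ≤ ((IntermediateField.adjoin Om {algebraMap F FOm x}).restrictScalars L).comap
            (IsScalarTower.toAlgHom L F FOm) := by
        rw [IntermediateField.adjoin_le_iff]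
        rintro _ rfl
        exact IntermediateField.mem_adjoin_simple_self Om _
      exact fun a ha => hle ha
    have hb : ∀ f : F, algebraMap F FOm f ∈ Submodule.span
        (IntermediateField.adjoin Om {algebraMap F FOm x})
        ((s.image (algebraMap F FOm) : Finset FOm) : Set FOm) := by
      intro f
      have hf : f ∈ Submodule.span (IntermediateField.adjoin L {x}) (s : Set F) := by
        rw [hs]
        trivial
      induction hf using Submodule.span_induction with
      | mem f hf =>
        exact Submodule.subset_span (Finset.mem_coe.2 (Finset.mem_image_of_mem _ hf))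
      | zero => rw [map_zero]; exact Submodule.zero_mem _
      | add f g _ _ hf hg => rw [map_add]; exact Submodule.add_mem _ hf hg
      | smul a f _ hf =>
        have e : algebraMap F FOm (a • f)
            = (⟨algebraMap F FOm a.1, ha a.1 a.2⟩ :
                IntermediateField.adjoin Om {algebraMap F FOm x}) • algebraMap F FOm f := by
          rw [Algebra.smul_def, map_mul, Algebra.smul_def]
          rfl
        rw [e]
        exact Submodule.smul_mem _ _ hf
    refine ⟨⟨s.image (algebraMap F FOm), ?_⟩⟩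
    rw [eq_top_iff]
    intro z _
    refine po.out.inductionOn z _ (Submodule.zero_mem _) hb ?_ fun z₁ z₂ => Submodule.add_mem _
    intro c z hz
    have e : c • z = (algebraMap Om (IntermediateField.adjoin Om {algebraMap F FOm x}) c) • z := by
      rw [algebraMap_smul]
    rw [e]
    exact Submodule.smul_mem _ _ hz

/-- `L` is algebraically closed in `F` as soon as `F ⊗_L Om` is a field -/
theorem algClosed_of_pushout [IsAlgClosed Om] (po : Algebra.IsPushout L Om F FOm) (y : F)
    (hy : IsAlgebraic L y) : y ∈ Set.range (algebraMap L F) := by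
  have hy' : IsAlgebraic Om (algebraMap F FOm y) :=
    ((isAlgebraic_algebraMap_iff (algebraMap F FOm).injective).2 hy).tower_top Om
  have hint : IsIntegral Om (algebraMap F FOm y) := hy'.isIntegral
  obtain ⟨c, hc⟩ : algebraMap F FOm y ∈ Set.range (algebraMap Om FOm) :=
    minpoly.mem_range_of_degree_eq_one Om _
      (IsAlgClosed.degree_eq_one_of_irreducible Om (minpoly.irreducible hint))
  have hcL : c ∈ Submodule.span L {(1 : Om)} := by
    by_contra hcon
    obtain ⟨φ, hφc, hφ⟩ := Submodule.exists_le_ker_of_notMem hcon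
    have hφ1 : φ 1 = 0 := hφ (Submodule.subset_span rfl)
    set Φ : FOm →ₗ[F] F := po.symm.out.lift ((Algebra.linearMap L F) ∘ₗ φ) with hΦ
    have hΦa : ∀ ω : Om, Φ (algebraMap Om FOm ω) = algebraMap L F (φ ω) := fun ω =>
      po.symm.out.lift_eq _ ω
    have h1 : Φ (algebraMap F FOm y) = 0 := by
      have : algebraMap F FOm y = y • algebraMap Om FOm 1 := by
        rw [map_one, Algebra.smul_def, mul_one]
      rw [this, map_smul, hΦa, hφ1, map_zero, smul_zero]
    rw [← hc, hΦa] at h1
    exact hφc ((map_eq_zero _).1 h1)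
  obtain ⟨a, ha⟩ := Submodule.mem_span_singleton.1 hcL
  refine ⟨a, (algebraMap F FOm).injective ?_⟩
  rw [← hc, ← ha, Algebra.smul_def, mul_one, ← IsScalarTower.algebraMap_apply,
    ← IsScalarTower.algebraMap_apply]

attribute [local instance] Algebra.TensorProduct.rightAlgebra

/-- the canonical map `F ⊗_L L' → FOm` -/
noncomputable def ff8J (FOm : Type) [Field FOm] [Algebra Om FOm] [Algebra F FOm] [Algebra L FOm]
    [IsScalarTower L Om FOm] [IsScalarTower L F FOm] (L' : IntermediateField L Om) :
    F ⊗[L] L' →ₐ[F] FOm :=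
  Algebra.TensorProduct.lift (Algebra.ofId F FOm) ((IsScalarTower.toAlgHom L Om FOm).comp L'.val)
    fun _ _ => mul_comm _ _

theorem ff8_eqns_cite : True := by
  have := @ff8J.eq_1
  trivial

theorem ff8J_tmul (L' : IntermediateField L Om) (f : F) (a : L') :
    ff8J FOm L' (f ⊗ₜ a) = algebraMap F FOm f * algebraMap Om FOm a := rfl

theorem ff8J_injective (po : Algebra.IsPushout L Om F FOm) (L' : IntermediateField L Om) :
    Function.Injective (ff8J (F := F) FOm L') := by
  have h1 : Function.Injective (LinearMap.lTensor F L'.val.toLinearMap) :=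
    Module.Flat.lTensor_preserves_injective_linearMap _ Subtype.val_injective
  have h2 : ∀ t : F ⊗[L] L', ff8J FOm L' t
      = po.symm.out.equiv (LinearMap.lTensor F L'.val.toLinearMap t) := by
    intro t
    induction t with
    | zero => simp
    | add x y hx hy => rw [map_add, map_add, map_add, hx, hy]
    | tmul f a =>
      rw [ff8J_tmul, LinearMap.lTensor_tmul, IsBaseChange.equiv_tmul, Algebra.smul_def]
      rfl
  intro t t' htt
  rw [h2, h2] at htt
  exact h1 (po.symm.out.equiv.injective htt)

theorem ff8_isField (po : Algebra.IsPushout L Om F FOm) (L' : IntermediateField L Om)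
    [FiniteDimensional L L'] : IsField (F ⊗[L] L') := by
  have : IsDomain (F ⊗[L] L') :=
    Function.Injective.isDomain (ff8J (F := F) FOm L').toRingHom (ff8J_injective po L')
  have : Algebra.IsIntegral F (F ⊗[L] L') := Algebra.IsIntegral.of_finite F _
  exact isField_of_isIntegral_of_isField' (R := F) (S := F ⊗[L] L') (Field.toIsField F)

theorem ff8_level (po : Algebra.IsPushout L Om F FOm) (L₁ : IntermediateField L Om)
    [FiniteDimensional L L₁] (S : Finset FOm)
    (hS : ∀ z ∈ S, z ∈ Set.range (ff8J (F := F) FOm L₁)) :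
    ∃ (L' F' : Type) (_ : Field L') (_ : Field F') (_ : Algebra L L') (_ : Algebra L' Om)
      (_ : Algebra L' F') (_ : Algebra F F') (_ : Algebra L F') (_ : Algebra F' FOm)
      (_ : Algebra L' FOm) (_ : IsScalarTower L L' F') (_ : IsScalarTower L F F')
      (_ : IsScalarTower L' Om FOm) (_ : IsScalarTower L' F' FOm) (_ : IsScalarTower F F' FOm)
      (_ : IsScalarTower L L' Om) (_ : FiniteDimensional L L'),
      Algebra.IsPushout L L' F F' ∧ Algebra.IsPushout L' Om F' FOm ∧
        ∀ z ∈ S, z ∈ Set.range (algebraMap F' FOm) := by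
  let iF : Field (F ⊗[L] L₁) := (ff8_isField po L₁).toField
  let iA : Algebra (F ⊗[L] L₁) FOm := (ff8J (F := F) FOm L₁).toRingHom.toAlgebra
  have t1 : IsScalarTower L L₁ (F ⊗[L] L₁) := inferInstance
  have t2 : IsScalarTower L F (F ⊗[L] L₁) := inferInstance
  have t3 : IsScalarTower L₁ Om FOm := inferInstance
  have t4 : IsScalarTower L₁ (F ⊗[L] L₁) FOm :=
      IsScalarTower.of_algebraMap_eq (R := L₁) (S := F ⊗[L] L₁) (A := FOm) fun a => by
    have e : algebraMap (F ⊗[L] L₁) FOm (algebraMap L₁ (F ⊗[L] L₁) a)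
        = algebraMap F FOm 1 * algebraMap Om FOm a := ff8J_tmul L₁ 1 a
    rw [e, map_one, one_mul]
    rfl
  have t5 : IsScalarTower F (F ⊗[L] L₁) FOm :=
      IsScalarTower.of_algebraMap_eq (R := F) (S := F ⊗[L] L₁) (A := FOm) fun f =>
    ((ff8J (F := F) FOm L₁).commutes f).symm
  have t6 : IsScalarTower L L₁ Om := inferInstance
  have t7 : IsScalarTower L (F ⊗[L] L₁) FOm :=
      IsScalarTower.of_algebraMap_eq (R := L) (S := F ⊗[L] L₁) (A := FOm) fun l => by
    have e1 := IsScalarTower.algebraMap_apply L F FOm l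
    have e2 := IsScalarTower.algebraMap_apply F (F ⊗[L] L₁) FOm (algebraMap L F l)
    have e3 := IsScalarTower.algebraMap_apply L F (F ⊗[L] L₁) l
    rw [e1, e2, e3]
  have p1 : Algebra.IsPushout L L₁ F (F ⊗[L] L₁) := inferInstance
  have p2 : Algebra.IsPushout L₁ Om (F ⊗[L] L₁) FOm :=
    (Algebra.IsPushout.comp_iff L L₁ F (F ⊗[L] L₁) (T := Om) (T' := FOm)).1 po
  exact ⟨L₁, F ⊗[L] L₁, inferInstance, iF, inferInstance, inferInstance, inferInstance,
    inferInstance, inferInstance, iA, inferInstance, t1, t2, t3, t4, t5, t6, inferInstance,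
    p1, p2, hS⟩

theorem ff8_mem_range_of_span (L₁ : IntermediateField L Om) {z : FOm}
    (hz : z ∈ Submodule.span F (algebraMap Om FOm '' (L₁ : Set Om))) :
    z ∈ Set.range (ff8J (F := F) FOm L₁) := by
  have hle : Submodule.span F (algebraMap Om FOm '' (L₁ : Set Om))
      ≤ LinearMap.range (ff8J (F := F) FOm L₁).toLinearMap := by
    rw [Submodule.span_le]
    rintro _ ⟨a, ha, rfl⟩
    refine ⟨1 ⊗ₜ ⟨a, ha⟩, ?_⟩
    show ff8J FOm L₁ (1 ⊗ₜ ⟨a, ha⟩) = _
    rw [ff8J_tmul, map_one, one_mul]
  exact hle hz

theorem ff8_exists_level_one [Algebra.IsAlgebraic L Om] (po : Algebra.IsPushout L Om F FOm)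
    (z : FOm) : ∃ L₁ : IntermediateField L Om, FiniteDimensional L L₁ ∧
      z ∈ Submodule.span F (algebraMap Om FOm '' (L₁ : Set Om)) := by
  refine po.symm.out.inductionOn z _ ?_ ?_ ?_ ?_
  · exact ⟨⊥, inferInstance, Submodule.zero_mem _⟩
  · intro ω
    refine ⟨IntermediateField.adjoin L {ω}, IntermediateField.adjoin.finiteDimensional
      (Algebra.IsIntegral.isIntegral ω), Submodule.subset_span ⟨ω, ?_, rfl⟩⟩
    exact IntermediateField.mem_adjoin_simple_self L ω
  · rintro f z ⟨L₁, h1, h2⟩
    exact ⟨L₁, h1, Submodule.smul_mem _ _ h2⟩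
  · rintro z₁ z₂ ⟨L₁, h1, h2⟩ ⟨L₂, h3, h4⟩
    refine ⟨L₁ ⊔ L₂, IntermediateField.finiteDimensional_sup L₁ L₂, Submodule.add_mem _ ?_ ?_⟩
    · exact Submodule.span_mono (Set.image_mono (show L₁ ≤ L₁ ⊔ L₂ from le_sup_left)) h2
    · exact Submodule.span_mono (Set.image_mono (show L₂ ≤ L₁ ⊔ L₂ from le_sup_right)) h4

theorem ff8_exists_level [Algebra.IsAlgebraic L Om] (po : Algebra.IsPushout L Om F FOm)
    (S : Finset FOm) : ∃ L₁ : IntermediateField L Om, FiniteDimensional L L₁ ∧
      ∀ z ∈ S, z ∈ Submodule.span F (algebraMap Om FOm '' (L₁ : Set Om)) := by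
  classical
  induction S using Finset.induction_on with
  | empty => exact ⟨⊥, inferInstance, fun z hz => absurd hz (Finset.notMem_empty z)⟩
  | insert a S _ ih =>
    obtain ⟨L₁, h1, h2⟩ := ih
    obtain ⟨L₂, h3, h4⟩ := ff8_exists_level_one po a
    refine ⟨L₁ ⊔ L₂, IntermediateField.finiteDimensional_sup L₁ L₂, fun z hz => ?_⟩
    rcases Finset.mem_insert.1 hz with rfl | hz
    · exact Submodule.span_mono (Set.image_mono (show L₂ ≤ L₁ ⊔ L₂ from le_sup_right)) h4
    · exact Submodule.span_mono (Set.image_mono (show L₁ ≤ L₁ ⊔ L₂ from le_sup_left)) (h2 z hz)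

/-- finite levels of an algebraic constant field extension -/
theorem exists_finite_level [Algebra.IsAlgebraic L Om] (po : Algebra.IsPushout L Om F FOm)
    (S : Finset FOm) :
    ∃ (L' F' : Type) (_ : Field L') (_ : Field F') (_ : Algebra L L') (_ : Algebra L' Om)
      (_ : Algebra L' F') (_ : Algebra F F') (_ : Algebra L F') (_ : Algebra F' FOm)
      (_ : Algebra L' FOm) (_ : IsScalarTower L L' F') (_ : IsScalarTower L F F')
      (_ : IsScalarTower L' Om FOm) (_ : IsScalarTower L' F' FOm) (_ : IsScalarTower F F' FOm)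
      (_ : IsScalarTower L L' Om) (_ : FiniteDimensional L L'),
      Algebra.IsPushout L L' F F' ∧ Algebra.IsPushout L' Om F' FOm ∧
        ∀ z ∈ S, z ∈ Set.range (algebraMap F' FOm) := by
  obtain ⟨L₁, h1, h2⟩ := ff8_exists_level po S
  exact ff8_level po L₁ S fun z hz => ff8_mem_range_of_span L₁ (h2 z hz)

/-- algebraic constant field extensions are unramified (characteristic zero) -/
theorem Place.ramIdx_constExt_alg [IsFF L F] [CharZero L] [Algebra.IsAlgebraic L Om]
    (po : Algebra.IsPushout L Om F FOm) {Q' : Place Om FOm} {Q : Place L F} (h : Q'.Over Q) :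
    Q'.ramIdx Q = 1 := by
  obtain ⟨t, ht⟩ := Q'.exists_unif
  obtain ⟨L', F', _, _, _, _, _, _, _, _, _, _, _, _, _, _, _, _, p1, p2, hS⟩ :=
    exists_finite_level po {t}
  obtain ⟨t', rfl⟩ := hS t (Finset.mem_singleton_self t)
  have : IsFF L' F' := isFF_constExt p1
  have hk : ∀ a : L', algebraMap L' F' a ∈ Q'.O.comap (algebraMap F' FOm) := by
    intro a
    rw [ValuationSubring.mem_comap, ← IsScalarTower.algebraMap_apply,
      IsScalarTower.algebraMap_apply L' Om FOm]
    exact Q'.algebraMap_mem _
  have hT : Q'.O.comap (algebraMap F' FOm) ≠ ⊤ := by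
    intro hT
    have h1 : t'⁻¹ ∈ Q'.O.comap (algebraMap F' FOm) := by
      rw [hT]
      trivial
    rw [ValuationSubring.mem_comap, Valuation.mem_valuationSubring_iff, map_inv₀, map_inv₀, ht,
      ← exp_neg, neg_neg, ← exp_zero, exp_le_exp] at h1
    omega
  obtain ⟨Q₁, hQ₁⟩ := exists_place_of_valuationSubring _ hk hT
  have ho1 : Q'.Over Q₁ := Place.over_of_comap_eq hQ₁.symm
  have ho2 : Q₁.Over Q := by
    apply Place.over_of_comap_eq
    rw [hQ₁, ← h.comap_eq]
    ext f
    rw [ValuationSubring.mem_comap, ValuationSubring.mem_comap, ValuationSubring.mem_comap,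
      ← IsScalarTower.algebraMap_apply]
  have he2 : Q₁.ramIdx Q = 1 := Place.ramIdx_constExt p1 ho2
  have he1 : Q'.ramIdx Q₁ = 1 := by
    have h1 := (Place.overE_ramIdx ho1).2 t'
    rw [ht] at h1
    have ht0 : t' ≠ 0 := by
      rintro rfl
      rw [map_zero, map_zero] at ht
      exact exp_ne_zero ht.symm
    rw [Q₁.v_eq_exp_neg_ord ht0, ← exp_nsmul, exp_inj] at h1
    have h2 : (Q'.ramIdx Q₁ : ℤ) * Q₁.ord t' = 1 := by
      rw [nsmul_eq_mul] at h1
      linarith
    have h3 : (Q'.ramIdx Q₁ : ℤ) ∣ 1 := Dvd.intro _ h2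
    have h4 := Int.eq_one_of_dvd_one (by positivity) h3
    exact_mod_cast h4
  rw [Place.ramIdx_trans ho1 ho2, he1, he2]

end FF8b

end Claimed.Agent.R280
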