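import Claimed.Agent.R280.FF.Defs
import Claimed.Agent.R280.A.Defs

/-!
# Row 280, package Gal (Galois-theoretic top, "B0"): definitions

`k ⊆ M ⊆ E`, `M/k` a function field, `E` an algebraic closure of `M`, `Π = Gal(E/M) = E ≃ₐ[M] E`.

* `Place.Above E P V` : the valuation ring `V` of `E` lies above the place `P` of `M`.
* `IsCanon E P V m ζ g` : `g ∈ D(V)` and `g τ = ζ τ` for some `m`-th root `τ` of a uniformiser at `P`
  (`m`-canonical inertia element).
* `Sur E J ξ ζ C` : the continuous surjections `φ : Π → J`, unramified outside the places `ξ i`, whose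
  canonical inertia classes at the `ξ i` form the multiset `C`   (`k` algebraically closed, char. 0).
* `NoSmallCover K X Ξ p h J` : every geometrically connected `J`-Galois cover of `X_L`, `L/K` finite,
  unramified outside `Ξ` and with all ramification indices over `Ξ` divisible by `p`, has `p ^ h ∣ [L:K]`.

FROZEN once landed (owner helper129).
-/

set_option autoImplicit false

namespace Claimed.Agent.R280

open WithZero
open scoped Pointwise

section Above

variable {k M : Type} (E : Type) [Field k] [Field M] [Field E] [Algebra k M] [Algebra M E]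

/-- the valuation ring `V` of `E` lies above the place `P` of `M` -/
def Place.Above (P : Place k M) (V : ValuationSubring E) : Prop :=
  V.comap (algebraMap M E) = P.O

/-- `g` is an `m`-canonical inertia element at `V` (above `P`) for the root of unity `ζ` -/
def IsCanon (P : Place k M) (V : ValuationSubring E) (m : ℕ) (ζ : k) (g : E ≃ₐ[M] E) : Prop :=
  g • V = V ∧ ∃ (π : M) (τ : E), P.v π = exp (-1) ∧ τ ^ m = algebraMap M E π ∧
    g τ = algebraMap M E (algebraMap k M ζ) * τ

/-- `φ` is unramified at `P` (`k` algebraically closed: inertia = decomposition group) -/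
def UnramAt {G : Type} [Group G] (φ : (E ≃ₐ[M] E) →* G) (P : Place k M) : Prop :=
  ∀ V : ValuationSubring E, P.Above E V → ∀ g : E ≃ₐ[M] E, g • V = V → φ g = 1

/-- marked `J`-covers: continuous surjections `Gal(E/M) → J`, unramified outside `ξ`, with multiset `C`
of canonical inertia classes at the `ξ i` -/
def Sur (J : Type) [Group J] {n : ℕ} (ξ : Fin n → Place k M) (ζ : k)
    (C : Multiset (ConjClasses J)) : Set ((E ≃ₐ[M] E) →* J) :=
  {φ | IsOpen (φ.ker : Set (E ≃ₐ[M] E)) ∧ Function.Surjective φ ∧
    (∀ P : Place k M, P ∉ Set.range ξ → UnramAt E φ P) ∧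
    ∃ c : Fin n → ConjClasses J, Finset.univ.val.map c = C ∧
      ∀ (i : Fin n) (V : ValuationSubring E) (g : E ≃ₐ[M] E), (ξ i).Above E V →
        IsCanon E (ξ i) V (Nat.card J) ζ g → ConjClasses.mk (φ g) = c i}

end Above

/-- **No small cover.**  `X/K` function field, `Ξ` a set of places.  For every finite `L/K`, `XL = X ⊗_K L`,
every finite Galois `Y/XL` with group `J` in which `L` is algebraically closed, unramified outside the
places over `Ξ` and with all ramification indices over `Ξ` divisible by `p`:  `p ^ h ∣ [L : K]`. -/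
def NoSmallCover (K X : Type) [Field K] [Field X] [Algebra K X] (Ξ : Set (Place K X)) (p h : ℕ)
    (J : Type) [Group J] : Prop :=
  ∀ (L XL Y : Type) [Field L] [Field XL] [Field Y] [Algebra K L] [Algebra K XL] [Algebra L XL]
    [Algebra X XL] [IsScalarTower K L XL] [IsScalarTower K X XL] [Algebra XL Y] [Algebra L Y]
    [IsScalarTower L XL Y] [FiniteDimensional K L] [FiniteDimensional XL Y] [IsGalois XL Y],
    Algebra.IsPushout K L X XL →
    (∀ y : Y, IsAlgebraic L y → y ∈ Set.range (algebraMap L Y)) →
    Nonempty ((Y ≃ₐ[XL] Y) ≃* J) →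
    (∀ (P₀ : Place K X) (P : Place L XL) (Q : Place L Y), P.Over P₀ → Q.Over P →
      (P₀ ∈ Ξ → p ∣ Q.ramIdx P) ∧ (P₀ ∉ Ξ → Q.ramIdx P = 1)) →
    p ^ h ∣ Module.finrank K L

end Claimed.Agent.R280
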