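import Mathlib

/-!
# Row 280, package GalFix (Mathlib only, FULLY PROVED): the fixed field of the kernel of a continuous homomorphism

`E/F` Galois (possibly infinite), `ψ : Gal(E/F) →* G` with kernel an o p e n subgroup.  `Y` is an abstract copy of the fixed field of `ker ψ`
(`hY : z ∈ range (Y → E) ↔ z is fixed by ker ψ`).  Then `Y/F` is finite Galois, `Gal(Y/F) ≅ range ψ` compatibly with restriction.

Owner of the statements: helper256.
-/

set_option autoImplicit false
set_option linter.unusedSectionVars false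

namespace Claimed.Agent.R280

section

variable {F E : Type} [Field F] [Field E] [Algebra F E] [IsGalois F E] {G : Type} [Group G]

/-- `Y` is (a copy of) the fixed field of the subgroup `H` -/
def IsFixOf (H : Subgroup (E ≃ₐ[F] E)) (Y : Type) [Field Y] [Algebra Y E] : Prop :=
  ∀ z : E, z ∈ Set.range (algebraMap Y E) ↔ ∀ σ ∈ H, σ z = z

omit [IsGalois F E] in
theorem isFixOf_fixedField (H : Subgroup (E ≃ₐ[F] E)) :
    IsFixOf H (IntermediateField.fixedField H) := by
  intro z
  rw [← IntermediateField.mem_fixedField_iff]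
  constructor
  · rintro ⟨y, rfl⟩
    exact y.2
  · intro h
    exact ⟨⟨z, h⟩, rfl⟩

variable {Y : Type} [Field Y] [Algebra F Y] [Algebra Y E] [IsScalarTower F Y E]

omit [IsGalois F E] in
/-- the comparison isomorphism with the fixed field inside `E` -/
theorem IsFixOf.exists_equiv {H : Subgroup (E ≃ₐ[F] E)} (hY : IsFixOf H Y) :
    ∃ e : Y ≃ₐ[F] IntermediateField.fixedField H, ∀ y, ((e y : _) : E) = algebraMap Y E y := by
  have hr : (IsScalarTower.toAlgHom F Y E).fieldRange = IntermediateField.fixedField H := by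
    ext z
    rw [IntermediateField.mem_fixedField_iff, ← hY z]
    rfl
  exact ⟨(AlgEquiv.ofInjectiveField (IsScalarTower.toAlgHom F Y E)).trans
    (IntermediateField.equivOfEq hr), fun y => rfl⟩

theorem fixingSubgroup_fixedField_of_isOpen {H : Subgroup (E ≃ₐ[F] E)}
    (hH : IsOpen (H : Set (E ≃ₐ[F] E))) : (IntermediateField.fixedField H).fixingSubgroup = H :=
  InfiniteGalois.fixingSubgroup_fixedField ⟨H, Subgroup.isClosed_of_isOpen H hH⟩

theorem IsFixOf.finite {H : Subgroup (E ≃ₐ[F] E)} (hH : IsOpen (H : Set (E ≃ₐ[F] E)))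
    (hY : IsFixOf H Y) : FiniteDimensional F Y := by
  obtain ⟨e, -⟩ := hY.exists_equiv (F := F)
  have : FiniteDimensional F (IntermediateField.fixedField H) := by
    rw [← InfiniteGalois.isOpen_iff_finite, fixingSubgroup_fixedField_of_isOpen hH]
    exact hH
  exact Module.Finite.equiv e.symm.toLinearEquiv

theorem IsFixOf.finrank_eq {H : Subgroup (E ≃ₐ[F] E)} (hH : IsOpen (H : Set (E ≃ₐ[F] E)))
    (hY : IsFixOf H Y) : Module.finrank F Y = H.index := by
  obtain ⟨e, -⟩ := hY.exists_equiv (F := F)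
  rw [e.toLinearEquiv.finrank_eq, IntermediateField.finrank_eq_fixingSubgroup_index,
    fixingSubgroup_fixedField_of_isOpen hH]

theorem IsFixOf.isGalois {H : Subgroup (E ≃ₐ[F] E)} [H.Normal]
    (hH : IsOpen (H : Set (E ≃ₐ[F] E))) (hY : IsFixOf H Y) : IsGalois F Y := by
  obtain ⟨e, -⟩ := hY.exists_equiv (F := F)
  have : IsGalois F (IntermediateField.fixedField H) := by
    rw [← InfiniteGalois.normal_iff_isGalois, fixingSubgroup_fixedField_of_isOpen hH]
    infer_instance
  exact IsGalois.of_algEquiv e.symm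

/-- an automorphism of `E/F` fixes `Y` pointwise iff it lies in `H` -/
theorem IsFixOf.fixes_iff {H : Subgroup (E ≃ₐ[F] E)} (hH : IsOpen (H : Set (E ≃ₐ[F] E)))
    (hY : IsFixOf H Y) (g : E ≃ₐ[F] E) :
    (∀ y : Y, g (algebraMap Y E y) = algebraMap Y E y) ↔ g ∈ H := by
  constructor
  · intro h
    rw [← fixingSubgroup_fixedField_of_isOpen hH, IntermediateField.mem_fixingSubgroup_iff]
    intro x hx
    rw [IntermediateField.mem_fixedField_iff, ← hY x] at hx
    obtain ⟨y, rfl⟩ := hx
    exact h y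
  · intro hg y
    exact (hY _).1 ⟨y, rfl⟩ g hg

theorem IsFixOf.restrict_eq_iff (ψ : (E ≃ₐ[F] E) →* G) (hψ : IsOpen (ψ.ker : Set (E ≃ₐ[F] E)))
    (hY : IsFixOf ψ.ker Y) [Normal F Y] (g g' : E ≃ₐ[F] E) :
    AlgEquiv.restrictNormalHom Y g = AlgEquiv.restrictNormalHom Y g' ↔ ψ g = ψ g' := by
  have h1 : ψ g = ψ g' ↔ g'⁻¹ * g ∈ ψ.ker := by
    rw [MonoidHom.mem_ker, map_mul, map_inv, inv_mul_eq_one]
    exact eq_comm
  rw [h1, ← hY.fixes_iff hψ]
  have hc : ∀ (s : E ≃ₐ[F] E) (y : Y),
      algebraMap Y E (AlgEquiv.restrictNormalHom Y s y) = s (algebraMap Y E y) :=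
    fun s y => AlgEquiv.restrictNormal_commutes s Y y
  constructor
  · intro h y
    have h2 : g (algebraMap Y E y) = g' (algebraMap Y E y) := by
      rw [← hc, ← hc, h]
    rw [AlgEquiv.mul_apply, h2]
    exact g'.symm_apply_apply _
  · intro h
    ext y
    apply (algebraMap Y E).injective
    rw [hc, hc]
    have h2 := h y
    rw [AlgEquiv.mul_apply] at h2
    have h3 := congrArg g' h2
    rw [← h3]
    exact (g'.apply_symm_apply _).symm

theorem IsFixOf.equiv (ψ : (E ≃ₐ[F] E) →* G) (hψ : IsOpen (ψ.ker : Set (E ≃ₐ[F] E)))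
    (hY : IsFixOf ψ.ker Y) (hs : Function.Surjective ψ) : Nonempty ((Y ≃ₐ[F] Y) ≃* G) := by
  have : IsGalois F Y := hY.isGalois hψ
  have hk : (AlgEquiv.restrictNormalHom (F := F) (K₁ := E) Y).ker = ψ.ker := by
    ext g
    rw [MonoidHom.mem_ker, MonoidHom.mem_ker,
      ← map_one (AlgEquiv.restrictNormalHom (F := F) (K₁ := E) Y),
      hY.restrict_eq_iff ψ hψ, map_one]
  exact ⟨((QuotientGroup.quotientKerEquivOfSurjective _
    (AlgEquiv.restrictNormalHom_surjective (F := F) (K₁ := Y) E)).symm.trans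
    (QuotientGroup.quotientMulEquivOfEq hk)).trans
    (QuotientGroup.quotientKerEquivOfSurjective ψ hs)⟩

theorem IsFixOf.finrank_dvd [Finite G] (ψ : (E ≃ₐ[F] E) →* G)
    (hψ : IsOpen (ψ.ker : Set (E ≃ₐ[F] E))) (hY : IsFixOf ψ.ker Y) :
    Module.finrank F Y ∣ Nat.card G := by
  rw [hY.finrank_eq hψ, Subgroup.index_ker]
  exact Subgroup.card_subgroup_dvd_card _

end

end Claimed.Agent.R280
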