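import Mathlib

/-!
# Row 280, package Gal2: the group theory of descent from the field of moduli  (FULLY PROVED)

`𝔊` topological group with a basis of normal subgroups (which are o p e n) at `1`, `Pi ⊴ 𝔊`, `φ : Pi → J` a surjection onto a
finite group whose centre has order prime to `p`, with `ker φ ⊇ Pi ∩ U`, `U` an o p e n subgroup.
`stabHom φ = {g | φ (g π g⁻¹) = φ π}`.  Then `stabHom φ` contains a subgroup `C₂`, of index prime
to `p`, with `C₂ ∩ Pi = ker φ`  (`descent_group`); `descent_index`, `descent_quotient`: `C₂ Pi / C₂ ≅ J`.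

Proof: `N ⊴ 𝔊`, `N ∩ Pi ⊆ ker φ`; then `N ⊆ St := stabHom φ` (`g π g⁻¹ π⁻¹ ∈ N ∩ Pi`).  `ker φ ⊴ St`,
`St ∩ Pi = φ⁻¹ Z(J)`.  `U₀ := N ⊔ ker φ` is normal in `St`, `U₀ ∩ Pi = ker φ`; `C₂` := preimage of a Sylow `p`-subgroup of `St / U₀`.
-/

set_option autoImplicit false

namespace Claimed.Agent.R280

variable {𝔊 : Type} [Group 𝔊] (Pi : Subgroup 𝔊) [Pi.Normal] {J : Type} [Group J]

/-- the stabiliser of `φ : Pi → J` under the conjugation action of `𝔊` -/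
def stabHom (φ : Pi →* J) : Subgroup 𝔊 where
  carrier := {g | ∀ π : Pi, φ (MulAut.conjNormal g π) = φ π}
  one_mem' := fun π => by simp
  mul_mem' := fun {a b} ha hb π => by
    rw [map_mul, MulAut.mul_apply, ha, hb]
  inv_mem' := fun {a} ha π => by
    have := ha (MulAut.conjNormal a⁻¹ π)
    rw [← MulAut.mul_apply, ← map_mul, mul_inv_cancel, map_one, MulAut.one_apply] at this
    exact this.symm

variable {Pi}

theorem stabHom_apply {φ : Pi →* J} {g : 𝔊} (hg : g ∈ stabHom Pi φ) {x : 𝔊} (hx : x ∈ Pi)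
    (hx' : g * x * g⁻¹ ∈ Pi) : φ ⟨g * x * g⁻¹, hx'⟩ = φ ⟨x, hx⟩ := by
  rw [← hg ⟨x, hx⟩]
  congr 1

theorem mem_stabHom_iff {φ : Pi →* J} {g : 𝔊} : g ∈ stabHom Pi φ ↔
    ∀ (x : 𝔊) (hx : x ∈ Pi) (hx' : g * x * g⁻¹ ∈ Pi), φ ⟨g * x * g⁻¹, hx'⟩ = φ ⟨x, hx⟩ := by
  refine ⟨fun hg x hx hx' => stabHom_apply hg hx hx', fun h π => ?_⟩
  have := h π.1 π.2 (‹Pi.Normal›.conj_mem π.1 π.2 g)
  exact this

omit [Pi.Normal] in
theorem mem_kerMap_iff {φ : Pi →* J} {x : 𝔊} :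
    x ∈ φ.ker.map Pi.subtype ↔ ∃ hx : x ∈ Pi, φ ⟨x, hx⟩ = 1 := by
  constructor
  · rintro ⟨w, hw, rfl⟩
    exact ⟨w.2, hw⟩
  · rintro ⟨hx, h⟩
    exact ⟨⟨x, hx⟩, h, rfl⟩

variable (Pi)

/-- `C₂` is normal in `C₂ Pi` with quotient `J` -/
theorem descent_quotient (φ : Pi →* J) (hφ : Function.Surjective φ) (C₂ : Subgroup 𝔊)
    (h1 : C₂ ≤ stabHom Pi φ) (h2 : C₂ ⊓ Pi = φ.ker.map Pi.subtype) :
    ∃ ψ : (C₂ ⊔ Pi : Subgroup 𝔊) →* J, Function.Surjective ψ ∧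
      ψ.ker = C₂.subgroupOf (C₂ ⊔ Pi) ∧
      ∀ π : Pi, ψ ⟨π.1, (le_sup_right : Pi ≤ C₂ ⊔ Pi) π.2⟩ = φ π := by
  classical
  have hdec : ∀ x : (C₂ ⊔ Pi : Subgroup 𝔊), ∃ c ∈ C₂, ∃ z ∈ Pi, c * z = x.1 :=
    fun x => Subgroup.mem_sup_of_normal_right.1 x.2
  choose c hc z hz hcz using hdec
  have key : ∀ (x : (C₂ ⊔ Pi : Subgroup 𝔊)) (c' : 𝔊) (_ : c' ∈ C₂) (z' : 𝔊) (hz' : z' ∈ Pi),
      c' * z' = x.1 → φ ⟨z x, hz x⟩ = φ ⟨z', hz'⟩ := by
    intro x c' hc' z' hz' h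
    have e : z' * (z x)⁻¹ = c'⁻¹ * c x := by
      have := (hcz x).trans h.symm
      rw [eq_inv_mul_iff_mul_eq, ← mul_assoc, ← this, mul_assoc, mul_inv_cancel, mul_one]
    have h3 : z' * (z x)⁻¹ ∈ C₂ ⊓ Pi :=
      ⟨by rw [e]; exact C₂.mul_mem (C₂.inv_mem hc') (hc x), Pi.mul_mem hz' (Pi.inv_mem (hz x))⟩
    rw [h2, mem_kerMap_iff] at h3
    obtain ⟨h4, h5⟩ := h3
    have h6 : (⟨z' * (z x)⁻¹, h4⟩ : Pi) = ⟨z', hz'⟩ * (⟨z x, hz x⟩ : Pi)⁻¹ := rfl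
    rw [h6, map_mul, map_inv, mul_inv_eq_one] at h5
    exact h5.symm
  let ψ : (C₂ ⊔ Pi : Subgroup 𝔊) →* J := MonoidHom.mk' (fun x => φ ⟨z x, hz x⟩) (by
    intro x y
    have hconj : (c y)⁻¹ * z x * ((c y)⁻¹)⁻¹ ∈ Pi := ‹Pi.Normal›.conj_mem _ (hz x) _
    have := key (x * y) (c x * c y) (C₂.mul_mem (hc x) (hc y))
      ((c y)⁻¹ * z x * ((c y)⁻¹)⁻¹ * z y) (Pi.mul_mem hconj (hz y)) (by
        rw [Subgroup.coe_mul, ← hcz x, ← hcz y]; group)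
    rw [this]
    have e : (⟨(c y)⁻¹ * z x * ((c y)⁻¹)⁻¹ * z y, Pi.mul_mem hconj (hz y)⟩ : Pi)
        = ⟨(c y)⁻¹ * z x * ((c y)⁻¹)⁻¹, hconj⟩ * ⟨z y, hz y⟩ := rfl
    rw [e, map_mul, stabHom_apply (h1 (C₂.inv_mem (hc y))) (hz x)])
  have hψ : ∀ x, ψ x = φ ⟨z x, hz x⟩ := fun x => rfl
  have hres : ∀ π : Pi, ψ ⟨π.1, (le_sup_right : Pi ≤ C₂ ⊔ Pi) π.2⟩ = φ π := by
    intro π
    rw [hψ]
    exact key _ 1 C₂.one_mem π.1 π.2 (one_mul _)
  refine ⟨ψ, fun j => ?_, ?_, hres⟩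
  · obtain ⟨π, rfl⟩ := hφ j
    exact ⟨_, hres π⟩
  · ext x
    rw [MonoidHom.mem_ker, Subgroup.mem_subgroupOf, hψ]
    constructor
    · intro h
      have : z x ∈ C₂ ⊓ Pi := by
        rw [h2, mem_kerMap_iff]
        exact ⟨hz x, h⟩
      rw [← hcz x]
      exact C₂.mul_mem (hc x) this.1
    · intro h
      have : z x ∈ C₂ ⊓ Pi := by
        refine ⟨?_, hz x⟩
        have e : z x = (c x)⁻¹ * x.1 := by rw [← hcz x]; group
        rw [e]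
        exact C₂.mul_mem (C₂.inv_mem (hc x)) h
      rw [h2, mem_kerMap_iff] at this
      exact this.2

/-- index bookkeeping: `[𝔊 : C₂ Pi] · |J| = [𝔊 : St] · [St : C₂]` -/
theorem descent_index [Finite J] (φ : Pi →* J) (hφ : Function.Surjective φ) (C₂ : Subgroup 𝔊)
    (h1 : C₂ ≤ stabHom Pi φ) (h2 : C₂ ⊓ Pi = φ.ker.map Pi.subtype) :
    (C₂ ⊔ Pi).index * Nat.card J = (stabHom Pi φ).index * C₂.relIndex (stabHom Pi φ) := by
  obtain ⟨ψ, hs, hk, -⟩ := descent_quotient Pi φ hφ C₂ h1 h2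
  have e1 : C₂.relIndex (C₂ ⊔ Pi) = Nat.card J := by
    rw [Subgroup.relIndex, ← hk, Subgroup.index_ker, MonoidHom.range_eq_top.2 hs]
    exact Nat.card_congr Subgroup.topEquiv.toEquiv
  rw [← e1, mul_comm, Subgroup.relIndex_mul_index le_sup_left, mul_comm,
    Subgroup.relIndex_mul_index h1]

/-- a subgroup of index prime to `p` above a normal subgroup of finite index, `p`-power over it -/
theorem exists_sylow_above {G : Type} [Group G] (H : Subgroup G) [H.Normal] [H.FiniteIndex] (p : ℕ)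
    [Fact p.Prime] :
    ∃ C : Subgroup G, H ≤ C ∧ ¬ p ∣ C.index ∧ ∀ x ∈ C, ∃ a : ℕ, x ^ p ^ a ∈ H := by
  obtain ⟨S⟩ : Nonempty (Sylow p (G ⧸ H)) := inferInstance
  refine ⟨(S : Subgroup (G ⧸ H)).comap (QuotientGroup.mk' H), fun x hx => ?_, ?_, fun x hx => ?_⟩
  · rw [Subgroup.mem_comap]
    have : QuotientGroup.mk' H x = 1 := (QuotientGroup.eq_one_iff x).2 hx
    rw [this]
    exact one_mem _
  · rw [Subgroup.index_comap_of_surjective _ (QuotientGroup.mk'_surjective H)]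
    exact S.not_dvd_index
  · obtain ⟨a, ha⟩ := S.2 ⟨QuotientGroup.mk' H x, hx⟩
    refine ⟨a, ?_⟩
    have h1 : (QuotientGroup.mk' H x) ^ p ^ a = 1 := by
      have := congrArg Subtype.val ha
      simpa using this
    rw [← map_pow] at h1
    exact (QuotientGroup.eq_one_iff _).1 h1

theorem descent_group [TopologicalSpace 𝔊] [IsTopologicalGroup 𝔊] [CompactSpace 𝔊]
    (hbasis : ∀ U : Subgroup 𝔊, IsOpen (U : Set 𝔊) →
      ∃ N : Subgroup 𝔊, N.Normal ∧ IsOpen (N : Set 𝔊) ∧ N ≤ U)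
    [Finite J] (p : ℕ) [Fact p.Prime] (hZ : ¬ p ∣ Nat.card (Subgroup.center J))
    (φ : Pi →* J) (hφ : Function.Surjective φ)
    (hker : ∃ U : Subgroup 𝔊, IsOpen (U : Set 𝔊) ∧ U ⊓ Pi ≤ φ.ker.map Pi.subtype) :
    IsOpen (stabHom Pi φ : Set 𝔊) ∧
    ∃ C₂ : Subgroup 𝔊, IsOpen (C₂ : Set 𝔊) ∧ C₂ ≤ stabHom Pi φ ∧ C₂ ⊓ Pi = φ.ker.map Pi.subtype ∧
      ¬ p ∣ C₂.relIndex (stabHom Pi φ) := by
  obtain ⟨U, hUo, hU⟩ := hker
  obtain ⟨N, hNn, hNo, hNU⟩ := hbasis U hUo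
  have hPn : Pi.Normal := inferInstance
  set K : Subgroup 𝔊 := φ.ker.map Pi.subtype with hK
  set St : Subgroup 𝔊 := stabHom Pi φ with hSt
  have hNK : N ⊓ Pi ≤ K := le_trans (inf_le_inf_right _ hNU) hU
  have hKPi : K ≤ Pi := by
    intro x hx
    exact (mem_kerMap_iff.1 hx).1
  -- `N ≤ St`
  have hNSt : N ≤ St := by
    intro g hg
    rw [hSt, mem_stabHom_iff]
    intro x hx hx'
    have h1 : g * x * g⁻¹ * x⁻¹ ∈ N ⊓ Pi := by
      refine ⟨?_, Pi.mul_mem hx' (Pi.inv_mem hx)⟩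
      have : g * x * g⁻¹ * x⁻¹ = g * (x * g⁻¹ * x⁻¹) := by group
      rw [this]
      exact N.mul_mem hg (hNn.conj_mem _ (N.inv_mem hg) _)
    obtain ⟨h2, h3⟩ := mem_kerMap_iff.1 (hNK h1)
    have e : (⟨g * x * g⁻¹ * x⁻¹, h2⟩ : Pi) = ⟨g * x * g⁻¹, hx'⟩ * (⟨x, hx⟩ : Pi)⁻¹ := rfl
    rw [e, map_mul, map_inv, mul_inv_eq_one] at h3
    exact h3
  have hSto : IsOpen (St : Set 𝔊) := Subgroup.isOpen_mono hNSt hNo
  refine ⟨hSto, ?_⟩
  -- `K ≤ St`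
  have hKSt : K ≤ St := by
    intro g hg
    obtain ⟨hgP, hg1⟩ := mem_kerMap_iff.1 hg
    rw [hSt, mem_stabHom_iff]
    intro x hx hx'
    have e : (⟨g * x * g⁻¹, hx'⟩ : Pi) = ⟨g, hgP⟩ * ⟨x, hx⟩ * (⟨g, hgP⟩ : Pi)⁻¹ := rfl
    rw [e, map_mul, map_mul, map_inv, hg1]
    simp
  -- `St` normalises `K`
  have hnorm : ∀ g ∈ St, ∀ x ∈ K, g * x * g⁻¹ ∈ K := by
    intro g hg x hx
    obtain ⟨hxP, hx1⟩ := mem_kerMap_iff.1 hx
    refine mem_kerMap_iff.2 ⟨hPn.conj_mem x hxP g, ?_⟩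
    rw [stabHom_apply hg hxP, hx1]
  set U₀ : Subgroup 𝔊 := N ⊔ K with hU₀
  have hU₀St : U₀ ≤ St := sup_le hNSt hKSt
  have hU₀o : IsOpen (U₀ : Set 𝔊) := Subgroup.isOpen_mono le_sup_left hNo
  have hU₀Pi : U₀ ⊓ Pi = K := by
    apply le_antisymm
    · rintro x ⟨hx, hxP⟩
      obtain ⟨a, ha, b, hb, rfl⟩ := Subgroup.mem_sup_of_normal_left.1 hx
      have haP : a ∈ Pi := by
        have : a = a * b * b⁻¹ := by group
        rw [this]
        exact Pi.mul_mem hxP (Pi.inv_mem (hKPi hb))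
      exact K.mul_mem (hNK ⟨ha, haP⟩) hb
    · exact le_inf le_sup_right hKPi
  have hfin : U₀.FiniteIndex := by
    have := Subgroup.quotient_finite_of_isOpen U₀ hU₀o
    exact Subgroup.finiteIndex_of_finite_quotient
  have hnU₀ : (U₀.subgroupOf St).Normal := by
    refine ⟨fun x hx g => ?_⟩
    rw [Subgroup.mem_subgroupOf] at hx ⊢
    obtain ⟨a, ha, b, hb, hab⟩ := Subgroup.mem_sup_of_normal_left.1 hx
    have : ((g * x * g⁻¹ : St) : 𝔊) = (g.1 * a * g.1⁻¹) * (g.1 * b * g.1⁻¹) := by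
      push_cast
      rw [← hab]; group
    rw [this]
    exact Subgroup.mul_mem_sup (hNn.conj_mem a ha _) (hnorm g.1 g.2 b hb)
  obtain ⟨C, hUC, hCi, hCp⟩ := exists_sylow_above (U₀.subgroupOf St) p
  have hle : C.map St.subtype ≤ St := by
    rintro _ ⟨y, -, rfl⟩
    exact y.2
  have hU₀C : U₀ ≤ C.map St.subtype := by
    intro x hx
    exact ⟨⟨x, hU₀St hx⟩, hUC (Subgroup.mem_subgroupOf.2 hx), rfl⟩
  refine ⟨C.map St.subtype, Subgroup.isOpen_mono hU₀C hU₀o, hle, ?_, ?_⟩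
  · apply le_antisymm
    · rintro _ ⟨⟨y, hy, rfl⟩, hyP⟩
      obtain ⟨a, ha⟩ := hCp y hy
      have hyP' : y.1 ∈ Pi := hyP
      refine mem_kerMap_iff.2 ⟨hyP', ?_⟩
      -- `φ y` has `p`-power order
      have h1 : y.1 ^ p ^ a ∈ K := by
        rw [← hU₀Pi]
        exact ⟨by simpa [Subgroup.mem_subgroupOf] using ha, Pi.pow_mem hyP' _⟩
      obtain ⟨h2, h3⟩ := mem_kerMap_iff.1 h1
      have e : (⟨y.1 ^ p ^ a, h2⟩ : Pi) = (⟨y.1, hyP'⟩ : Pi) ^ p ^ a := rfl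
      rw [e, map_pow] at h3
      -- `φ y` is central
      have hc : φ ⟨y.1, hyP'⟩ ∈ Subgroup.center J := by
        rw [Subgroup.mem_center_iff]
        intro j
        obtain ⟨π, rfl⟩ := hφ j
        have h4 := stabHom_apply y.2 π.2 (hPn.conj_mem π.1 π.2 y.1)
        have e' : (⟨y.1 * π.1 * y.1⁻¹, hPn.conj_mem π.1 π.2 y.1⟩ : Pi)
            = ⟨y.1, hyP'⟩ * π * (⟨y.1, hyP'⟩ : Pi)⁻¹ := rfl
        rw [e', map_mul, map_mul, map_inv, mul_inv_eq_iff_eq_mul] at h4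
        exact h4.symm
      have h5 : (φ ⟨y.1, hyP'⟩) ^ Nat.card (Subgroup.center J) = 1 := by
        have h := pow_card_eq_one' (G := Subgroup.center J) (x := ⟨_, hc⟩)
        have h' := congrArg Subtype.val h
        rwa [Subgroup.coe_pow, Subgroup.coe_one] at h'
      have hcop : Nat.Coprime (p ^ a) (Nat.card (Subgroup.center J)) :=
        Nat.Coprime.pow_left _ ((Nat.Prime.coprime_iff_not_dvd Fact.out).2 hZ)
      have h6 := orderOf_dvd_of_pow_eq_one h3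
      have h7 := orderOf_dvd_of_pow_eq_one h5
      have h8 : orderOf (φ ⟨y.1, hyP'⟩) = 1 := Nat.eq_one_of_dvd_coprimes hcop h6 h7
      exact orderOf_eq_one_iff.1 h8
    · exact le_inf (le_trans le_sup_right hU₀C) hKPi
  · have : (C.map St.subtype).relIndex St = C.index := by
      rw [Subgroup.relIndex, Subgroup.subgroupOf, Subgroup.comap_map_eq_self_of_injective
        St.subtype_injective]
    rw [this]
    exact hCi

end Claimed.Agent.R280
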