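import Mathlib

/-!
# Row 280, package RETQ1 = GalRes (~400 lines, Mathlib only): `Gal(E/XX) → Gal(E/KK)` for a tower `KK ⊆ XX ⊆ E`

* `resΓ KK : Gal(E/XX) →* Gal(E/KK)` (`AlgEquiv.restrictScalarsHom`), injective, range = the automorphisms fixing `XX`.
* it is continuous (`isOpen_comap_resΓ`) and, for `XX/KK` finite, an o p e n map on subgroups (`isOpen_map_resΓ`).
  Krull topology: `krullTopology_mem_nhds_one_iff`, `Subgroup.isOpen_of_mem_nhds`, `IntermediateField.restrictScalars`, compositum with `XX`.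
* `range_resΓ_index2`: `[XX : KK] = 2`.

Owner of the statements: helper256.
-/

set_option autoImplicit false

namespace Claimed.Agent.R280

open scoped Pointwise

variable (KK : Type) {XX E : Type} [Field KK] [Field XX] [Field E] [Algebra KK XX]
  [Algebra KK E] [Algebra XX E] [IsScalarTower KK XX E]

/-- `ι : Gal(E/XX) → Gal(E/KK)` -/
abbrev resΓ : (E ≃ₐ[XX] E) →* (E ≃ₐ[KK] E) := AlgEquiv.restrictScalarsHom KK

variable {KK}

theorem resΓ_injective : Function.Injective (resΓ KK : (E ≃ₐ[XX] E) →* (E ≃ₐ[KK] E)) :=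
  AlgEquiv.restrictScalars_injective KK

theorem mem_range_resΓ_iff (g : E ≃ₐ[KK] E) :
    g ∈ (resΓ KK : (E ≃ₐ[XX] E) →* (E ≃ₐ[KK] E)).range ↔
      ∀ z : XX, g (algebraMap XX E z) = algebraMap XX E z := by
  constructor
  · rintro ⟨d, rfl⟩ z
    exact d.commutes z
  · intro h
    exact ⟨AlgEquiv.ofRingEquiv (f := g.toRingEquiv) h, AlgEquiv.ext fun _ => rfl⟩

theorem resΓ_smul (d : E ≃ₐ[XX] E) (V : ValuationSubring E) : resΓ KK d • V = d • V := by
  apply SetLike.coe_injective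
  rw [ValuationSubring.coe_pointwise_smul, ValuationSubring.coe_pointwise_smul]
  rfl

/-- the range of `resΓ` is the fixing subgroup of the image of `XX` -/
theorem range_resΓ_eq_fixingSubgroup :
    (resΓ KK : (E ≃ₐ[XX] E) →* (E ≃ₐ[KK] E)).range =
      (IsScalarTower.toAlgHom KK XX E).fieldRange.fixingSubgroup := by
  ext g
  rw [mem_range_resΓ_iff, IntermediateField.mem_fixingSubgroup_iff]
  constructor
  · rintro h _ ⟨z, rfl⟩
    exact h z
  · intro h z
    exact h _ ⟨z, rfl⟩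

theorem range_resΓ_index2 [IsAlgClosure KK E] [CharZero KK] (h2 : Module.finrank KK XX = 2)
    {g g' : E ≃ₐ[KK] E}
    (hg : g ∉ (resΓ KK : (E ≃ₐ[XX] E) →* (E ≃ₐ[KK] E)).range)
    (hg' : g' ∉ (resΓ KK : (E ≃ₐ[XX] E) →* (E ≃ₐ[KK] E)).range) :
    g * g' ∈ (resΓ KK : (E ≃ₐ[XX] E) →* (E ≃ₐ[KK] E)).range := by
  have hidx : (resΓ KK : (E ≃ₐ[XX] E) →* (E ≃ₐ[KK] E)).range.index = 2 := by
    rw [range_resΓ_eq_fixingSubgroup, ← IntermediateField.finrank_eq_fixingSubgroup_index, ← h2]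
    exact (AlgEquiv.ofInjectiveField (IsScalarTower.toAlgHom KK XX E)).toLinearEquiv.finrank_eq.symm
  rw [Subgroup.mul_mem_iff_of_index_two hidx]
  exact ⟨fun h => absurd h hg, fun h => absurd h hg'⟩

theorem isOpen_map_resΓ [FiniteDimensional KK XX] (H : Subgroup (E ≃ₐ[XX] E))
    (hH : IsOpen (H : Set (E ≃ₐ[XX] E))) :
    IsOpen ((H.map (resΓ KK) : Subgroup (E ≃ₐ[KK] E)) : Set (E ≃ₐ[KK] E)) := by
  obtain ⟨F1, hfin, hF1⟩ := (krullTopology_mem_nhds_one_iff XX E _).1 (hH.mem_nhds H.one_mem)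
  have h1 : FiniteDimensional KK F1 := FiniteDimensional.trans KK XX F1
  have h2 : FiniteDimensional KK (F1.restrictScalars KK) := h1
  refine Subgroup.isOpen_mono (H₁ := (F1.restrictScalars KK).fixingSubgroup) ?_
    (IntermediateField.fixingSubgroup_isOpen _)
  intro g hg
  rw [IntermediateField.mem_fixingSubgroup_iff] at hg
  obtain ⟨d, rfl⟩ := (mem_range_resΓ_iff g).2 (fun z => hg _ (F1.algebraMap_mem z))
  exact ⟨d, hF1 ((IntermediateField.mem_fixingSubgroup_iff _ _).2 fun x hx => hg x hx), rfl⟩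

theorem isOpen_comap_resΓ (U : Subgroup (E ≃ₐ[KK] E)) (hU : IsOpen (U : Set (E ≃ₐ[KK] E))) :
    IsOpen ((U.comap (resΓ KK : (E ≃ₐ[XX] E) →* (E ≃ₐ[KK] E)) : Subgroup (E ≃ₐ[XX] E)) :
      Set (E ≃ₐ[XX] E)) := by
  obtain ⟨F0, hfin, hF0⟩ := (krullTopology_mem_nhds_one_iff KK E _).1 (hU.mem_nhds U.one_mem)
  let b := Module.finBasis KK F0
  have hint : ∀ x ∈ Set.range (fun i => ((b i : F0) : E)), IsIntegral XX x := by
    rintro _ ⟨i, rfl⟩
    have h1 : IsIntegral KK (b i) := Algebra.IsIntegral.isIntegral _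
    have h2 : IsIntegral KK ((b i : F0) : E) := h1.map F0.val
    exact h2.tower_top
  have hfd : FiniteDimensional XX
      (IntermediateField.adjoin XX (Set.range (fun i => ((b i : F0) : E)))) :=
    IntermediateField.finiteDimensional_adjoin hint
  refine Subgroup.isOpen_mono
    (H₁ := (IntermediateField.adjoin XX (Set.range (fun i => ((b i : F0) : E)))).fixingSubgroup) ?_
    (IntermediateField.fixingSubgroup_isOpen _)
  intro d hd
  rw [IntermediateField.mem_fixingSubgroup_iff] at hd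
  apply hF0
  rw [SetLike.mem_coe, IntermediateField.mem_fixingSubgroup_iff]
  intro x hx
  have hx' := congrArg (fun y : F0 => (y : E)) (b.sum_repr ⟨x, hx⟩)
  simp only [AddSubmonoidClass.coe_finsetSum, IntermediateField.coe_smul] at hx'
  rw [← hx', map_sum]
  refine Finset.sum_congr rfl fun i _ => ?_
  rw [map_smul]
  congr 1
  exact hd _ (IntermediateField.subset_adjoin _ _ ⟨i, rfl⟩)

end Claimed.Agent.R280
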