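import Claimed.Agent.R280.Gal.Fix
import Claimed.Agent.R280.Gal.Res

/-!
# Row 280, package Gal5b (`Gal/LevelCover.lean`): the geometric cover `YOm = Y ⊗_L Om = Fix (ker φ)`

Mathlib + `Gal/Fix`, `Gal/Res` only.  `gal5b_exists_geomCover` is the statement `exists_geomCover` of `Gal/Level.lean`
with the extra instance `[IsGalois XL E]` (= `level_isGalois`).

* `gal5b_isBaseChange_of_basis`: a linear map which carries a basis to a basis is a base change.
* `gal5b_mem_span`: an element of `E` fixed by `ker φ` is an `XOm`-combination of a basis of `Y/XL`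
  (Galois correspondence over `XOm` for the compositum `XOm(Y)`).
* `gal5b_isPushout`: `YOm = Y ⊗_L Om` for any copy `YOm` of the fixed field of `ker φ`.
-/

set_option autoImplicit false
set_option linter.unusedSectionVars false

namespace Claimed.Agent.R280

/-- a linear map carrying a basis to a basis is a base change -/
theorem gal5b_isBaseChange_of_basis {A R M V ι : Type} [CommRing A] [CommRing R] [Algebra A R]
    [AddCommGroup M] [Module A M] [AddCommGroup V] [Module A V] [Module R V] [IsScalarTower A R V]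
    (c : Module.Basis ι A M) (b : Module.Basis ι R V) (f : M →ₗ[A] V) (h : ∀ i, f (c i) = b i) :
    IsBaseChange R f := by
  have h1 : f = (Finsupp.linearCombination A b) ∘ₗ c.repr.toLinearMap := by
    apply c.ext
    intro i
    simp [h]
  rw [h1]
  exact IsBaseChange.comp_equiv c.repr _ (IsBaseChange.of_basis A b)

section

variable {XL XOm E : Type} [Field XL] [Field XOm] [Field E] [Algebra XL XOm] [Algebra XOm E] [Algebra XL E]
  [IsScalarTower XL XOm E] [IsGalois XL E] [IsGalois XOm E] {J : Type} [Group J]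
  {Y : Type} [Field Y] [Algebra XL Y] [Algebra Y E] [IsScalarTower XL Y E]

theorem gal5b_ker_comp (ψ : (E ≃ₐ[XL] E) →* J) :
    (ψ.comp (resΓ XL : (E ≃ₐ[XOm] E) →* (E ≃ₐ[XL] E))).ker
      = ψ.ker.comap (resΓ XL : (E ≃ₐ[XOm] E) →* (E ≃ₐ[XL] E)) := (MonoidHom.comap_ker _ _).symm

theorem gal5b_isOpen_ker (ψ : (E ≃ₐ[XL] E) →* J) (hψ : IsOpen (ψ.ker : Set (E ≃ₐ[XL] E))) :
    IsOpen ((ψ.comp (resΓ XL : (E ≃ₐ[XOm] E) →* (E ≃ₐ[XL] E))).ker : Set (E ≃ₐ[XOm] E)) := by
  rw [gal5b_ker_comp]
  exact isOpen_comap_resΓ ψ.ker hψ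

/-- an element fixed by `ker φ` lies in the `XOm`-span of (the image of) any family spanning `Y` over `XL` -/
theorem gal5b_mem_span (ψ : (E ≃ₐ[XL] E) →* J) (hψ : IsOpen (ψ.ker : Set (E ≃ₐ[XL] E)))
    (hY : IsFixOf ψ.ker Y) {ι : Type} (c : Module.Basis ι XL Y) (z : E)
    (hz : ∀ σ ∈ (ψ.comp (resΓ XL : (E ≃ₐ[XOm] E) →* (E ≃ₐ[XL] E))).ker, σ z = z) :
    z ∈ Submodule.span XOm (Set.range fun i => algebraMap Y E (c i)) := by
  set S : Set E := Set.range (algebraMap Y E) with hS
  have h1 : z ∈ IntermediateField.adjoin XOm S := by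
    rw [← InfiniteGalois.fixedField_fixingSubgroup (IntermediateField.adjoin XOm S),
      IntermediateField.mem_fixedField_iff]
    intro g hg
    apply hz g
    rw [MonoidHom.mem_ker, MonoidHom.comp_apply, ← MonoidHom.mem_ker, ← hY.fixes_iff hψ]
    intro y
    rw [IntermediateField.mem_fixingSubgroup_iff] at hg
    exact hg _ (IntermediateField.subset_adjoin _ _ ⟨y, rfl⟩)
  have h2 : z ∈ Algebra.adjoin XOm S := by
    rw [← IntermediateField.adjoin_toSubalgebra]
    exact h1
  have h3 : z ∈ Submodule.span XOm (Submonoid.closure S : Set E) := by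
    rw [← Algebra.adjoin_eq_span]
    exact h2
  have h4 : (Submonoid.closure S : Set E) = S := by
    have : S = (MonoidHom.mrange (algebraMap Y E : Y →* E) : Set E) := by
      ext x
      simp [hS]
    rw [this, Submonoid.closure_eq]
  rw [h4] at h3
  refine Submodule.span_le.2 ?_ h3
  rintro _ ⟨y, rfl⟩
  rw [← c.linearCombination_repr y, Finsupp.linearCombination_apply, Finsupp.sum, map_sum]
  refine Submodule.sum_mem _ fun i _ => ?_
  have h5 : algebraMap Y E (c.repr y i • c i) = algebraMap XL XOm (c.repr y i) • algebraMap Y E (c i) := by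
    rw [Algebra.smul_def, map_mul, Algebra.smul_def, ← IsScalarTower.algebraMap_apply,
      ← IsScalarTower.algebraMap_apply]
  rw [h5]
  exact Submodule.smul_mem _ _ (Submodule.subset_span ⟨i, rfl⟩)

end

section

variable {XL XOm E : Type} [Field XL] [Field XOm] [Field E] [Algebra XL XOm] [Algebra XOm E] [Algebra XL E]
  [IsScalarTower XL XOm E] [IsGalois XL E] [IsGalois XOm E] {J : Type} [Group J] [Finite J]
  {Y : Type} [Field Y] [Algebra XL Y] [Algebra Y E] [IsScalarTower XL Y E]
  {YOm : Type} [Field YOm] [Algebra XOm YOm] [Algebra Y YOm] [Algebra XL YOm] [Algebra YOm E]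
  [IsScalarTower XOm YOm E] [IsScalarTower Y YOm E] [IsScalarTower XL XOm YOm] [IsScalarTower XL Y YOm]

/-- `YOm = Y ⊗_XL XOm` -/
theorem gal5b_isPushout_rel (ψ : (E ≃ₐ[XL] E) →* J) (hψ : IsOpen (ψ.ker : Set (E ≃ₐ[XL] E)))
    (hs : Function.Surjective (ψ.comp (resΓ XL : (E ≃ₐ[XOm] E) →* (E ≃ₐ[XL] E))))
    (hY : IsFixOf ψ.ker Y)
    (hYOm : IsFixOf (ψ.comp (resΓ XL : (E ≃ₐ[XOm] E) →* (E ≃ₐ[XL] E))).ker YOm) :
    Algebra.IsPushout XL XOm Y YOm := by
  have hfinY : FiniteDimensional XL Y := hY.finite hψ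
  have hφ := gal5b_isOpen_ker (XOm := XOm) ψ hψ
  have hfinYOm : FiniteDimensional XOm YOm := hYOm.finite hφ
  have hsψ : Function.Surjective ψ := fun j => by
    obtain ⟨g, hg⟩ := hs j
    exact ⟨_, hg⟩
  have hn1 : Module.finrank XL Y = Nat.card J := by
    rw [hY.finrank_eq hψ, Subgroup.index_ker, MonoidHom.range_eq_top.2 hsψ, Subgroup.card_top]
  have hn2 : Module.finrank XOm YOm = Nat.card J := by
    rw [hYOm.finrank_eq hφ, Subgroup.index_ker, MonoidHom.range_eq_top.2 hs, Subgroup.card_top]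
  let c := Module.finBasis XL Y
  have hspan : ⊤ ≤ Submodule.span XOm (Set.range fun i => algebraMap Y YOm (c i)) := by
    intro z _
    have h1 := gal5b_mem_span (XOm := XOm) ψ hψ hY c (algebraMap YOm E z) ((hYOm _).1 ⟨z, rfl⟩)
    have h2 : (Set.range fun i => algebraMap Y E (c i))
        = (IsScalarTower.toAlgHom XOm YOm E).toLinearMap '' (Set.range fun i => algebraMap Y YOm (c i)) := by
      rw [← Set.range_comp]
      congr 1
      ext i
      simp [← IsScalarTower.algebraMap_apply]
    rw [h2, ← Submodule.map_span] at h1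
    obtain ⟨w, hw, hwz⟩ := h1
    have : w = z := (algebraMap YOm E).injective hwz
    rwa [← this]
  let b := basisOfTopLeSpanOfCardEqFinrank (fun i => algebraMap Y YOm (c i)) hspan
    (by rw [Fintype.card_fin, hn1, hn2])
  refine ⟨gal5b_isBaseChange_of_basis c b _ fun i => ?_⟩
  simp [b]

end

section

variable {L Om XL XOm E : Type} [Field L] [Field Om] [Field XL] [Field XOm] [Field E]
  [Algebra L Om] [Algebra L XL] [Algebra Om XOm] [Algebra XL XOm] [Algebra L XOm]
  [IsScalarTower L Om XOm] [IsScalarTower L XL XOm] [Algebra XOm E] [Algebra XL E]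
  [IsScalarTower XL XOm E] [IsGalois XL E] [IsGalois XOm E] {J : Type} [Group J] [Finite J]
  {Y : Type} [Field Y] [Algebra XL Y] [Algebra L Y] [IsScalarTower L XL Y] [Algebra Y E]
  [IsScalarTower XL Y E]

/-- the geometric cover `YOm = Y ⊗_L Om = Fix (ker φ)` -/
theorem gal5b_exists_geomCover (po : Algebra.IsPushout L Om XL XOm) (ψ : (E ≃ₐ[XL] E) →* J)
    (hψ : IsOpen (ψ.ker : Set (E ≃ₐ[XL] E)))
    (hs : Function.Surjective (ψ.comp (resΓ XL : (E ≃ₐ[XOm] E) →* (E ≃ₐ[XL] E))))
    (hY : IsFixOf ψ.ker Y) :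
    ∃ (YOm : Type) (_ : Field YOm) (_ : Algebra Om YOm) (_ : Algebra XOm YOm) (_ : Algebra Y YOm)
      (_ : Algebra L YOm) (_ : Algebra YOm E) (_ : IsScalarTower Om XOm YOm)
      (_ : IsScalarTower XOm YOm E) (_ : IsScalarTower L Om YOm) (_ : IsScalarTower L Y YOm)
      (_ : IsScalarTower Y YOm E) (_ : FiniteDimensional XOm YOm),
      Algebra.IsPushout L Om Y YOm ∧
        IsFixOf (ψ.comp (resΓ XL : (E ≃ₐ[XOm] E) →* (E ≃ₐ[XL] E))).ker YOm := by
  let K : IntermediateField XOm E :=
    IntermediateField.fixedField (ψ.comp (resΓ XL : (E ≃ₐ[XOm] E) →* (E ≃ₐ[XL] E))).ker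
  have hK : IsFixOf (ψ.comp (resΓ XL : (E ≃ₐ[XOm] E) →* (E ≃ₐ[XL] E))).ker K := isFixOf_fixedField _
  have hmem : ∀ y : Y, algebraMap Y E y ∈ K := by
    intro y
    rw [IntermediateField.mem_fixedField_iff]
    intro g hg
    have h1 : resΓ XL g ∈ ψ.ker := hg
    exact (hY _).1 ⟨y, rfl⟩ _ h1
  let aY : Algebra Y K := ((algebraMap Y E).codRestrict K hmem).toAlgebra
  let aOm : Algebra Om K := ((algebraMap XOm K).comp (algebraMap Om XOm)).toAlgebra
  let aL : Algebra L K := ((algebraMap XOm K).comp (algebraMap L XOm)).toAlgebra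
  let aXL : Algebra XL K := ((algebraMap XOm K).comp (algebraMap XL XOm)).toAlgebra
  have t1 : IsScalarTower Om XOm K := IsScalarTower.of_algebraMap_eq fun _ => rfl
  have t2 : IsScalarTower L XOm K := IsScalarTower.of_algebraMap_eq fun _ => rfl
  have t3 : IsScalarTower XL XOm K := IsScalarTower.of_algebraMap_eq fun _ => rfl
  have t4 : IsScalarTower L Om K := IsScalarTower.of_algebraMap_eq fun l => by
    show algebraMap XOm K (algebraMap L XOm l) = algebraMap XOm K (algebraMap Om XOm (algebraMap L Om l))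
    rw [← IsScalarTower.algebraMap_apply L Om XOm]
  have t5 : IsScalarTower Y K E := IsScalarTower.of_algebraMap_eq fun _ => rfl
  have t6 : IsScalarTower XL Y K := IsScalarTower.of_algebraMap_eq fun a => by
    apply (algebraMap K E).injective
    show algebraMap XOm E (algebraMap XL XOm a) = algebraMap Y E (algebraMap XL Y a)
    rw [← IsScalarTower.algebraMap_apply, ← IsScalarTower.algebraMap_apply]
  have t7 : IsScalarTower L Y K := IsScalarTower.of_algebraMap_eq fun l => by
    rw [IsScalarTower.algebraMap_apply L XL Y, ← IsScalarTower.algebraMap_apply XL Y K,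
      IsScalarTower.algebraMap_apply XL XOm K, ← IsScalarTower.algebraMap_apply L XL XOm]
    rfl
  have hrel : Algebra.IsPushout XL XOm Y K := gal5b_isPushout_rel ψ hψ hs hY hK
  have hpo' : Algebra.IsPushout L XL Om XOm := po.symm
  have habs : Algebra.IsPushout L Y Om K :=
    (Algebra.IsPushout.comp_iff L XL Om (S' := XOm) (T := Y) (T' := K)).2 hrel.symm
  exact ⟨K, inferInstance, aOm, inferInstance, aY, aL, inferInstance, t1, inferInstance, t4, t7, t5,
    hK.finite (gal5b_isOpen_ker ψ hψ), habs.symm, hK⟩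

end

end Claimed.Agent.R280
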