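import Claimed.Agent.R280.Gal.ValExt
import Claimed.Agent.R280.Gal.Fix
import Claimed.Agent.R280.Gal.Res
import Claimed.Agent.R280.Gal.ConstExt
import Claimed.Agent.R280.Gal.LevelCover

/-!
# Row 280, package Gal5 (`Gal/Level.lean`): a cover defined over a finite level `L` feeds `NoSmallCover`

Level context: `L ⊆ Om` (algebraic closure, characteristic zero), `XL/L` a function field, `XOm = XL ⊗_L Om`, `E` an algebraic closure of `XOm`.
`ψ : Gal(E/XL) →* J` has o p e n kernel and its restriction `φ = ψ ∘ resΓ` to `Gal(E/XOm)` is still surjective.  `Y` = fixed field of `ker ψ`.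

Sub-packages
* Gal5a (~250 lines) `level_isAlgClosure`, `level_isGalois`, `level_constants`.
  `level_constants`: `y ∈ Y` algebraic over `L` ⇒ its image in `E` is a root of a polynomial over `Om`, so lies in the image of `Om ⊆ XOm`, so is fixed by
  `resΓ (Gal(E/XOm))`; it is fixed by `ker ψ`; `Gal(E/XL) = ker ψ · resΓ (Gal(E/XOm))` because `φ` is surjective; so `y ∈ XL`
  (`InfiniteGalois.mem_range_algebraMap_iff_fixed`), and then `y ∈ L` by `algClosed_of_pushout`.
* Gal5b (~700 lines) `exists_geomCover`: `YOm := Fix (ker φ)`.  `Y ⊆ YOm` because `resΓ (ker φ) ⊆ ker ψ`.  `[YOm : XOm] = |J| = [Y : XL]` (`IsFixOf.finrank_eq`, `Subgroup.index_ker`).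
  `YOm = Y · XOm`: an element of `Gal(E/XOm)` fixing `Y` lies in `ker ψ ∩ Gal(E/XOm) = ker φ` (`IsFixOf.fixes_iff`), Galois correspondence over `XOm`.
  So `Y ⊗_XL XOm → YOm` is a surjection of `XOm`-spaces of the same finite dimension: `IsPushout XL XOm Y YOm`; compose with `po`
  (`Algebra.IsPushout.comp` / `IsBaseChange.comp`) to get `IsPushout L Om Y YOm`.
* Gal5c (~250 lines) `exists_place_level`: `Om ⊆ V` (integral over `L ⊆ V`), `V ∩ XOm ≠ ⊤`, `exists_place_of_valuationSubring`, `Place.over_of_comap_eq`.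
* Gal5d (~400 lines) `level_ram`: `V` above `Q` (`Place.exists_above_of_mid`), `P'` (`exists_place_level`), `Q'` place of `YOm` below `V` (`Place.exists_mid`), `g` from
  `exists_isCanon`, `orderOf (φ g) = e(Q'|P')` (`IsCanon.orderOf_map`).  Take `t ∈ XL`, `P.v t = exp (-1)`.  Its two images in `YOm` (through `XOm`, through `Y`) agree since they
  agree in `E`.  `Q'.v t = (P'.v t) ^ e(Q'|P') = exp (- e(Q'|P'))` as `e(P'|P) = 1`, and `Q'.v t = Q.v t = exp (- e(Q|P))` as `e(Q'|Q) = 1`  (`Place.ramIdx_constExt_alg` twice).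
`level_dvd` is glue (proved).

Owner of the statements: helper256.
-/

set_option autoImplicit false

namespace Claimed.Agent.R280

open WithZero
open scoped Pointwise

section Level

variable {L Om XL XOm E : Type} [Field L] [Field Om] [Field XL] [Field XOm] [Field E]
  [Algebra L Om] [Algebra L XL] [Algebra Om XOm] [Algebra XL XOm] [Algebra L XOm]
  [IsScalarTower L Om XOm] [IsScalarTower L XL XOm] [Algebra XOm E] [Algebra XL E]
  [IsScalarTower XL XOm E] [IsAlgClosure XOm E]

omit [Algebra XOm E] [Algebra XL E] [IsScalarTower XL XOm E] [IsAlgClosure XOm E] [Field E] in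
/-- `XOm / XL` is integral -/
theorem lvl_isIntegral [Algebra.IsAlgebraic L Om] (po : Algebra.IsPushout L Om XL XOm) :
    Algebra.IsIntegral XL XOm := by
  refine ⟨fun x => ?_⟩
  induction x using po.symm.out.inductionOn with
  | zero => exact isIntegral_zero
  | tmul c =>
    have h1 : IsIntegral L c := Algebra.IsIntegral.isIntegral c
    have h2 : IsIntegral L (algebraMap Om XOm c) := h1.map (IsScalarTower.toAlgHom L Om XOm)
    exact h2.tower_top
  | smul s n hn => exact hn.smul s
  | add a b ha hb => exact ha.add hb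

theorem level_isAlgClosure [Algebra.IsAlgebraic L Om] (po : Algebra.IsPushout L Om XL XOm) :
    IsAlgClosure XL E := by
  have h1 : Algebra.IsIntegral XL XOm := lvl_isIntegral po
  have h2 : Algebra.IsAlgebraic XL XOm := h1.isAlgebraic
  have h3 : Algebra.IsAlgebraic XOm E := IsAlgClosure.isAlgebraic
  have h4 : IsAlgClosed E := IsAlgClosure.isAlgClosed XOm
  exact ⟨h4, Algebra.IsAlgebraic.trans XL XOm E⟩

theorem level_isGalois [CharZero L] [Algebra.IsAlgebraic L Om]
    (po : Algebra.IsPushout L Om XL XOm) : IsGalois XL E := by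
  have := level_isAlgClosure (E := E) po
  have : CharZero XL := charZero_of_injective_algebraMap (algebraMap L XL).injective
  infer_instance

variable [CharZero L] [IsAlgClosure L Om] [IsFF L XL] {J : Type} [Group J] [Finite J]

/-- the place of `XOm/Om` below a valuation ring of `E` that lies above a place of `XL/L` -/
theorem exists_place_level (po : Algebra.IsPushout L Om XL XOm) {P : Place L XL}
    {V : ValuationSubring E} (hV : P.Above E V) :
    ∃ P' : Place Om XOm, P'.Above E V ∧ P'.Over P := by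
  have halg : Algebra.IsAlgebraic L Om := IsAlgClosure.isAlgebraic
  have hFFOm : IsFF Om XOm := isFF_constExt_alg po
  have hcc : (V.comap (algebraMap XOm E)).comap (algebraMap XL XOm) = P.O := by
    rw [ValuationSubring.comap_comap, ← IsScalarTower.algebraMap_eq]
    exact hV
  have hL : ∀ a : L, algebraMap XOm E (algebraMap L XOm a) ∈ V := by
    intro a
    rw [IsScalarTower.algebraMap_apply L XL XOm, ← ValuationSubring.mem_comap,
      ← ValuationSubring.mem_comap, hcc]
    exact P.algebraMap_mem a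
  have hk : ∀ c : Om, algebraMap Om XOm c ∈ V.comap (algebraMap XOm E) := by
    intro c
    rw [ValuationSubring.mem_comap]
    have hc : IsIntegral L c := (halg.isAlgebraic c).isIntegral
    obtain ⟨q, hq, hq0⟩ := hc
    -- the image of `c` in `E` is integral over `V`
    have hint : IsIntegral V (algebraMap XOm E (algebraMap Om XOm c)) := by
      let φ : L →+* V := ((algebraMap XOm E).comp (algebraMap L XOm)).codRestrict V.toSubring hL
      refine ⟨q.map φ, hq.map φ, ?_⟩
      rw [Polynomial.eval₂_map]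
      have hφ : (algebraMap V E).comp φ
          = ((algebraMap XOm E).comp (algebraMap Om XOm)).comp (algebraMap L Om) := by
        ext a
        change algebraMap XOm E (algebraMap L XOm a) = _
        rw [IsScalarTower.algebraMap_apply L Om XOm]
        rfl
      rw [hφ]
      have h2 := Polynomial.hom_eval₂ q (algebraMap L Om)
        ((algebraMap XOm E).comp (algebraMap Om XOm)) c
      rw [hq0, map_zero] at h2
      exact h2.symm
    obtain ⟨y, hy⟩ := (IsIntegrallyClosed.isIntegral_iff (R := V) (K := E)).1 hint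
    rw [← hy]
    exact y.2
  have hT : V.comap (algebraMap XOm E) ≠ ⊤ := by
    intro htop
    rw [htop] at hcc
    obtain ⟨t, ht⟩ := P.surj (exp 1)
    have h1 : t ∈ P.O := by
      rw [← hcc, ValuationSubring.mem_comap]
      exact ValuationSubring.mem_top _
    rw [Valuation.mem_valuationSubring_iff, ht] at h1
    exact absurd h1 (not_le.2 (exp_lt_exp.2 (by norm_num : (0 : ℤ) < 1)))
  obtain ⟨P', hP'⟩ := exists_place_of_valuationSubring _ hk hT
  exact ⟨P', hP'.symm, Place.over_of_comap_eq (by rw [hP']; exact hcc)⟩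

variable {Y : Type} [Field Y] [Algebra XL Y] [Algebra L Y] [IsScalarTower L XL Y] [Algebra Y E]
  [IsScalarTower XL Y E]

omit [IsAlgClosure XOm E] [CharZero L] [IsAlgClosure L Om] [IsFF L XL] in
include XL in
/-- the two ways from `L` to `E` -/
theorem lvl_comp (l : L) : (algebraMap XOm E) (algebraMap Om XOm (algebraMap L Om l)) =
    algebraMap Y E (algebraMap L Y l) := by
  rw [← IsScalarTower.algebraMap_apply L Om XOm, IsScalarTower.algebraMap_apply L XL XOm,
    ← IsScalarTower.algebraMap_apply XL XOm E, IsScalarTower.algebraMap_apply L XL Y,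
    ← IsScalarTower.algebraMap_apply XL Y E]

omit [IsAlgClosure XOm E] [CharZero L] [IsFF L XL] in
include XL in
/-- an element of `Y` which is algebraic over `L` comes from `Om` -/
theorem lvl_exists_const (y : Y) (hy : IsAlgebraic L y) :
    ∃ c : Om, algebraMap XOm E (algebraMap Om XOm c) = algebraMap Y E y := by
  have hclosed : IsAlgClosed Om := IsAlgClosure.isAlgClosed L
  let _ : Algebra Om E := ((algebraMap XOm E).comp (algebraMap Om XOm)).toAlgebra
  obtain ⟨p, hp0, hp⟩ := hy
  have hint : IsAlgebraic Om (algebraMap Y E y) := by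
    refine ⟨p.map (algebraMap L Om), (Polynomial.map_ne_zero_iff (algebraMap L Om).injective).2 hp0, ?_⟩
    rw [Polynomial.aeval_def, Polynomial.eval₂_map]
    have e : (algebraMap Om E).comp (algebraMap L Om) = (algebraMap Y E).comp (algebraMap L Y) :=
      RingHom.ext fun l => lvl_comp (XL := XL) (XOm := XOm) l
    rw [e, ← Polynomial.hom_eval₂, ← Polynomial.aeval_def, hp, map_zero]
  have hdeg := IsAlgClosed.degree_eq_one_of_irreducible Om (minpoly.irreducible hint.isIntegral)
  obtain ⟨c, hc⟩ := minpoly.mem_range_of_degree_eq_one Om _ hdeg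
  exact ⟨c, hc⟩

theorem level_constants (po : Algebra.IsPushout L Om XL XOm) (ψ : (E ≃ₐ[XL] E) →* J)
    (hs : Function.Surjective (ψ.comp (resΓ XL : (E ≃ₐ[XOm] E) →* (E ≃ₐ[XL] E))))
    (hY : IsFixOf ψ.ker Y) (y : Y) (hy : IsAlgebraic L y) :
    y ∈ Set.range (algebraMap L Y) := by
  have halg : Algebra.IsAlgebraic L Om := IsAlgClosure.isAlgebraic
  have hgal : IsGalois XL E := level_isGalois po
  have hclosed : IsAlgClosed Om := IsAlgClosure.isAlgClosed L
  obtain ⟨c, hc⟩ := lvl_exists_const (Om := Om) (XL := XL) (XOm := XOm) (E := E) y hy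
  have hfix : ∀ σ : E ≃ₐ[XL] E, σ (algebraMap Y E y) = algebraMap Y E y := by
    intro σ
    obtain ⟨d, hd⟩ := hs (ψ σ)
    have hd' : ψ (resΓ XL d) = ψ σ := hd
    have hκ : (resΓ XL d)⁻¹ * σ ∈ ψ.ker := by
      rw [MonoidHom.mem_ker, map_mul, map_inv, hd', inv_mul_cancel]
    have h1 := (hY _).1 ⟨y, rfl⟩ _ hκ
    have h2 : σ (algebraMap Y E y) = resΓ XL d (algebraMap Y E y) := by
      have h3 := congrArg (resΓ XL d) h1
      rw [← AlgEquiv.mul_apply, mul_inv_cancel_left] at h3
      exact h3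
    rw [h2, ← hc]
    exact d.commutes _
  obtain ⟨x, hx⟩ := (InfiniteGalois.mem_range_algebraMap_iff_fixed _).2 hfix
  have hxy : algebraMap XL Y x = y :=
    (algebraMap Y E).injective (by rw [← IsScalarTower.algebraMap_apply, hx])
  have hxalg : IsAlgebraic L x := by
    rw [← hxy] at hy
    exact (isAlgebraic_algebraMap_iff (algebraMap XL Y).injective).1 hy
  obtain ⟨l, hl⟩ := algClosed_of_pushout po x hxalg
  exact ⟨l, by rw [IsScalarTower.algebraMap_apply L XL Y, hl, hxy]⟩

/-- the geometric cover `YOm = Y ⊗_L Om = Fix (ker φ)` -/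
theorem exists_geomCover (po : Algebra.IsPushout L Om XL XOm) (ψ : (E ≃ₐ[XL] E) →* J)
    (hψ : IsOpen (ψ.ker : Set (E ≃ₐ[XL] E)))
    (hs : Function.Surjective (ψ.comp (resΓ XL : (E ≃ₐ[XOm] E) →* (E ≃ₐ[XL] E))))
    (hY : IsFixOf ψ.ker Y) :
    ∃ (YOm : Type) (_ : Field YOm) (_ : Algebra Om YOm) (_ : Algebra XOm YOm) (_ : Algebra Y YOm)
      (_ : Algebra L YOm) (_ : Algebra YOm E) (_ : IsScalarTower Om XOm YOm)
      (_ : IsScalarTower XOm YOm E) (_ : IsScalarTower L Om YOm) (_ : IsScalarTower L Y YOm)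
      (_ : IsScalarTower Y YOm E) (_ : FiniteDimensional XOm YOm),
      Algebra.IsPushout L Om Y YOm ∧
        IsFixOf (ψ.comp (resΓ XL : (E ≃ₐ[XOm] E) →* (E ≃ₐ[XL] E))).ker YOm := by
  have := level_isGalois (E := E) po
  have : CharZero XOm := charZero_of_injective_algebraMap (algebraMap L XOm).injective
  exact gal5b_exists_geomCover po ψ hψ hs hY

/-- ramification in `Y/XL` is computed by canonical inertia elements of the geometric cover -/
theorem level_ram (po : Algebra.IsPushout L Om XL XOm) (ψ : (E ≃ₐ[XL] E) →* J)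
    (hψ : IsOpen (ψ.ker : Set (E ≃ₐ[XL] E)))
    (hs : Function.Surjective (ψ.comp (resΓ XL : (E ≃ₐ[XOm] E) →* (E ≃ₐ[XL] E))))
    (hY : IsFixOf ψ.ker Y) {ζ : Om} (hζ : IsPrimitiveRoot ζ (Nat.card J)) {P : Place L XL}
    {Q : Place L Y} (hQ : Q.Over P) :
    ∃ (P' : Place Om XOm) (V : ValuationSubring E) (g : E ≃ₐ[XOm] E), P'.Over P ∧ P'.Above E V ∧
      IsCanon E P' V (Nat.card J) ζ g ∧ orderOf (ψ (resΓ XL g)) = Q.ramIdx P := by
  have halg : Algebra.IsAlgebraic L Om := IsAlgClosure.isAlgebraic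
  have hOmC : IsAlgClosed Om := IsAlgClosure.isAlgClosed L
  have hOm0 : CharZero Om := charZero_of_injective_algebraMap (algebraMap L Om).injective
  have hAC : IsAlgClosure XL E := level_isAlgClosure po
  have hgal : IsGalois XL E := level_isGalois po
  have hfin : FiniteDimensional XL Y := hY.finite hψ
  have hFFY : IsFF L Y := isFF_of_finite L XL Y
  have hFFOm : IsFF Om XOm := isFF_constExt_alg po
  obtain ⟨V, hVQ⟩ := Q.exists_above_gen E
  have hVP : P.Above E V := Place.above_of_over hQ hVQ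
  obtain ⟨P', hP'V, hP'P⟩ := exists_place_level po hVP
  obtain ⟨YOm, _, _, _, _, _, _, _, _, _, _, _, _, hpo, hfix⟩ := exists_geomCover po ψ hψ hs hY
  obtain ⟨Q', hQ'V, hQ'P'⟩ := Place.exists_mid (k := Om) (M := XOm) (E := E) YOm hP'V
  have hm0 : 0 < Nat.card J := Nat.card_pos
  obtain ⟨g, hg⟩ := exists_isCanon hP'V hm0 hζ
  refine ⟨P', V, g, hP'P, hP'V, hg, ?_⟩
  have hφopen : IsOpen ((ψ.comp (resΓ XL : (E ≃ₐ[XOm] E) →* (E ≃ₐ[XL] E))).ker :
      Set (E ≃ₐ[XOm] E)) := by
    rw [← MonoidHom.comap_ker]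
    exact isOpen_comap_resΓ ψ.ker hψ
  have h1 : orderOf ((ψ.comp (resΓ XL : (E ≃ₐ[XOm] E) →* (E ≃ₐ[XL] E))) g) = Q'.ramIdx P' :=
    IsCanon.orderOf_map _ hφopen hP'V hζ dvd_rfl hm0 hg hfix hQ'V
  have hQ'Q : Q'.Over Q := by
    apply Place.over_of_comap_eq
    rw [← show V.comap (algebraMap YOm E) = Q'.O from hQ'V, ValuationSubring.comap_comap,
      ← IsScalarTower.algebraMap_eq]
    exact hVQ
  have e1 : Q'.ramIdx Q = 1 := Place.ramIdx_constExt_alg hpo hQ'Q
  have e2 : P'.ramIdx P = 1 := Place.ramIdx_constExt_alg po hP'P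
  let _ : Algebra XL YOm := ((algebraMap XOm YOm).comp (algebraMap XL XOm)).toAlgebra
  have t1 : IsScalarTower XL XOm YOm := IsScalarTower.of_algebraMap_eq fun _ => rfl
  have t2 : IsScalarTower XL Y YOm := IsScalarTower.of_algebraMap_eq fun t => by
    apply (algebraMap YOm E).injective
    rw [← IsScalarTower.algebraMap_apply Y YOm E, ← IsScalarTower.algebraMap_apply XL Y E,
      IsScalarTower.algebraMap_apply XL XOm YOm, ← IsScalarTower.algebraMap_apply XOm YOm E,
      ← IsScalarTower.algebraMap_apply XL XOm E]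
  have r1 : Q'.ramIdx P = Q'.ramIdx P' * P'.ramIdx P := Place.ramIdx_trans hQ'P' hP'P
  have r2 : Q'.ramIdx P = Q'.ramIdx Q * Q.ramIdx P := Place.ramIdx_trans hQ'Q hQ
  rw [e2, mul_one] at r1
  rw [e1, one_mul] at r2
  rw [← r2, r1, ← h1]
  rfl

end Level

section Dvd

variable {K L Om X XL XOm E : Type} [Field K] [Field L] [Field Om] [Field X] [Field XL] [Field XOm]
  [Field E] [Algebra K L] [Algebra K X] [Algebra K XL] [Algebra L XL] [Algebra X XL]
  [IsScalarTower K L XL] [IsScalarTower K X XL] [FiniteDimensional K L]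
  [Algebra L Om] [Algebra Om XOm] [Algebra XL XOm] [Algebra L XOm] [IsScalarTower L Om XOm]
  [IsScalarTower L XL XOm] [Algebra X XOm] [IsScalarTower X XL XOm]
  [Algebra XOm E] [Algebra XL E] [IsScalarTower XL XOm E] [IsAlgClosure XOm E] [CharZero L]
  [IsAlgClosure L Om] [IsFF L XL] {J : Type} [Group J] [Finite J]

/-- **a marked cover which descends to the level `L` forces `p ^ h ∣ [L : K]`** -/
theorem level_dvd (po1 : Algebra.IsPushout K L X XL) (po2 : Algebra.IsPushout L Om XL XOm)
    (p h : ℕ) (ψ : (E ≃ₐ[XL] E) →* J) (hψ : IsOpen (ψ.ker : Set (E ≃ₐ[XL] E))) {n : ℕ}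
    (ξ : Fin n → Place Om XOm) (Ξ : Set (Place K X))
    (hΞ : ∀ Q : Place Om XOm, Q ∈ Set.range ξ ↔ ∃ P ∈ Ξ, Q.Over P) (ζ : Om)
    (hζ : IsPrimitiveRoot ζ (Nat.card J)) (C : Multiset (ConjClasses J))
    (hC : ∀ c ∈ C, ∀ g : J, ConjClasses.mk g = c → p ∣ orderOf g)
    (hφ : ψ.comp (resΓ XL : (E ≃ₐ[XOm] E) →* (E ≃ₐ[XL] E)) ∈ Sur E J ξ ζ C)
    (nsc : NoSmallCover K X Ξ p h J) : p ^ h ∣ Module.finrank K L := by
  have := level_isGalois (E := E) po2
  let _ : Algebra L E := ((algebraMap XL E).comp (algebraMap L XL)).toAlgebra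
  have : IsScalarTower L XL E := IsScalarTower.of_algebraMap_eq fun _ => rfl
  obtain ⟨hopen, hs, hunr, c, hcC, hc⟩ := hφ
  have hY := isFixOf_fixedField ψ.ker
  have hfin : FiniteDimensional XL (IntermediateField.fixedField ψ.ker) := hY.finite hψ
  have hgal : IsGalois XL (IntermediateField.fixedField ψ.ker) := hY.isGalois hψ
  have hsψ : Function.Surjective ψ := fun j => by
    obtain ⟨g, hg⟩ := hs j
    exact ⟨_, hg⟩
  refine nsc L XL (IntermediateField.fixedField ψ.ker) po1
    (fun y hy => level_constants po2 ψ hs hY y hy) (hY.equiv ψ hψ hsψ) ?_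
  intro P₀ P Q hP hQ
  obtain ⟨P', V, g, hP'P, hab, hcan, hord⟩ := level_ram po2 ψ hψ hs hY hζ hQ
  have hP'0 : P'.Over P₀ := hP'P.trans hP
  constructor
  · intro h0
    obtain ⟨i, rfl⟩ := (hΞ P').2 ⟨P₀, h0, hP'0⟩
    rw [← hord]
    exact hC (c i) (by rw [← hcC]; exact Multiset.mem_map_of_mem _ (Finset.mem_univ_val i)) _
      (hc i V g hab hcan)
  · intro h0
    have hn : P' ∉ Set.range ξ := fun hmem => by
      obtain ⟨P₁, h1, h1'⟩ := (hΞ P').1 hmem
      exact h0 ((h1'.unique_below hP'0) ▸ h1)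
    rw [← hord]
    have h1 := hunr P' hn V hab g hcan.1
    rw [show ψ (resΓ XL g) = 1 from h1, orderOf_one]

end Dvd

end Claimed.Agent.R280
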