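import Claimed.Agent.R280.Gal.SurConj

/-!
# Row 280, package Gal: orbit counting and descent ("B0"), final glue

Tower `K ⊆ Om` (algebraic closure), `K ⊆ X` (function field), `XOm = X ⊗_K Om`, `E` algebraic closure of `XOm`.
`𝔊 = Gal(E/X) ⊵ Pi = Gal(E/XOm)`.

    card_sur_dvd  ⇐ sur_conj (Gal4) + stab_index_dvd + class equation
    stab_index_dvd ⇐ descent_group, descent_quotient, descent_index (Gal2) + exists_cLevel (Gal3b) + level_dvd (Gal5) + Gal3a

Everything in this file is proved.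
-/

set_option autoImplicit false

namespace Claimed.Agent.R280

open WithZero

theorem not_dvd_card_center {J : Type} [Group J] [Finite J] (p : ℕ) [Fact p.Prime]
    (hJ : ∀ N : Subgroup J, N.Normal → IsPGroup p N → N = ⊥) :
    ¬ p ∣ Nat.card (Subgroup.center J) := by
  intro hdvd
  obtain ⟨z, hz⟩ := exists_prime_orderOf_dvd_card' p hdvd
  have hzJ : orderOf (z : J) = p := by rw [Subgroup.orderOf_coe, hz]
  have hN : (Subgroup.zpowers (z : J)).Normal := by
    refine ⟨fun a ha g => ?_⟩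
    obtain ⟨k, rfl⟩ := Subgroup.mem_zpowers_iff.1 ha
    have hc : (z : J) ^ k ∈ Subgroup.center J := (Subgroup.center J).zpow_mem z.2 k
    have : g * (z : J) ^ k * g⁻¹ = (z : J) ^ k := by
      rw [Subgroup.mem_center_iff.1 hc g, mul_inv_cancel_right]
    rw [this]
    exact Subgroup.zpow_mem_zpowers _ k
  have hp : IsPGroup p (Subgroup.zpowers (z : J)) :=
    IsPGroup.of_card (n := 1) (by rw [Nat.card_zpowers, hzJ, pow_one])
  have hbot := hJ _ hN hp
  rw [Subgroup.zpowers_eq_bot] at hbot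
  rw [hbot, orderOf_one] at hzJ
  exact (Fact.out : p.Prime).one_lt.ne hzJ

section

variable {K Om X XOm E : Type} [Field K] [Field Om] [Field X] [Field XOm] [Field E]
    [Algebra K Om] [Algebra K X] [Algebra Om XOm] [Algebra X XOm] [Algebra K XOm]
    [IsScalarTower K Om XOm] [IsScalarTower K X XOm] [Algebra XOm E] [IsAlgClosure XOm E]
    [Algebra X E] [IsScalarTower X XOm E] [CharZero K] [IsAlgClosure K Om] [IsFF K X]
    {J : Type} [Group J] [Finite J] {n : ℕ}

theorem stab_index_dvd [(piSub X XOm E).Normal] (po : Algebra.IsPushout K Om X XOm)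
    (p h : ℕ) [Fact p.Prime] (hJ : ∀ N : Subgroup J, N.Normal → IsPGroup p N → N = ⊥)
    (ξ : Fin n → Place Om XOm) (Ξ : Set (Place K X))
    (hΞ : ∀ Q : Place Om XOm, Q ∈ Set.range ξ ↔ ∃ P ∈ Ξ, Q.Over P)
    (ζ : K) (hζ : IsPrimitiveRoot ζ (Nat.card J)) (nsc : NoSmallCover K X Ξ p h J)
    (C : Multiset (ConjClasses J)) (hC : ∀ c ∈ C, ∀ g : J, ConjClasses.mk g = c → p ∣ orderOf g)
    {φ : (E ≃ₐ[XOm] E) →* J} (hφ : φ ∈ Sur E J ξ (algebraMap K Om ζ) C) :
    p ^ h ∣ (stabHom (piSub X XOm E) (φ.comp (piEquiv X XOm E).symm.toMonoidHom)).index := by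
  have := isGalois_E (E := E) po
  have hsφ : Function.Surjective φ := hφ.2.1
  have hsφ' : Function.Surjective (φ.comp (piEquiv X XOm E).symm.toMonoidHom) :=
    hsφ.comp (piEquiv X XOm E).symm.surjective
  have hkermap : (φ.comp (piEquiv X XOm E).symm.toMonoidHom).ker.map (piSub X XOm E).subtype
      = φ.ker.map (AlgEquiv.restrictScalarsHom X) := by
    ext g
    simp only [Subgroup.mem_map, MonoidHom.mem_ker]
    constructor
    · rintro ⟨a, ha, rfl⟩
      refine ⟨(piEquiv X XOm E).symm a, ha, ?_⟩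
      have := (piEquiv X XOm E).apply_symm_apply a
      exact congrArg Subtype.val this
    · rintro ⟨a, ha, rfl⟩
      refine ⟨piEquiv X XOm E a, ?_, rfl⟩
      simpa using ha
  obtain ⟨U, hU, hUle⟩ := ker_open_in po φ.ker hφ.1
  obtain ⟨hSt, C₂, hC₂o, hC₂le, hC₂inf, hC₂idx⟩ := descent_group (piSub X XOm E)
    (basis_open_normal po) p (not_dvd_card_center p hJ) _ hsφ' ⟨U, hU, by rw [hkermap]; exact hUle⟩
  have hHo : IsOpen ((C₂ ⊔ piSub X XOm E : Subgroup (E ≃ₐ[X] E)) : Set (E ≃ₐ[X] E)) :=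
    Subgroup.isOpen_mono le_sup_left hC₂o
  obtain ⟨T, hTr, hTi⟩ := exists_cLevel po (C₂ ⊔ piSub X XOm E) hHo le_sup_right
  obtain ⟨ψ₀, hψ₀s, hψ₀k, hψ₀φ⟩ := descent_quotient (piSub X XOm E) _ hsφ' C₂ hC₂le hC₂inf
  let ι : (E ≃ₐ[T.XL] E) →* (C₂ ⊔ piSub X XOm E : Subgroup (E ≃ₐ[X] E)) :=
    (resΓ X : (E ≃ₐ[T.XL] E) →* (E ≃ₐ[X] E)).codRestrict _ (fun g => hTr ▸ ⟨g, rfl⟩)
  have hψk : (ψ₀.comp ι).ker = C₂.comap (resΓ X : (E ≃ₐ[T.XL] E) →* (E ≃ₐ[X] E)) := by
    ext g
    rw [MonoidHom.mem_ker, MonoidHom.comp_apply, ← MonoidHom.mem_ker, hψ₀k]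
    rfl
  have hψo : IsOpen ((ψ₀.comp ι).ker : Set (E ≃ₐ[T.XL] E)) := by
    rw [hψk]; exact isOpen_comap_resΓ C₂ hC₂o
  have hψφ : (ψ₀.comp ι).comp (resΓ T.XL : (E ≃ₐ[XOm] E) →* (E ≃ₐ[T.XL] E)) = φ := by
    ext π
    have h1 := hψ₀φ (piEquiv X XOm E π)
    have h2 : (φ.comp (piEquiv X XOm E).symm.toMonoidHom) (piEquiv X XOm E π) = φ π := by simp
    rw [h2] at h1
    rw [← h1]
    rfl
  have : CharZero T.L := charZero_of_injective_algebraMap (algebraMap K T.L).injective
  have : IsAlgClosure T.L Om :=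
    ⟨IsAlgClosure.isAlgClosed K, Algebra.IsAlgebraic.tower_top (K := K) T.L⟩
  have : IsFF T.L T.XL := isFF_constExt T.po1
  have key := level_dvd T.po1 T.po2 p h (ψ₀.comp ι) hψo ξ Ξ hΞ (algebraMap K Om ζ)
    (hζ.map_of_injective (algebraMap K Om).injective) C hC (hψφ ▸ hφ) nsc
  rw [hTi] at key
  have hidx := descent_index (piSub X XOm E) _ hsφ' C₂ hC₂le hC₂inf
  have h3 : p ^ h ∣ (stabHom (piSub X XOm E) (φ.comp (piEquiv X XOm E).symm.toMonoidHom)).index *
      C₂.relIndex (stabHom (piSub X XOm E) (φ.comp (piEquiv X XOm E).symm.toMonoidHom)) :=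
    hidx ▸ Dvd.dvd.mul_right key _
  exact (Nat.Coprime.pow_left h
    ((Nat.Prime.coprime_iff_not_dvd Fact.out).2 hC₂idx)).dvd_of_dvd_mul_right h3

/-- the action of `𝔊` on homomorphisms `Pi → J` -/
@[instance_reducible] noncomputable def galMulAction [(piSub X XOm E).Normal] :
    MulAction (E ≃ₐ[X] E) ((E ≃ₐ[XOm] E) →* J) where
  smul σ φ := conjHom σ⁻¹ φ
  one_smul φ := by
    show conjHom (1 : E ≃ₐ[X] E)⁻¹ φ = φ
    ext g
    simp [conjHom]
  mul_smul σ τ φ := by
    show conjHom (σ * τ)⁻¹ φ = conjHom σ⁻¹ (conjHom τ⁻¹ φ)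
    ext g
    simp [conjHom, mul_inv_rev, map_mul]

omit [IsAlgClosure XOm E] [Finite J] in
theorem stabilizer_galMulAction [(piSub X XOm E).Normal] (φ : (E ≃ₐ[XOm] E) →* J) :
    @MulAction.stabilizer _ _ _ galMulAction φ
      = stabHom (piSub X XOm E) (φ.comp (piEquiv X XOm E).symm.toMonoidHom) := by
  ext σ
  rw [← inv_mem_iff (H := stabHom (piSub X XOm E) (φ.comp (piEquiv X XOm E).symm.toMonoidHom))]
  let _ := galMulAction (X := X) (XOm := XOm) (E := E) (J := J)
  rw [MulAction.mem_stabilizer_iff]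
  show conjHom σ⁻¹ φ = φ ↔ ∀ π : piSub X XOm E, _
  constructor
  · intro h π
    have := DFunLike.congr_fun h ((piEquiv X XOm E).symm π)
    simpa [conjHom] using this
  · intro h
    ext g
    have := h (piEquiv X XOm E g)
    simpa [conjHom] using this

end

theorem dvd_card_of_stable {G A : Type} [Group G] [MulAction G A] (q : ℕ) (S : Set A)
    (hS : ∀ g : G, ∀ a ∈ S, g • a ∈ S)
    (hq : ∀ a ∈ S, q ∣ (MulAction.stabilizer G a).index) : q ∣ Nat.card S := by
  by_cases hfin : S.Finite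
  · rw [Nat.card_coe_set_eq]
    induction hn : S.ncard using Nat.strong_induction_on generalizing S with
    | _ N ih =>
      rcases S.eq_empty_or_nonempty with rfl | ⟨a, ha⟩
      · simp at hn; subst hn; exact dvd_zero _
      · have horb : MulAction.orbit G a ⊆ S := by
          rintro _ ⟨g, rfl⟩; exact hS g a ha
        have hcard := Set.ncard_sdiff_add_ncard_of_subset horb hfin
        have h1 : q ∣ (MulAction.orbit G a).ncard := by
          rw [← MulAction.index_stabilizer]; exact hq a ha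
        have hpos : 0 < (MulAction.orbit G a).ncard :=
          (Set.ncard_pos (hfin.subset horb)).2 ⟨a, MulAction.mem_orbit_self a⟩
        have h2 : q ∣ (S \ MulAction.orbit G a).ncard := by
          refine ih _ (by omega) (S \ MulAction.orbit G a) ?_ (fun b hb => hq b hb.1)
            (hfin.subset Set.sdiff_subset) rfl
          intro g b hb
          refine ⟨hS g b hb.1, fun hmem => hb.2 ?_⟩
          have := (MulAction.orbit G a).smul_mem_smul_set (a := g⁻¹) hmem
          rwa [inv_smul_smul, MulAction.smul_orbit] at this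
        rw [← hn, ← hcard]
        exact dvd_add h2 h1
  · have : Infinite S := Set.infinite_coe_iff.2 hfin
    rw [Nat.card_eq_zero_of_infinite]
    exact dvd_zero _

/-- **B0.** Galois orbits of marked covers are large: `p ^ h` divides the number of marked covers. -/
theorem card_sur_dvd {K Om X XOm E : Type} [Field K] [Field Om] [Field X] [Field XOm] [Field E]
    [Algebra K Om] [Algebra K X] [Algebra Om XOm] [Algebra X XOm] [Algebra K XOm]
    [IsScalarTower K Om XOm] [IsScalarTower K X XOm] [Algebra XOm E] [IsAlgClosure XOm E]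
    [CharZero K] [IsAlgClosure K Om] [IsFF K X] (po : Algebra.IsPushout K Om X XOm)
    (p h : ℕ) [Fact p.Prime] (J : Type) [Group J] [Finite J]
    (hJ : ∀ N : Subgroup J, N.Normal → IsPGroup p N → N = ⊥)
    {n : ℕ} (_hn : 0 < n) (ξ : Fin n → Place Om XOm) (hinj : Function.Injective ξ)
    (Ξ : Set (Place K X))
    (hΞ : ∀ Q : Place Om XOm, Q ∈ Set.range ξ ↔ ∃ P ∈ Ξ, Q.Over P)
    (ζ : K) (hζ : IsPrimitiveRoot ζ (Nat.card J))
    (nsc : NoSmallCover K X Ξ p h J)
    (C : Multiset (ConjClasses J)) (hC : ∀ c ∈ C, ∀ g : J, ConjClasses.mk g = c → p ∣ orderOf g) :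
    p ^ h ∣ Nat.card (Sur E J ξ (algebraMap K Om ζ) C) := by
  let _ : Algebra X E := ((algebraMap XOm E).comp (algebraMap X XOm)).toAlgebra
  have : IsScalarTower X XOm E := IsScalarTower.of_algebraMap_eq fun _ => rfl
  have := piSub_normal (E := E) po
  let _ := galMulAction (X := X) (XOm := XOm) (E := E) (J := J)
  refine dvd_card_of_stable (G := E ≃ₐ[X] E) (p ^ h) _
    (fun σ φ hφ => sur_conj po ξ hinj Ξ hΞ ζ C σ⁻¹ hφ) (fun φ hφ => ?_)
  rw [stabilizer_galMulAction]
  exact stab_index_dvd po p h hJ ξ Ξ hΞ ζ hζ nsc C hC hφ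

end Claimed.Agent.R280
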