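import Claimed.Agent.R280.Gal.Tower

/-!
# Row 280, package Gal4 (`Gal/SurConj.lean`): `𝔊 = Gal(E/X)` acts on the marked covers

* Gal4a (~450 lines) `exists_galAct`, `Place.above_transport`, `Place.over_transport`, `IsCanon.transport`, `conjHom_apply`.
  - `exists_galAct`: `σ` maps the image of `XOm` in `E` onto itself (it is `Fix Pi`, `Pi` normal; or: it is generated by the images of `X` and `Om`, and the image of `Om` is the set of
    elements algebraic over `K`).  `s := (XOm ≃ image) ∘ σ ∘ (image ≃ XOm)`.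
  - `IsCanon.transport`: uniformiser `s π`, root `σ τ`; `g' (σ τ) = σ (g τ) = σ (ζ τ) = ζ σ τ` because `ζ ∈ K`.
* Gal4b (~350 lines) `sur_conj`.  `φ' = conjHom σ φ`, `φ' g = φ g'` with `g' = σ g σ⁻¹`.
  - kernel: `ker φ' = ` preimage of `ker φ` under the homeomorphism `g ↦ σ g σ⁻¹` of `Pi`.  Cheapest route: `ker_open_in` gives `U` with `U ⊓ Pi ≤ ker φ`; then `σ⁻¹ U σ ⊓ Pi ≤ ker φ'`, and
    `isOpen_comap_resΓ` + `Subgroup.isOpen_mono`.
  - unramified outside `ξ`: `P ∉ range ξ`, `V` above `P`, `g • V = V` ⇒ `g'` fixes `σ • V`, which is above `σ P`; `σ P ∉ range ξ` because `σ P` and `P` lie over the same place of `X`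
    (`hΞ`, applied to `σ` and to `σ⁻¹`... or: if `σ P ∈ range ξ` then `σ P` is over some `P₀ ∈ Ξ`, so is `P` (`Place.over_transport` for the inverse), so `P ∈ range ξ`).
  - classes: `ρ : Fin n → Fin n` with `ξ (ρ i) = σ (ξ i)`; injective because `ξ` and the transport are; `c' = c ∘ ρ`; `Finset.univ.val.map (c ∘ ρ) = Finset.univ.val.map c`
    (`Equiv.ofBijective`, `Finset.map_univ_equiv` / `Multiset.map_map`).

Owner of the statements: helper256.
-/

set_option autoImplicit false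

namespace Claimed.Agent.R280

open WithZero
open scoped Pointwise

variable {K Om X XOm E : Type} [Field K] [Field Om] [Field X] [Field XOm] [Field E]
    [Algebra K Om] [Algebra K X] [Algebra Om XOm] [Algebra X XOm] [Algebra K XOm]
    [IsScalarTower K Om XOm] [IsScalarTower K X XOm] [Algebra XOm E] [IsAlgClosure XOm E]
    [Algebra X E] [IsScalarTower X XOm E] [CharZero K] [IsAlgClosure K Om] [IsFF K X]

/-- `s` is the automorphism of `XOm` induced by `σ ∈ Gal(E/X)` -/
structure IsGalAct (σ : E ≃ₐ[X] E) (s : XOm ≃+* XOm) : Prop where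
  compat : ∀ z, algebraMap XOm E (s z) = σ (algebraMap XOm E z)
  fixX : ∀ x : X, s (algebraMap X XOm x) = algebraMap X XOm x
  mapOm : ∀ c : Om, ∃ c' : Om, s (algebraMap Om XOm c) = algebraMap Om XOm c'
  mapOm' : ∀ c : Om, ∃ c' : Om, s.symm (algebraMap Om XOm c) = algebraMap Om XOm c'
  fixK : ∀ a : K, s (algebraMap Om XOm (algebraMap K Om a)) = algebraMap Om XOm (algebraMap K Om a)

omit [IsAlgClosure XOm E] [CharZero K] [IsFF K X] [IsAlgClosure K Om] in
/-- the image of `K` in `E`, through `Om` and through `X` -/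
theorem sc_algebraMap_K (a : K) :
    algebraMap XOm E (algebraMap Om XOm (algebraMap K Om a)) = algebraMap X E (algebraMap K X a) := by
  rw [← IsScalarTower.algebraMap_apply K Om XOm, IsScalarTower.algebraMap_apply K X XOm,
    ← IsScalarTower.algebraMap_apply X XOm E]

omit [IsAlgClosure XOm E] in
/-- an `X`-automorphism of `E` maps the image of `Om` into itself -/
theorem sc_map_Om (K : Type) [Field K] [Algebra K Om] [Algebra K X] [Algebra K XOm]
    [IsScalarTower K Om XOm] [IsScalarTower K X XOm] [IsAlgClosure K Om] (σ : E ≃ₐ[X] E) (c : Om) :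
    ∃ c' : Om, σ (algebraMap XOm E (algebraMap Om XOm c)) = algebraMap XOm E (algebraMap Om XOm c') := by
  let _ : Algebra Om E := ((algebraMap XOm E).comp (algebraMap Om XOm)).toAlgebra
  let _ : Algebra K E := ((algebraMap X E).comp (algebraMap K X)).toAlgebra
  have : IsScalarTower K X E := IsScalarTower.of_algebraMap_eq fun _ => rfl
  have : IsScalarTower K Om E := IsScalarTower.of_algebraMap_eq fun a =>
    (sc_algebraMap_K (Om := Om) (X := X) (XOm := XOm) (E := E) a).symm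
  have : IsAlgClosed Om := IsAlgClosure.isAlgClosed K
  have h1 : IsIntegral K c := (IsAlgClosure.isAlgebraic (R := K) (K := Om)).isIntegral.isIntegral c
  have h2 : IsIntegral K (algebraMap Om E c) := h1.algebraMap
  have h3 : IsIntegral K (σ (algebraMap Om E c)) := h2.map (σ.restrictScalars K)
  have h4 : IsIntegral Om (σ (algebraMap Om E c)) := h3.tower_top
  have h5 : (minpoly Om (σ (algebraMap Om E c))).degree = 1 :=
    IsAlgClosed.degree_eq_one_of_irreducible Om (minpoly.irreducible h4)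
  obtain ⟨c', hc'⟩ := minpoly.mem_range_of_degree_eq_one Om _ h5
  exact ⟨c', hc'.symm⟩

omit [IsAlgClosure XOm E] [CharZero K] [IsFF K X] in
/-- an `X`-automorphism of `E` maps the image of `XOm` into itself -/
theorem sc_map_XOm (po : Algebra.IsPushout K Om X XOm) (σ : E ≃ₐ[X] E) (z : XOm) :
    ∃ w : XOm, algebraMap XOm E w = σ (algebraMap XOm E z) := by
  refine po.out.inductionOn z (fun z => ∃ w : XOm, algebraMap XOm E w = σ (algebraMap XOm E z)) ?_ ?_ ?_ ?_
  · exact ⟨0, by simp⟩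
  · intro x
    refine ⟨algebraMap X XOm x, ?_⟩
    show _ = σ (algebraMap XOm E (algebraMap X XOm x))
    rw [← IsScalarTower.algebraMap_apply X XOm E, σ.commutes]
  · rintro c z ⟨w, hw⟩
    obtain ⟨c', hc'⟩ := sc_map_Om (XOm := XOm) K σ c
    refine ⟨algebraMap Om XOm c' * w, ?_⟩
    rw [Algebra.smul_def, map_mul, map_mul, map_mul, hw, hc']
  · rintro z₁ z₂ ⟨w₁, h₁⟩ ⟨w₂, h₂⟩
    exact ⟨w₁ + w₂, by rw [map_add, map_add, map_add, h₁, h₂]⟩

/-- the ring automorphism induced on a subfield stable under `σ` and `σ⁻¹` -/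
noncomputable def scEquiv {A B : Type*} [Field A] [Field B] (j : A →+* B) (σ : B ≃+* B)
    (h : ∀ z, ∃ w, j w = σ (j z)) (h' : ∀ z, ∃ w, j w = σ.symm (j z)) : A ≃+* A where
  toFun z := (h z).choose
  invFun z := (h' z).choose
  left_inv z := j.injective (by rw [(h' _).choose_spec, (h z).choose_spec, σ.symm_apply_apply])
  right_inv z := j.injective (by rw [(h _).choose_spec, (h' z).choose_spec, σ.apply_symm_apply])
  map_mul' a b := j.injective (by
    rw [(h _).choose_spec, map_mul, map_mul, map_mul, (h a).choose_spec, (h b).choose_spec])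
  map_add' a b := j.injective (by
    rw [(h _).choose_spec, map_add, map_add, map_add, (h a).choose_spec, (h b).choose_spec])

theorem scEquiv_spec {A B : Type*} [Field A] [Field B] (j : A →+* B) (σ : B ≃+* B)
    (h : ∀ z, ∃ w, j w = σ (j z)) (h' : ∀ z, ∃ w, j w = σ.symm (j z)) (z : A) :
    j (scEquiv j σ h h' z) = σ (j z) := (h z).choose_spec

theorem scEquiv_symm_spec {A B : Type*} [Field A] [Field B] (j : A →+* B) (σ : B ≃+* B)
    (h : ∀ z, ∃ w, j w = σ (j z)) (h' : ∀ z, ∃ w, j w = σ.symm (j z)) (z : A) :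
    j ((scEquiv j σ h h').symm z) = σ.symm (j z) := (h' z).choose_spec

theorem exists_galAct (po : Algebra.IsPushout K Om X XOm) (σ : E ≃ₐ[X] E) :
    ∃ s : XOm ≃+* XOm, IsGalAct (Om := Om) (K := K) σ s := by
  have h : ∀ z, ∃ w, algebraMap XOm E w = σ.toRingEquiv (algebraMap XOm E z) := sc_map_XOm po σ
  have h' : ∀ z, ∃ w, algebraMap XOm E w = σ.toRingEquiv.symm (algebraMap XOm E z) := sc_map_XOm po σ.symm
  have inj := (algebraMap XOm E).injective
  have hfix : ∀ x : X, scEquiv _ _ h h' (algebraMap X XOm x) = algebraMap X XOm x := by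
    intro x
    apply inj
    rw [scEquiv_spec, ← IsScalarTower.algebraMap_apply X XOm E]
    exact σ.commutes x
  refine ⟨scEquiv _ _ h h', scEquiv_spec _ _ h h', hfix, ?_, ?_, ?_⟩
  · intro c
    obtain ⟨c', hc'⟩ := sc_map_Om (XOm := XOm) K σ c
    refine ⟨c', inj ?_⟩
    rw [scEquiv_spec]
    exact hc'
  · intro c
    obtain ⟨c', hc'⟩ := sc_map_Om (XOm := XOm) K σ.symm c
    refine ⟨c', inj ?_⟩
    rw [scEquiv_symm_spec]
    exact hc'
  · intro a
    rw [← IsScalarTower.algebraMap_apply K Om XOm, IsScalarTower.algebraMap_apply K X XOm]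
    exact hfix _

omit [IsAlgClosure XOm E] [CharZero K] [IsAlgClosure K Om] [IsFF K X] [Algebra K XOm]
  [IsScalarTower K Om XOm] [IsScalarTower K X XOm] in
theorem Place.above_transport {σ : E ≃ₐ[X] E} {s : XOm ≃+* XOm}
    (hs : IsGalAct (Om := Om) (K := K) σ s) {P : Place Om XOm} {V : ValuationSubring E}
    (hV : P.Above E V) : (P.transport s hs.mapOm').Above E (σ • V) := by
  unfold Place.Above at hV ⊢
  ext f
  have hV' : ∀ z : XOm, P.v z ≤ 1 ↔ algebraMap XOm E z ∈ V := by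
    intro z
    rw [← Valuation.mem_valuationSubring_iff, ← ValuationSubring.mem_comap]
    exact iff_of_eq (congrArg (z ∈ ·) hV.symm)
  rw [ValuationSubring.mem_comap, Valuation.mem_valuationSubring_iff, Place.transport_v_apply, hV',
    ValuationSubring.mem_pointwise_smul_iff_inv_smul_mem]
  have h1 : σ⁻¹ • algebraMap XOm E f = algebraMap XOm E (s.symm f) := by
    have h2 := hs.compat (s.symm f)
    rw [RingEquiv.apply_symm_apply] at h2
    rw [h2]
    show σ⁻¹ (σ _) = _
    exact σ.symm_apply_apply _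
  rw [h1]

omit [IsAlgClosure XOm E] [CharZero K] [IsAlgClosure K Om] [IsFF K X] [Algebra K XOm]
  [IsScalarTower K Om XOm] [IsScalarTower K X XOm] in
theorem Place.over_transport {σ : E ≃ₐ[X] E} {s : XOm ≃+* XOm}
    (hs : IsGalAct (Om := Om) (K := K) σ s) {P : Place Om XOm} {P₀ : Place K X} :
    (P.transport s hs.mapOm').Over P₀ ↔ P.Over P₀ := by
  have h1 : ∀ f : X, s.symm (algebraMap X XOm f) = algebraMap X XOm f := by
    intro f
    rw [RingEquiv.symm_apply_eq, hs.fixX]
  unfold Place.Over Place.OverE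
  simp only [Place.transport_v_apply, h1]

omit [IsAlgClosure XOm E] [CharZero K] [IsAlgClosure K Om] [IsFF K X] [Algebra K XOm]
  [IsScalarTower K Om XOm] [IsScalarTower K X XOm] in
theorem IsCanon.transport {σ : E ≃ₐ[X] E} {s : XOm ≃+* XOm}
    (hs : IsGalAct (Om := Om) (K := K) σ s) {P : Place Om XOm} {V : ValuationSubring E} {m : ℕ}
    {ζ : K} {g g' : E ≃ₐ[XOm] E} (hg : IsCanon E P V m (algebraMap K Om ζ) g)
    (hg' : resΓ X g' = σ * resΓ X g * σ⁻¹) :
    IsCanon E (P.transport s hs.mapOm') (σ • V) m (algebraMap K Om ζ) g' := by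
  obtain ⟨hgV, π, τ, hπ, hτ, hgτ⟩ := hg
  have happ : ∀ z : E, g' (σ z) = σ (g z) := by
    intro z
    have h1 : resΓ X g' (σ z) = (σ * resΓ X g * σ⁻¹) (σ z) := by rw [hg']
    have h2 : (σ * resΓ X g * σ⁻¹) (σ z) = σ (g (σ⁻¹ (σ z))) := rfl
    have h3 : σ⁻¹ (σ z) = z := σ.symm_apply_apply z
    rw [h2, h3] at h1
    exact h1
  refine ⟨?_, s π, σ τ, ?_, ?_, ?_⟩
  · rw [← resΓ_smul (KK := X) g', hg', ← mul_smul, inv_mul_cancel_right, mul_smul, resΓ_smul, hgV]
  · rw [Place.transport_v_apply, RingEquiv.symm_apply_apply, hπ]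
  · rw [← map_pow, hτ, hs.compat]
  · rw [happ, hgτ, map_mul, ← hs.compat, hs.fixK]

variable {J : Type} [Group J] {n : ℕ}

/-- `φ ↦ φ ∘ conj σ` -/
noncomputable def conjHom [(piSub X XOm E).Normal] (σ : E ≃ₐ[X] E) (φ : (E ≃ₐ[XOm] E) →* J) :
    (E ≃ₐ[XOm] E) →* J :=
  φ.comp ((piEquiv X XOm E).symm.toMonoidHom.comp
    ((MulAut.conjNormal σ : MulAut (piSub X XOm E)).toMonoidHom.comp (piEquiv X XOm E).toMonoidHom))

omit [IsAlgClosure XOm E] in
theorem conjHom_apply [(piSub X XOm E).Normal] (σ : E ≃ₐ[X] E) (φ : (E ≃ₐ[XOm] E) →* J)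
    {g g' : E ≃ₐ[XOm] E} (hg' : resΓ X g' = σ * resΓ X g * σ⁻¹) : conjHom σ φ g = φ g' := by
  show φ ((piEquiv X XOm E).symm (MulAut.conjNormal σ (piEquiv X XOm E g))) = φ g'
  congr 1
  rw [MulEquiv.symm_apply_eq]
  apply Subtype.ext
  rw [MulAut.conjNormal_apply]
  exact hg'.symm

theorem sur_conj [Finite J] [(piSub X XOm E).Normal] (po : Algebra.IsPushout K Om X XOm)
    (ξ : Fin n → Place Om XOm) (hinj : Function.Injective ξ) (Ξ : Set (Place K X))
    (hΞ : ∀ Q : Place Om XOm, Q ∈ Set.range ξ ↔ ∃ P ∈ Ξ, Q.Over P) (ζ : K)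
    (C : Multiset (ConjClasses J)) (σ : E ≃ₐ[X] E) {φ : (E ≃ₐ[XOm] E) →* J}
    (hφ : φ ∈ Sur E J ξ (algebraMap K Om ζ) C) :
    conjHom σ φ ∈ Sur E J ξ (algebraMap K Om ζ) C := by
  obtain ⟨hopen, hsurj, hunr, c, hc, hcl⟩ := hφ
  obtain ⟨s, hs⟩ := exists_galAct (Om := Om) (K := K) po σ
  -- the conjugation on `Pi`
  obtain ⟨cj, hcjdef⟩ : ∃ cj : (E ≃ₐ[XOm] E) → (E ≃ₐ[XOm] E), cj = fun g =>
      (piEquiv X XOm E).symm (MulAut.conjNormal σ (piEquiv X XOm E g)) := ⟨_, rfl⟩
  have hcj : ∀ g, resΓ X (cj g) = σ * resΓ X g * σ⁻¹ := by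
    intro g
    have h1 : ((piEquiv X XOm E) (cj g) : E ≃ₐ[X] E) = σ * resΓ X g * σ⁻¹ := by
      rw [hcjdef]
      show ((piEquiv X XOm E) ((piEquiv X XOm E).symm _) : E ≃ₐ[X] E) = _
      rw [MulEquiv.apply_symm_apply, MulAut.conjNormal_apply]
      rfl
    exact h1
  have hφ' : ∀ g, conjHom σ φ g = φ (cj g) := fun g => conjHom_apply σ φ (hcj g)
  have hfix : ∀ (V : ValuationSubring E) (g : E ≃ₐ[XOm] E), g • V = V → cj g • (σ • V) = σ • V := by
    intro V g hg
    rw [← resΓ_smul (KK := X) (cj g), hcj, ← mul_smul, inv_mul_cancel_right, mul_smul, resΓ_smul, hg]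
  have hrange : ∀ P : Place Om XOm, P.transport s hs.mapOm' ∈ Set.range ξ ↔ P ∈ Set.range ξ := by
    intro P
    rw [hΞ, hΞ]
    simp only [Place.over_transport hs]
  refine ⟨?_, ?_, ?_, ?_⟩
  · obtain ⟨U, hU, hUle⟩ := ker_open_in po φ.ker hopen
    have hcont : Continuous fun x : E ≃ₐ[X] E => σ * x * σ⁻¹ := by fun_prop
    have hU' : IsOpen ((U.comap (MulAut.conj σ).toMonoidHom : Subgroup (E ≃ₐ[X] E)) : Set (E ≃ₐ[X] E)) :=
      hU.preimage hcont
    refine Subgroup.isOpen_mono (H₁ := (U.comap (MulAut.conj σ).toMonoidHom).comap (resΓ X)) ?_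
      (isOpen_comap_resΓ _ hU')
    intro g hg
    have h1 : σ * resΓ X g * σ⁻¹ ∈ U := hg
    rw [← hcj g] at h1
    have h2 : resΓ X (cj g) ∈ U ⊓ piSub X XOm E := ⟨h1, ⟨cj g, rfl⟩⟩
    obtain ⟨h, hh, hheq⟩ := hUle h2
    have h3 : h = cj g := resΓ_injective hheq
    rw [MonoidHom.mem_ker, hφ', ← h3]
    exact hh
  · intro x
    obtain ⟨g, rfl⟩ := hsurj x
    refine ⟨(piEquiv X XOm E).symm ((MulAut.conjNormal σ).symm (piEquiv X XOm E g)), ?_⟩
    rw [hφ', hcjdef]
    congr 1
    simp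
  · intro P hP V hV g hg
    rw [hφ']
    exact hunr _ (fun h => hP ((hrange P).1 h)) (σ • V) (Place.above_transport hs hV) (cj g) (hfix V g hg)
  · have hex : ∀ i, ∃ j, ξ j = (ξ i).transport s hs.mapOm' := fun i => (hrange (ξ i)).2 ⟨i, rfl⟩
    choose ρ hρ using hex
    have hρinj : Function.Injective ρ := by
      intro i i' h
      apply hinj
      have h1 : (ξ i).transport s hs.mapOm' = (ξ i').transport s hs.mapOm' := by rw [← hρ, ← hρ, h]
      ext z
      have h2 := congrArg (fun R : Place Om XOm => R.v (s z)) h1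
      simpa using h2
    have hρbij : Function.Bijective ρ := Finite.injective_iff_bijective.1 hρinj
    refine ⟨c ∘ ρ, ?_, ?_⟩
    · rw [← hc, ← Multiset.map_map]
      congr 1
      exact Multiset.map_univ_val_equiv (Equiv.ofBijective ρ hρbij)
    · intro i V g hV hg
      rw [hφ']
      have h1 := hcl (ρ i) (σ • V) (cj g)
      rw [hρ] at h1
      exact h1 (Place.above_transport hs hV) (IsCanon.transport hs hg (hcj g))

end Claimed.Agent.R280
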