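import Claimed.Agent.R280.Gal.Level
import Claimed.Agent.R280.Gal.Group

/-!
# Row 280, packages Gal3a, Gal3b (`Gal/Tower.lean`): the tower `X ⊆ XOm ⊆ E`, `𝔊 = Gal(E/X) ⊵ Pi = Gal(E/XOm)`, and its finite levels

`K ⊆ Om` algebraic closure (characteristic zero), `X/K` a function field, `XOm = X ⊗_K Om` (a field), `E` an algebraic closure of `XOm`.

* Gal3a (~400 lines) `isGalois_E`, `piSub_normal`, `basis_open_normal`, `ker_open_in`.
  - `XOm/X` is algebraic: the subalgebra of elements algebraic over `X` contains the images of `X` and `Om`, which generate `XOm` (`Algebra.IsPushout`: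
    `Algebra.TensorProduct` elements are sums of `x ⊗ c`; use `po.1 : IsBaseChange` + `IsBaseChange.inductionOn`).
  - `piSub` normal: `σ` maps the image of `Om` in `E` (= the elements of `E` algebraic over `K`) to itself, fixes `X`, so maps the image of `XOm` to itself; use `mem_range_resΓ_iff`.
  - `basis_open_normal`: `Subgroup.normalCore`, finite index (compactness) ⇒ o p e n (`Subgroup.isOpen_of_isClosed_of_finiteIndex`), or normal closure of the finite layer.
  - `ker_open_in`: `krullTopology_mem_nhds_one_iff`: `H ⊇ Fix(F')`, `F' = XOm(S)`, `S` finite; `U := fixingSubgroup (X(S))`.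
* Gal3b (~1100 lines; the owner may split along (1)-(5)) `exists_cLevel`.  Plan, for `H ⊇ Pi` o p e n:
  (1) `XL := fixedField H` (finite over `X`, `IsFixOf.finite`, `[XL : X] = [𝔊 : H]` by `IsFixOf.finrank_eq`); it lies in the image of `XOm` (`= Fix Pi`).
  (2) `L := {c ∈ Om | image of c in E lies in XL}`, an intermediate field of `Om/K`.
  (3) every `z ∈ XL` is `∑ x_i c_i` with `x_i ∈ X` linearly independent over `K`, `c_i ∈ Om`; the `x_i` stay independent over `Om` in `XOm` (pushout); each `σ ∈ H` maps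
      `c_i` into the image of `Om`, fixes `x_i` and `z`, hence fixes every `c_i`: `c_i ∈ L`.  So `XL = X · L`.
  (4) `X ⊗_K L → XL` is onto by (3) and injective because `X ⊗_K L → X ⊗_K Om = XOm` is (flatness): `po1`.  `[L : K] = [XL : X]` (`Module.finrank_baseChange`), in particular finite.
  (5) `po2`: `XL ⊗_L Om = X ⊗_K L ⊗_L Om = X ⊗_K Om` (`IsBaseChange.of_comp` / `Algebra.IsPushout` cancellation).  `range (resΓ X) = H`: `mem_range_resΓ_iff` + `IsFixOf.fixes_iff`.

Owner of the statements: helper129 (Gal3a), helper256 (Gal3b).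
-/

set_option autoImplicit false

namespace Claimed.Agent.R280

open WithZero

section

variable (K Om X XOm E : Type) [Field K] [Field Om] [Field X] [Field XOm] [Field E]
    [Algebra K Om] [Algebra K X] [Algebra Om XOm] [Algebra X XOm] [Algebra K XOm]
    [IsScalarTower K Om XOm] [IsScalarTower K X XOm] [Algebra XOm E] [IsAlgClosure XOm E]
    [Algebra X E] [IsScalarTower X XOm E]

/-- `Pi = Gal(E/XOm)` as a subgroup of `𝔊 = Gal(E/X)` -/
def piSub : Subgroup (E ≃ₐ[X] E) :=
  (AlgEquiv.restrictScalarsHom X : (E ≃ₐ[XOm] E) →* (E ≃ₐ[X] E)).range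

/-- `Gal(E/XOm) ≃ Pi` -/
noncomputable def piEquiv : (E ≃ₐ[XOm] E) ≃* piSub X XOm E :=
  MonoidHom.ofInjective (f := (AlgEquiv.restrictScalarsHom X : (E ≃ₐ[XOm] E) →* (E ≃ₐ[X] E)))
    (AlgEquiv.restrictScalars_injective X)

/-- a finite level `K ⊆ L ⊆ Om`, `XL = X ⊗_K L ⊆ XOm` of the tower -/
structure CLevel where
  L : Type
  XL : Type
  [fL : Field L]
  [fXL : Field XL]
  [aKL : Algebra K L]
  [aLOm : Algebra L Om]
  [aKXL : Algebra K XL]
  [aLXL : Algebra L XL]
  [aXXL : Algebra X XL]
  [aXLXOm : Algebra XL XOm]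
  [aLXOm : Algebra L XOm]
  [aXLE : Algebra XL E]
  [t1 : IsScalarTower K L XL]
  [t2 : IsScalarTower K X XL]
  [t3 : IsScalarTower L Om XOm]
  [t4 : IsScalarTower L XL XOm]
  [t5 : IsScalarTower XL XOm E]
  [t6 : IsScalarTower X XL E]
  [t7 : IsScalarTower X XL XOm]
  [t8 : IsScalarTower K L Om]
  [fin : FiniteDimensional K L]
  po1 : Algebra.IsPushout K L X XL
  po2 : Algebra.IsPushout L Om XL XOm

attribute [instance] CLevel.fL CLevel.fXL CLevel.aKL CLevel.aLOm CLevel.aKXL CLevel.aLXL CLevel.aXXL
  CLevel.aXLXOm CLevel.aLXOm CLevel.aXLE CLevel.t1 CLevel.t2 CLevel.t3 CLevel.t4 CLevel.t5 CLevel.t6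
  CLevel.t7 CLevel.t8 CLevel.fin

variable {K Om X XOm E}
variable [CharZero K] [IsAlgClosure K Om] [IsFF K X]

/-! ### Gal3a -/

omit [CharZero K] [IsFF K X] [Algebra XOm E] [IsAlgClosure XOm E] [Algebra X E]
  [IsScalarTower X XOm E] [Field E] in
theorem gal3a_isAlgebraic (po : Algebra.IsPushout K Om X XOm) : Algebra.IsAlgebraic X XOm := by
  have : Algebra.IsAlgebraic K Om := IsAlgClosure.isAlgebraic
  have : Algebra.IsIntegral K Om := Algebra.IsAlgebraic.isIntegral
  have : Algebra.IsIntegral X XOm := Algebra.IsPushout.isIntegral K X Om XOm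
  exact Algebra.IsIntegral.isAlgebraic

omit [CharZero K] [IsFF K X] in
theorem gal3a_isAlgClosure (po : Algebra.IsPushout K Om X XOm) : IsAlgClosure X E := by
  have := gal3a_isAlgebraic po
  exact IsAlgClosure.ofAlgebraic X XOm E

theorem isGalois_E (po : Algebra.IsPushout K Om X XOm) : IsGalois X E := by
  have := gal3a_isAlgClosure (E := E) po
  have : CharZero X := charZero_of_injective_algebraMap (algebraMap K X).injective
  have : Algebra.IsAlgebraic X E := IsAlgClosure.isAlgebraic
  have : Normal X E := IsAlgClosure.normal X E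
  exact isGalois_iff.mpr ⟨inferInstance, inferInstance⟩

omit [CharZero K] [IsFF K X] [IsAlgClosure XOm E] in
/-- an automorphism of `E/X` maps the image of `Om` into itself -/
theorem gal3a_map_Om (_po : Algebra.IsPushout K Om X XOm) (σ : E ≃ₐ[X] E) (c : Om) :
    ∃ c' : Om, σ (algebraMap XOm E (algebraMap Om XOm c)) =
      algebraMap XOm E (algebraMap Om XOm c') := by
  have : Algebra.IsAlgebraic K Om := IsAlgClosure.isAlgebraic
  have : IsAlgClosed Om := IsAlgClosure.isAlgClosed K
  obtain ⟨q, hq0, hq⟩ := Algebra.IsAlgebraic.isAlgebraic (R := K) c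
  -- the ring hom `K → E`
  set j : Om →+* E := (algebraMap XOm E).comp (algebraMap Om XOm) with hj
  have hcomp : j.comp (algebraMap K Om) = (algebraMap X E).comp (algebraMap K X) := by
    ext a
    simp only [hj, RingHom.comp_apply]
    rw [← IsScalarTower.algebraMap_apply K Om XOm, IsScalarTower.algebraMap_apply K X XOm,
      ← IsScalarTower.algebraMap_apply X XOm E]
  have hroot : Polynomial.eval₂ ((algebraMap X E).comp (algebraMap K X)) (j c) q = 0 := by
    rw [← hcomp, ← Polynomial.hom_eval₂]
    rw [Polynomial.aeval_def] at hq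
    rw [hq, map_zero]
  have hroot' : Polynomial.eval₂ ((algebraMap X E).comp (algebraMap K X)) (σ (j c)) q = 0 := by
    have h1 := congrArg σ hroot
    rw [map_zero] at h1
    rw [← h1]
    have h2 := Polynomial.hom_eval₂ q ((algebraMap X E).comp (algebraMap K X))
      (σ : E →+* E) (j c)
    rw [show (σ (Polynomial.eval₂ ((algebraMap X E).comp (algebraMap K X)) (j c) q)) =
      (σ : E →+* E) (Polynomial.eval₂ ((algebraMap X E).comp (algebraMap K X)) (j c) q) from rfl,
      h2]
    congr 1
    ext a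
    simp
  -- `q` splits over `Om`
  have hsp : (q.map (algebraMap K Om)).Splits := IsAlgClosed.splits _
  have hq0' : q.map (algebraMap K Om) ≠ 0 :=
    (Polynomial.map_ne_zero_iff (algebraMap K Om).injective).mpr hq0
  have hsp2 : ((q.map (algebraMap K Om)).map j).Splits := hsp.map j
  have hr : σ (j c) ∈ ((q.map (algebraMap K Om)).map j).roots := by
    rw [Polynomial.mem_roots ((Polynomial.map_ne_zero_iff j.injective).mpr hq0')]
    rw [Polynomial.IsRoot.def, Polynomial.map_map, hcomp, Polynomial.eval_map]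
    exact hroot'
  rw [hsp.roots_map j] at hr
  obtain ⟨c', -, hc'⟩ := Multiset.mem_map.1 hr
  exact ⟨c', hc'.symm⟩

omit [CharZero K] [IsFF K X] [IsAlgClosure XOm E] in
/-- an automorphism of `E/X` maps the image of `XOm` into itself -/
theorem gal3a_map_XOm (po : Algebra.IsPushout K Om X XOm) (σ : E ≃ₐ[X] E) (z : XOm) :
    ∃ z' : XOm, σ (algebraMap XOm E z) = algebraMap XOm E z' := by
  refine IsBaseChange.inductionOn po.symm.out z
    (fun z => ∃ z' : XOm, σ (algebraMap XOm E z) = algebraMap XOm E z') ?_ ?_ ?_ ?_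
  · exact ⟨0, by simp⟩
  · intro c
    obtain ⟨c', hc'⟩ := gal3a_map_Om po σ c
    exact ⟨algebraMap Om XOm c', hc'⟩
  · rintro x z ⟨z', hz'⟩
    refine ⟨x • z', ?_⟩
    rw [Algebra.smul_def, Algebra.smul_def, map_mul, map_mul, map_mul, hz',
      ← IsScalarTower.algebraMap_apply X XOm E, σ.commutes]
  · rintro z₁ z₂ ⟨z₁', h₁⟩ ⟨z₂', h₂⟩
    exact ⟨z₁' + z₂', by rw [map_add, map_add, map_add, h₁, h₂]⟩

omit [CharZero K] [IsFF K X] [IsAlgClosure XOm E] in
theorem gal3a_mem_piSub_iff (g : E ≃ₐ[X] E) :
    g ∈ piSub X XOm E ↔ ∀ z : XOm, g (algebraMap XOm E z) = algebraMap XOm E z :=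
  mem_range_resΓ_iff g

theorem piSub_normal (po : Algebra.IsPushout K Om X XOm) : (piSub X XOm E).Normal := by
  constructor
  intro g hg σ
  rw [gal3a_mem_piSub_iff] at hg ⊢
  intro z
  obtain ⟨z', hz'⟩ := gal3a_map_XOm po σ⁻¹ z
  rw [AlgEquiv.mul_apply, AlgEquiv.mul_apply, hz', hg z', ← hz']
  exact σ.apply_symm_apply _

theorem basis_open_normal (po : Algebra.IsPushout K Om X XOm) (U : Subgroup (E ≃ₐ[X] E))
    (hU : IsOpen (U : Set (E ≃ₐ[X] E))) :
    ∃ N : Subgroup (E ≃ₐ[X] E), N.Normal ∧ IsOpen (N : Set (E ≃ₐ[X] E)) ∧ N ≤ U := by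
  have := isGalois_E (E := E) po
  obtain ⟨N, hN⟩ := ProfiniteGrp.exist_openNormalSubgroup_sub_open_nhds_of_one hU U.one_mem
  exact ⟨N.toSubgroup, N.isNormal', N.isOpen', hN⟩

/-- an o p e n subgroup of `Pi` is the trace of an o p e n subgroup of `𝔊` -/
theorem ker_open_in (po : Algebra.IsPushout K Om X XOm) (H : Subgroup (E ≃ₐ[XOm] E))
    (hH : IsOpen (H : Set (E ≃ₐ[XOm] E))) :
    ∃ U : Subgroup (E ≃ₐ[X] E), IsOpen (U : Set (E ≃ₐ[X] E)) ∧
      U ⊓ piSub X XOm E ≤ H.map (AlgEquiv.restrictScalarsHom X) := by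
  have := gal3a_isAlgClosure (E := E) po
  have : Algebra.IsAlgebraic X E := IsAlgClosure.isAlgebraic
  have hn : (H : Set (E ≃ₐ[XOm] E)) ∈ nhds (1 : E ≃ₐ[XOm] E) := hH.mem_nhds H.one_mem
  obtain ⟨F', hfin, hF'⟩ := (krullTopology_mem_nhds_one_iff XOm E _).1 hn
  obtain ⟨S, hS⟩ : F'.FG := IntermediateField.essFiniteType_iff.1 inferInstance
  have hfinX : FiniteDimensional X (IntermediateField.adjoin X (S : Set E)) :=
    IntermediateField.finiteDimensional_adjoin
      (fun x _ => (Algebra.IsAlgebraic.isAlgebraic x).isIntegral)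
  refine ⟨(IntermediateField.adjoin X (S : Set E)).fixingSubgroup,
    IntermediateField.fixingSubgroup_isOpen _, ?_⟩
  rintro g ⟨hgU, g', rfl⟩
  refine ⟨g', hF' ?_, rfl⟩
  have hfix : ∀ s ∈ S, g' s = s := by
    intro s hs
    have := (IntermediateField.mem_fixingSubgroup_iff _ _).1 hgU s
      (IntermediateField.subset_adjoin X _ hs)
    exact this
  have hle : F' ≤ IntermediateField.fixedField (Subgroup.zpowers g') := by
    rw [← hS, IntermediateField.adjoin_le_iff]
    intro s hs
    rw [SetLike.mem_coe, IntermediateField.mem_fixedField_iff]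
    intro τ hτ
    obtain ⟨n, rfl⟩ := Subgroup.mem_zpowers_iff.1 hτ
    have hstab : g' ∈ MulAction.stabilizer (E ≃ₐ[XOm] E) s := hfix s hs
    exact (MulAction.stabilizer (E ≃ₐ[XOm] E) s).zpow_mem hstab n
  rw [SetLike.mem_coe, IntermediateField.mem_fixingSubgroup_iff]
  intro x hx
  exact (IntermediateField.mem_fixedField_iff _ _).1 (hle hx) g' (Subgroup.mem_zpowers g')

/-! ### Gal3b -/

omit [IsAlgClosure XOm E] [CharZero K] [IsFF K X] in
/-- an automorphism of `E/X` maps the image of `Om` into itself -/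
theorem gal3b_map_mem (σ : E ≃ₐ[X] E) (c : Om) (hc : IsIntegral K c) :
    ∃ d : Om, algebraMap XOm E (algebraMap Om XOm d) =
      σ (algebraMap XOm E (algebraMap Om XOm c)) := by
  let _ : Algebra K E := ((algebraMap X E).comp (algebraMap K X)).toAlgebra
  have : IsScalarTower K X E := IsScalarTower.of_algebraMap_eq fun _ => rfl
  let _ : Algebra Om E := ((algebraMap XOm E).comp (algebraMap Om XOm)).toAlgebra
  have : IsScalarTower Om XOm E := IsScalarTower.of_algebraMap_eq fun _ => rfl
  have : IsScalarTower K Om E := IsScalarTower.of_algebraMap_eq fun x => by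
    change algebraMap X E (algebraMap K X x) =
      algebraMap XOm E (algebraMap Om XOm (algebraMap K Om x))
    rw [← IsScalarTower.algebraMap_apply K Om XOm, IsScalarTower.algebraMap_apply X XOm E,
      ← IsScalarTower.algebraMap_apply K X XOm]
  have : IsAlgClosed Om := IsAlgClosure.isAlgClosed K
  have h1 : IsIntegral K (algebraMap Om E c) := hc.algebraMap
  have h2 : IsIntegral K ((σ.restrictScalars K) (algebraMap Om E c)) :=
    h1.map (σ.restrictScalars K)
  obtain ⟨d, hd⟩ := h2.mem_range_algebraMap_of_minpoly_splits (K := Om) (IsAlgClosed.splits _)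
  exact ⟨d, hd⟩

omit [IsAlgClosure XOm E] [CharZero K] [IsFF K X] in
/-- the coefficients of an element of the fixed field of `H` are fixed by `H` -/
theorem gal3b_coeff (po : Algebra.IsPushout K Om X XOm) (H : Subgroup (E ≃ₐ[X] E))
    {XL : Type} [Field XL] [Algebra XL XOm] [Algebra XL E] [IsScalarTower XL XOm E]
    (hXL : IsFixOf H XL) {ι : Type} (b : Module.Basis ι K X) (z : XL) (i : ι) :
    algebraMap Om XOm ((po.out.basis b).repr (algebraMap XL XOm z) i) ∈
      Set.range (algebraMap XL XOm) := by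
  classical
  set B := po.out.basis b with hB
  set c := B.repr (algebraMap XL XOm z) with hc
  have hBk : ∀ k, B k = algebraMap X XOm (b k) := fun k => po.out.basis_apply b k
  suffices h : ∀ σ ∈ H, σ (algebraMap XOm E (algebraMap Om XOm (c i))) =
      algebraMap XOm E (algebraMap Om XOm (c i)) by
    obtain ⟨y, hy⟩ := (hXL _).2 h
    refine ⟨y, (algebraMap XOm E).injective ?_⟩
    rw [← IsScalarTower.algebraMap_apply XL XOm E, hy]
  intro σ hσ
  have hint : ∀ c : Om, IsIntegral K c := fun c =>
    ((IsAlgClosure.isAlgebraic (R := K) (K := Om)).isAlgebraic c).isIntegral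
  choose d hd using fun c : Om => gal3b_map_mem (XOm := XOm) σ c (hint c)
  have hz : algebraMap XL XOm z = ∑ k ∈ c.support, c k • B k := by
    conv_lhs => rw [← B.linearCombination_repr (algebraMap XL XOm z)]
    rw [Finsupp.linearCombination_apply]
    rfl
  have h1 : σ (algebraMap XOm E (algebraMap XL XOm z)) =
      algebraMap XOm E (algebraMap XL XOm z) := by
    rw [← IsScalarTower.algebraMap_apply XL XOm E]
    exact (hXL _).1 ⟨z, rfl⟩ σ hσ
  have h2 : algebraMap XOm E (∑ k ∈ c.support, d (c k) • B k) =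
      algebraMap XOm E (∑ k ∈ c.support, c k • B k) := by
    rw [← hz, ← h1, hz, map_sum, map_sum, map_sum]
    refine Finset.sum_congr rfl fun k _ => ?_
    rw [Algebra.smul_def, Algebra.smul_def, map_mul, map_mul, map_mul, hd, hBk,
      ← IsScalarTower.algebraMap_apply X XOm E, σ.commutes]
  have h3 := (algebraMap XOm E).injective h2
  have h4 : ∑ k ∈ c.support, (d (c k) - c k) • B k = 0 := by
    simp only [sub_smul, Finset.sum_sub_distrib, h3, sub_self]
  by_cases hi : i ∈ c.support
  · have h5 := linearIndependent_iff'.1 B.linearIndependent c.support _ h4 i hi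
    rw [← hd, sub_eq_zero.1 h5]
  · rw [Finsupp.notMem_support_iff.1 hi, map_zero, map_zero, map_zero]

/-- the abstract form of `exists_cLevel` -/
theorem gal3b_core (po : Algebra.IsPushout K Om X XOm) (H : Subgroup (E ≃ₐ[X] E))
    (hH : IsOpen (H : Set (E ≃ₐ[X] E)))
    (L XL : Type) [Field L] [Field XL] [Algebra K L] [Algebra L Om] [Algebra K XL] [Algebra L XL]
    [Algebra X XL] [Algebra XL XOm] [Algebra L XOm] [Algebra XL E] [IsScalarTower K L XL]
    [IsScalarTower K X XL] [IsScalarTower L Om XOm] [IsScalarTower L XL XOm]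
    [IsScalarTower XL XOm E] [IsScalarTower X XL E] [IsScalarTower X XL XOm]
    [IsScalarTower K L Om] (hXL : IsFixOf H XL)
    (hL : ∀ c : Om, algebraMap Om XOm c ∈ Set.range (algebraMap XL XOm) →
      c ∈ Set.range (algebraMap L Om)) :
    Algebra.IsPushout K L X XL ∧ Algebra.IsPushout L Om XL XOm ∧
      Module.finrank K L = H.index ∧ FiniteDimensional K L := by
  classical
  have : IsGalois X E := isGalois_E po
  let b := Module.Basis.ofVectorSpace K X
  set B := po.out.basis b with hB
  have hBk : ∀ k, B k = algebraMap X XOm (b k) := fun k => po.out.basis_apply b k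
  have hli : LinearIndependent L (fun k => algebraMap X XL (b k)) := by
    have h1 : LinearIndependent L B :=
      B.linearIndependent.restrict_scalars (R := L) (by
        intro x y hxy
        simpa [Algebra.smul_def] using hxy)
    refine LinearIndependent.of_comp (IsScalarTower.toAlgHom L XL XOm).toLinearMap ?_
    convert h1 using 1
    funext k
    simp [hBk, ← IsScalarTower.algebraMap_apply]
  have hsp : ⊤ ≤ Submodule.span L (Set.range fun k => algebraMap X XL (b k)) := by
    intro z _
    have hco := fun k => hL _ (gal3b_coeff po H hXL b z k)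
    choose l hl using hco
    have hz : z = ∑ k ∈ (B.repr (algebraMap XL XOm z)).support, l k • algebraMap X XL (b k) := by
      apply (algebraMap XL XOm).injective
      conv_lhs => rw [← B.linearCombination_repr (algebraMap XL XOm z)]
      rw [Finsupp.linearCombination_apply, map_sum]
      refine Finset.sum_congr rfl fun k _ => ?_
      beta_reduce
      rw [Algebra.smul_def, Algebra.smul_def, map_mul, hBk, hB, ← hl,
        ← IsScalarTower.algebraMap_apply L Om XOm, ← IsScalarTower.algebraMap_apply L XL XOm,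
        ← IsScalarTower.algebraMap_apply X XL XOm]
    rw [hz]
    exact Submodule.sum_mem _ fun k _ => Submodule.smul_mem _ _ (Submodule.subset_span ⟨k, rfl⟩)
  let bL := Module.Basis.mk hli hsp
  have po1 : Algebra.IsPushout K L X XL := ⟨by
    have h := (IsBaseChange.of_basis K bL).comp_equiv b.repr
    have he : (IsScalarTower.toAlgHom K X XL).toLinearMap =
        (Finsupp.linearCombination K bL).comp b.repr.toLinearMap := by
      apply b.ext
      intro k
      simp [bL]
    rw [he]
    exact h⟩
  have : IsScalarTower K XL XOm := IsScalarTower.of_algebraMap_eq fun x => by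
    rw [IsScalarTower.algebraMap_apply K X XL, ← IsScalarTower.algebraMap_apply X XL XOm,
      ← IsScalarTower.algebraMap_apply K X XOm]
  have po2 : Algebra.IsPushout L Om XL XOm := (Algebra.IsPushout.comp_iff K L X XL).1 po
  have hfin : FiniteDimensional X XL := hXL.finite hH
  have hrk : Module.finrank K L = H.index := by
    rw [← hXL.finrank_eq hH]
    let a := Module.Basis.ofVectorSpace K L
    rw [Module.finrank_eq_nat_card_basis a,
      Module.finrank_eq_nat_card_basis (po1.symm.out.basis a)]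
  refine ⟨po1, po2, hrk, ?_⟩
  apply Module.finite_of_finrank_pos
  rw [hrk, ← hXL.finrank_eq hH]
  exact Module.finrank_pos

/-- the fixed field of an o p e n subgroup `H ⊇ Pi` is a finite level `X ⊗_K L`, `[L : K] = [𝔊 : H]` -/
theorem exists_cLevel (po : Algebra.IsPushout K Om X XOm) (H : Subgroup (E ≃ₐ[X] E))
    (hH : IsOpen (H : Set (E ≃ₐ[X] E))) (hPi : piSub X XOm E ≤ H) :
    ∃ T : CLevel K Om X XOm E,
      (resΓ X : (E ≃ₐ[T.XL] E) →* (E ≃ₐ[X] E)).range = H ∧ Module.finrank K T.L = H.index := by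
  have : IsGalois X E := isGalois_E po
  have : CharZero XOm := charZero_of_injective_algebraMap (algebraMap K XOm).injective
  have : IsGalois XOm E := IsAlgClosure.isGalois XOm E
  let XL : IntermediateField X XOm :=
    (IntermediateField.fixedField H).comap (IsScalarTower.toAlgHom X XOm E)
  let L : IntermediateField K Om :=
    (XL.restrictScalars K).comap (IsScalarTower.toAlgHom K Om XOm)
  have hmemXL : ∀ x : XOm, x ∈ XL ↔ ∀ σ ∈ H, σ (algebraMap XOm E x) = algebraMap XOm E x :=
    fun x => IntermediateField.mem_fixedField_iff H (algebraMap XOm E x)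
  have hmemL : ∀ c : Om, c ∈ L ↔ algebraMap Om XOm c ∈ XL := fun c => Iff.rfl
  let f : L →+* XL :=
    { toFun := fun c => ⟨algebraMap Om XOm c, (hmemL c).1 c.2⟩
      map_one' := Subtype.ext (map_one _)
      map_mul' := fun x y => Subtype.ext (map_mul _ _ _)
      map_zero' := Subtype.ext (map_zero _)
      map_add' := fun x y => Subtype.ext (map_add _ _ _) }
  let _ : Algebra L XL := f.toAlgebra
  have t1 : IsScalarTower K L XL := IsScalarTower.of_algebraMap_eq fun x => Subtype.ext (by
    change algebraMap K XOm x = algebraMap Om XOm (algebraMap K Om x)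
    rw [← IsScalarTower.algebraMap_apply K Om XOm])
  have t4 : IsScalarTower L XL XOm := IsScalarTower.of_algebraMap_eq fun x => rfl
  have hXL : IsFixOf H XL := by
    intro z
    constructor
    · rintro ⟨y, rfl⟩
      exact (hmemXL y).1 y.2
    · intro h
      have h1 : ∀ g : E ≃ₐ[XOm] E, g z = z := fun g => h _ (hPi ⟨g, rfl⟩)
      obtain ⟨x, rfl⟩ := (InfiniteGalois.mem_range_algebraMap_iff_fixed z).2 h1
      exact ⟨⟨x, (hmemXL x).2 h⟩, rfl⟩
  have hL : ∀ c : Om, algebraMap Om XOm c ∈ Set.range (algebraMap XL XOm) →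
      c ∈ Set.range (algebraMap L Om) := by
    rintro c ⟨y, hy⟩
    refine ⟨⟨c, (hmemL c).2 ?_⟩, rfl⟩
    rw [← hy]
    exact y.2
  obtain ⟨po1, po2, hrk, hfin⟩ := gal3b_core po H hH L XL hXL hL
  refine ⟨{ L := L, XL := XL, po1 := po1, po2 := po2 }, ?_, hrk⟩
  ext g
  rw [mem_range_resΓ_iff]
  exact hXL.fixes_iff hH g

end

end Claimed.Agent.R280
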