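import Claimed.Agent.R280.Gal.ConstExt

/-!
# Row 280, package Gal1A (`Gal/V1Above.lean`, ~450 lines): valuation rings of a big field above places

`k ⊆ M ⊆ Y ⊆ E`.

* `exists_above_gen` (Chevalley): `LocalSubring.exists_le_valuationSubring` applied to the image of `P.O` in `E` (`LocalSubring.map`/`range`); a valuation ring `V` of `E` dominating the
  image of `P.O` satisfies `V ∩ M = P.O` because `V ∩ M` is a local ring... concretely: `P.O ≤ V.comap`, and if `f ∈ V.comap ∖ P.O` then `f⁻¹ ∈ 𝔪_P`, so `f⁻¹ ∈ 𝔪_V`, contradiction.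
* `Place.Above.unique`: `Place.eq_of_O_eq`.
* `Place.exists_mid`: `A := V.comap (algebraMap Y E)`; contains `k`, `≠ ⊤` (its trace on `M` is `P.O ≠ ⊤`), `exists_place_of_valuationSubring` (`IsFF k Y` from `isFF_of_finite`);
  `Over` from `Place.over_of_comap_eq` and `ValuationSubring.comap_comap`.
* `above_of_over`, `over_of_above`: `Place.Over.comap_eq`, `Place.over_of_comap_eq`, `comap_comap`, `IsScalarTower.algebraMap_eq`.
* `above_smul`: `g` fixes `M` pointwise (`ValuationSubring.mem_smul_pointwise_iff_exists` / `mem_pointwise_smul_iff_inv_smul_mem`).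

Owner of the statements: helper129 / helper256.
-/

set_option autoImplicit false

namespace Claimed.Agent.R280

open WithZero
open scoped Pointwise

section Gen

variable {k M : Type} (E : Type) [Field k] [Field M] [Field E] [Algebra k M] [Algebra M E]

/-- Chevalley's extension theorem for places (any field extension `E/M`) -/
theorem Place.exists_above_gen (P : Place k M) : ∃ V : ValuationSubring E, P.Above E V := by
  obtain ⟨V, hle, hloc⟩ :=
    (LocalSubring.map (algebraMap M E) P.O.toLocalSubring).exists_le_valuationSubring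
  have hle' : ∀ f : M, f ∈ P.O → algebraMap M E f ∈ V := fun f hf =>
    hle (Subring.mem_map.2 ⟨f, hf, rfl⟩)
  refine ⟨V, ?_⟩
  ext f
  rw [ValuationSubring.mem_comap]
  refine ⟨fun hf => ?_, hle' f⟩
  by_contra hcon
  have hinv : f⁻¹ ∈ P.O := (P.O.mem_or_inv_mem f).resolve_left hcon
  have hf0 : f ≠ 0 := by
    rintro rfl
    exact hcon P.O.zero_mem
  have hmem : algebraMap M E f⁻¹ ∈ (LocalSubring.map (algebraMap M E) P.O.toLocalSubring).toSubring :=
    Subring.mem_map.2 ⟨f⁻¹, hinv, rfl⟩
  have hunit : IsUnit (Subring.inclusion hle ⟨algebraMap M E f⁻¹, hmem⟩) := by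
    refine IsUnit.of_mul_eq_one (⟨algebraMap M E f, hf⟩ : V.toLocalSubring.toSubring) ?_
    apply Subtype.ext
    show algebraMap M E f⁻¹ * algebraMap M E f = 1
    rw [← map_mul, inv_mul_cancel₀ hf0, map_one]
  obtain ⟨⟨b, hb⟩, hab⟩ := (hloc.map_nonunit _ hunit).exists_right_inv
  obtain ⟨g, hg, rfl⟩ := Subring.mem_map.1 hb
  have h1 : algebraMap M E f⁻¹ * algebraMap M E g = 1 := congrArg Subtype.val hab
  rw [← map_mul, ← map_one (algebraMap M E)] at h1
  have h2 : f⁻¹ * g = 1 := (algebraMap M E).injective h1
  have h3 : g = f := by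
    field_simp at h2
    exact h2
  exact hcon (h3 ▸ hg)

variable {E}

/-- a valuation ring lies above at most one place -/
theorem Place.Above.unique {P P' : Place k M} {V : ValuationSubring E} (h : P.Above E V)
    (h' : P'.Above E V) : P = P' := Place.eq_of_O_eq (h.symm.trans h')

theorem Place.Above.mem_iff {P : Place k M} {V : ValuationSubring E} (h : P.Above E V) (f : M) :
    algebraMap M E f ∈ V ↔ P.v f ≤ 1 := by
  rw [← ValuationSubring.mem_comap, show V.comap (algebraMap M E) = P.O from h,
    Valuation.mem_valuationSubring_iff]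

theorem Place.Above.valuation_lt_one_iff {P : Place k M} {V : ValuationSubring E}
    (h : P.Above E V) (f : M) : V.valuation (algebraMap M E f) < 1 ↔ P.v f < 1 := by
  by_cases hf : f = 0
  · subst hf
    simp
  · have hf' : algebraMap M E f ≠ 0 := by simpa using hf
    have h1 := h.mem_iff f⁻¹
    rw [map_inv₀, ← ValuationSubring.valuation_le_one_iff, map_inv₀, map_inv₀,
      inv_le_one₀ (zero_lt_iff.2 ((map_ne_zero _).2 hf')),
      inv_le_one₀ (zero_lt_iff.2 ((map_ne_zero _).2 hf))] at h1
    rw [← not_le, ← not_le, h1]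

end Gen

section Gal1a

variable {k M : Type} (E : Type) [Field k] [Field M] [Field E] [Algebra k M] [Algebra M E] [IsFF k M]
  [IsAlgClosure M E]

theorem Place.exists_above (P : Place k M) : ∃ V : ValuationSubring E, P.Above E V :=
  P.exists_above_gen E

variable {E}

theorem Place.above_smul {P : Place k M} {V : ValuationSubring E} (h : P.Above E V)
    (g : E ≃ₐ[M] E) : P.Above E (g • V) := by
  rw [Place.Above, ← show V.comap (algebraMap M E) = P.O from h]
  ext f
  rw [ValuationSubring.mem_comap, ValuationSubring.mem_comap,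
    ValuationSubring.mem_pointwise_smul_iff_inv_smul_mem]
  have : g⁻¹ • algebraMap M E f = algebraMap M E f := (g⁻¹).commutes f
  rw [this]

variable (Y : Type) [Field Y] [Algebra M Y] [Algebra Y E] [IsScalarTower M Y E] [Algebra k Y]
  [IsScalarTower k M Y] [FiniteDimensional M Y]

/-- the place of the finite layer `Y` below `V` -/
theorem Place.exists_mid {P : Place k M} {V : ValuationSubring E} (h : P.Above E V) :
    ∃ Q : Place k Y, Q.Above E V ∧ Q.Over P := by
  have : IsFF k Y := isFF_of_finite k M Y
  have hcc : (V.comap (algebraMap Y E)).comap (algebraMap M Y) = P.O := by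
    rw [ValuationSubring.comap_comap, ← IsScalarTower.algebraMap_eq]
    exact h
  have hk : ∀ a : k, algebraMap k Y a ∈ V.comap (algebraMap Y E) := by
    intro a
    rw [IsScalarTower.algebraMap_apply k M Y, ← ValuationSubring.mem_comap, hcc]
    exact P.algebraMap_mem a
  have hT : V.comap (algebraMap Y E) ≠ ⊤ := by
    intro htop
    rw [htop] at hcc
    obtain ⟨t, ht⟩ := P.surj (exp 1)
    have h1 : t ∈ P.O := by
      rw [← hcc, ValuationSubring.mem_comap]
      exact ValuationSubring.mem_top _
    rw [Valuation.mem_valuationSubring_iff, ht] at h1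
    exact absurd h1 (not_le.2 (exp_lt_exp.2 (by norm_num : (0 : ℤ) < 1)))
  obtain ⟨Q, hQ⟩ := exists_place_of_valuationSubring _ hk hT
  exact ⟨Q, hQ.symm, Place.over_of_comap_eq (by rw [hQ]; exact hcc)⟩

variable {Y}

theorem Place.above_of_over {Q : Place k Y} {P : Place k M} (h : Q.Over P) {V : ValuationSubring E}
    (hV : Q.Above E V) : P.Above E V := by
  rw [Place.Above, IsScalarTower.algebraMap_eq M Y E, ← ValuationSubring.comap_comap,
    show V.comap (algebraMap Y E) = Q.O from hV]
  exact h.comap_eq

theorem Place.over_of_above {Q : Place k Y} {P : Place k M} {V : ValuationSubring E}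
    (hQ : Q.Above E V) (hP : P.Above E V) : Q.Over P := by
  apply Place.over_of_comap_eq
  rw [← show V.comap (algebraMap Y E) = Q.O from hQ, ValuationSubring.comap_comap,
    ← IsScalarTower.algebraMap_eq]
  exact hP

theorem Place.exists_above_of_mid (Q : Place k Y) : ∃ V : ValuationSubring E, Q.Above E V :=
  Q.exists_above_gen E

end Gal1a

end Claimed.Agent.R280
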