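import Claimed.Agent.R280.Gal.V1Above

/-!
# Row 280, package Gal1B (`Gal/V2Conj.lean`, ~600 lines): the valuation rings of `E` above a place are conjugate (characteristic zero)

Plan.  `E/M` is Galois (`IsAlgClosure`, characteristic zero), so `Gal(E/M)` is compact (`Mathlib/FieldTheory/Galois/Profinite.lean`).
For a finite Galois layer `N` let `S N = {g | (g • V) ∩ N = V' ∩ N}`.
* `Place.above_conj_layer`: `S N ≠ ∅`.  `Place.exists_mid` gives the places `Q, Q'` of `N` below `V, V'`, both over `P`; `Place.exists_smulAut_eq` gives `τ ∈ Gal(N/M)`, `τ Q = Q'`;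
  lift `τ` to `g` (`AlgEquiv.restrictNormalHom_surjective`); `(g • V) ∩ N` is the ring of `τ Q` (unfold `Place.smulAut`, `Place.transport`, `AlgEquiv.restrictNormal_commutes`).
* `isClosed_conj_layer`: `S N` is a union of left cosets of the o p e n subgroup `N.fixingSubgroup` (`IntermediateField.fixingSubgroup_isOpen`), and so is its complement.
* `S N' ⊆ S N` for `N ≤ N'`; finite Galois layers are directed (`IntermediateField.normalClosure`, compositum) and cover `E`.
* `IsCompact.nonempty_iInter_of_directed_nonempty_isCompact_isClosed`.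

Owner of the statements: helper129 / helper256.
-/

set_option autoImplicit false

namespace Claimed.Agent.R280

open WithZero
open scoped Pointwise

variable {k M E : Type} [Field k] [Field M] [Field E] [Algebra k M] [Algebra M E] [IsFF k M]
  [IsAlgClosure M E]

theorem Place.above_conj_layer {P : Place k M} {V V' : ValuationSubring E} (h : P.Above E V)
    (h' : P.Above E V') (N : IntermediateField M E) [FiniteDimensional M N] [IsGalois M N] :
    ∃ g : E ≃ₐ[M] E, (g • V).comap (algebraMap N E) = V'.comap (algebraMap N E) := by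
  let : Algebra k N := ((algebraMap M N).comp (algebraMap k M)).toAlgebra
  have : IsScalarTower k M N := IsScalarTower.of_algebraMap_eq fun _ => rfl
  have : Normal M E := IsAlgClosure.normal M E
  obtain ⟨Q, hQV, hQ⟩ := Place.exists_mid (E := E) N h
  obtain ⟨Q', hQV', hQ'⟩ := Place.exists_mid (E := E) N h'
  obtain ⟨τ, hτ⟩ := Place.exists_smulAut_eq hQ hQ'
  obtain ⟨g, rfl⟩ := AlgEquiv.restrictNormalHom_surjective E τ
  refine ⟨g, ?_⟩
  ext z
  rw [ValuationSubring.mem_comap, ValuationSubring.mem_comap,
    ValuationSubring.mem_pointwise_smul_iff_inv_smul_mem, hQV'.mem_iff, ← hτ,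
    Place.smulAut_v_apply, ← hQV.mem_iff]
  have e : g⁻¹ • algebraMap N E z = algebraMap N E ((AlgEquiv.restrictNormalHom N g).symm z) := by
    have h1 := AlgEquiv.restrictNormal_commutes g⁻¹ N z
    have h2 : (AlgEquiv.restrictNormalHom N g).symm = AlgEquiv.restrictNormalHom N g⁻¹ := by
      rw [map_inv]; rfl
    rw [h2]
    exact h1.symm
  rw [e]

omit [IsFF k M] [IsAlgClosure M E] in
/-- the trace of `g • V` on a normal layer `N` only depends on the coset of `g` modulo the fixing subgroup of `N` -/
theorem galc_comap_mul (V : ValuationSubring E) (N : IntermediateField M E) [Normal M N]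
    (g : E ≃ₐ[M] E) {σ : E ≃ₐ[M] E} (hσ : σ ∈ N.fixingSubgroup) :
    ((g * σ) • V).comap (algebraMap N E) = (g • V).comap (algebraMap N E) := by
  ext z
  rw [ValuationSubring.mem_comap, ValuationSubring.mem_comap,
    ValuationSubring.mem_pointwise_smul_iff_inv_smul_mem,
    ValuationSubring.mem_pointwise_smul_iff_inv_smul_mem, mul_inv_rev, mul_smul]
  have h1 : g⁻¹ • algebraMap N E z = algebraMap N E (AlgEquiv.restrictNormal g⁻¹ N z) :=
    (AlgEquiv.restrictNormal_commutes g⁻¹ N z).symm
  have h2 : σ⁻¹ • algebraMap N E (AlgEquiv.restrictNormal g⁻¹ N z)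
      = algebraMap N E (AlgEquiv.restrictNormal g⁻¹ N z) :=
    (IntermediateField.mem_fixingSubgroup_iff N σ⁻¹).1 (inv_mem hσ) _
      (AlgEquiv.restrictNormal g⁻¹ N z).2
  rw [h1, h2]

omit [IsAlgClosure M E] in
theorem isClosed_conj_layer (V V' : ValuationSubring E) (N : IntermediateField M E)
    [FiniteDimensional M N] [Normal M N] :
    IsClosed {g : E ≃ₐ[M] E | (g • V).comap (algebraMap N E) = V'.comap (algebraMap N E)} := by
  rw [← isOpen_compl_iff, isOpen_iff_forall_mem_open]
  intro g hg
  refine ⟨(fun τ => g⁻¹ * τ) ⁻¹' (N.fixingSubgroup : Set (E ≃ₐ[M] E)), ?_, ?_, ?_⟩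
  · intro τ hτ hτ'
    apply hg
    have h1 : g⁻¹ * τ ∈ N.fixingSubgroup := hτ
    have h2 := galc_comap_mul V N g h1
    rw [mul_inv_cancel_left] at h2
    change (g • V).comap (algebraMap N E) = V'.comap (algebraMap N E)
    rw [← h2]
    exact hτ'
  · exact (IntermediateField.fixingSubgroup_isOpen N).preimage (continuous_const.mul continuous_id)
  · change g⁻¹ * g ∈ N.fixingSubgroup
    rw [inv_mul_cancel]
    exact one_mem _

/-- the valuation rings above `P` are conjugate -/
theorem Place.above_conj [CharZero k] {P : Place k M} {V V' : ValuationSubring E}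
    (h : P.Above E V) (h' : P.Above E V') : ∃ g : E ≃ₐ[M] E, g • V = V' := by
  have : CharZero M := charZero_of_injective_algebraMap (algebraMap k M).injective
  have halg : Algebra.IsAlgebraic M E := IsAlgClosure.isAlgebraic
  have hne : Nonempty {N : IntermediateField M E // FiniteDimensional M N ∧ Normal M N} :=
    ⟨⟨⊥, inferInstance, inferInstance⟩⟩
  obtain ⟨g, hg⟩ := IsCompact.nonempty_iInter_of_directed_nonempty_isCompact_isClosed
    (fun N : {N : IntermediateField M E // FiniteDimensional M N ∧ Normal M N} =>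
      {g : E ≃ₐ[M] E | (g • V).comap (algebraMap N.1 E) = V'.comap (algebraMap N.1 E)})
    (by
      rintro ⟨N₁, hf₁, hn₁⟩ ⟨N₂, hf₂, hn₂⟩
      refine ⟨⟨N₁ ⊔ N₂, IntermediateField.finiteDimensional_sup N₁ N₂,
        IntermediateField.normal_sup M E N₁ N₂⟩, ?_, ?_⟩
      · intro g hg
        have hg' : (g • V).comap (algebraMap (N₁ ⊔ N₂ : IntermediateField M E) E)
            = V'.comap (algebraMap (N₁ ⊔ N₂ : IntermediateField M E) E) := hg
        change (g • V).comap (algebraMap N₁ E) = V'.comap (algebraMap N₁ E)
        ext z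
        have := congrArg (fun W : ValuationSubring (N₁ ⊔ N₂ : IntermediateField M E) =>
          (⟨z.1, (le_sup_left : N₁ ≤ N₁ ⊔ N₂) z.2⟩ : (N₁ ⊔ N₂ : IntermediateField M E)) ∈ W) hg'
        exact iff_of_eq this
      · intro g hg
        have hg' : (g • V).comap (algebraMap (N₁ ⊔ N₂ : IntermediateField M E) E)
            = V'.comap (algebraMap (N₁ ⊔ N₂ : IntermediateField M E) E) := hg
        change (g • V).comap (algebraMap N₂ E) = V'.comap (algebraMap N₂ E)
        ext z
        have := congrArg (fun W : ValuationSubring (N₁ ⊔ N₂ : IntermediateField M E) =>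
          (⟨z.1, (le_sup_right : N₂ ≤ N₁ ⊔ N₂) z.2⟩ : (N₁ ⊔ N₂ : IntermediateField M E)) ∈ W) hg'
        exact iff_of_eq this)
    (by
      rintro ⟨N, hf, hn⟩
      have : IsGalois M N := ⟨⟩
      exact Place.above_conj_layer h h' N)
    (by
      rintro ⟨N, hf, hn⟩
      exact (isClosed_conj_layer V V' N).isCompact)
    (by
      rintro ⟨N, hf, hn⟩
      exact isClosed_conj_layer V V' N)
  refine ⟨g, ?_⟩
  ext z
  have hz : IsIntegral M z := (halg.isAlgebraic z).isIntegral
  have hfd : FiniteDimensional M (IntermediateField.adjoin M {z}) :=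
    IntermediateField.adjoin.finiteDimensional hz
  have hg' := Set.mem_iInter.1 hg ⟨IntermediateField.normalClosure M (IntermediateField.adjoin M {z}) E,
    inferInstance, inferInstance⟩
  have hzmem : z ∈ IntermediateField.normalClosure M (IntermediateField.adjoin M {z}) E :=
    IntermediateField.le_normalClosure _ (IntermediateField.mem_adjoin_simple_self M z)
  have := congrArg (fun W : ValuationSubring
      (IntermediateField.normalClosure M (IntermediateField.adjoin M {z}) E) =>
    (⟨z, hzmem⟩ : IntermediateField.normalClosure M (IntermediateField.adjoin M {z}) E) ∈ W) hg'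
  exact iff_of_eq this

end Claimed.Agent.R280

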