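import Claimed.Agent.R280.Gal.V2Conj

/-!
# Row 280, package Gal1C (`Gal/V3Tame.lean`, ~750 lines): finite layers over an algebraically closed constant field of characteristic zero

* Gal1C-1 (~350 lines) `Place.exists_const`, `Place.deg_eq_one`, `sum_ramIdx_eq`, `Place.ramIdx_le_finrank`, `Place.unique_of_ramIdx_eq_finrank`, `card_stabilizer_eq_ramIdx`.
  - residue field: finite over `k` (`Place.finite_res`), `k` algebraically closed ⇒ `k → Res` is onto (`IsAlgClosed.algebraMap_surjective_of_isIntegral`).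
  - `sum_ramIdx_eq` = `sum_ramIdx_mul_deg` with all degrees `1`; the support is finite (`Place.finite_over`, `Place.ramIdx_eq_zero`).
  - `card_stabilizer_eq_ramIdx`: `Gal(Y/M)` is transitive on the places over `P` (`Place.exists_smulAut_eq`), all `e` are equal (`Place.smulAut_over`), so `n = e · #orbit`, `n = |Gal|`
    (`IsGalois.card_aut_eq_finrank`), orbit-stabiliser (make `Place.smulAut` a `MulAction`, or count fibres of `g ↦ Q.smulAut g` by hand).
* Gal1C-2 (~150 lines) `residue_trivial`: `u ∈ V`; `Y := M(u)` (`IntermediateField.adjoin`, finite because `E/M` is algebraic), `Q` below `V` (`Place.exists_mid`), `c` from `Place.exists_const`;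
  `u - c ∈ 𝔪_V`, `g (u - c) = g u - c ∈ g 𝔪_V = 𝔪_V`.
* Gal1C-3 (~250 lines) `eq_one_of_tame` (no wild inertia).  `v := Q.v`, `v (σ x) = v x` by `hσ`.  Step 1: `v (σ u - u) < v u` for every `u ≠ 0`: write `v u = exp (-j)`, `w = u / t ^ j`, `v (w - c) < 1`, `c ≠ 0`;
  `σ w - w = σ (w - c) - (w - c)`; `σ t = t (1 + a)`, `v a < 1`; multiply out.  Step 2: `δ := σ - 1` in `Module.End M Y` (or `AddMonoid.End Y`), `r := orderOf σ`:
  `0 = σ ^ r - 1 = ∑_{i ≥ 1} (r choose i) δ ^ i` (`Commute.add_pow`).  If `z := δ u ≠ 0` then `v (r z) = v z` (`r ≠ 0` in `k`) and `v ((r choose i) δ^{i-1} z) < v z` for `i ≥ 2`: contradiction with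
  `Valuation.map_sum_lt` / `Valuation.map_add_eq_of_lt_left`.

Owner of the statements: helper129 / helper256.
-/

set_option autoImplicit false

namespace Claimed.Agent.R280

open WithZero
open scoped Pointwise

section Fin

variable {k M : Type} [Field k] [Field M] [Algebra k M] [IsFF k M] [IsAlgClosed k]

theorem gal1c_res_surj (P : Place k M) : Function.Surjective (algebraMap k P.Res) := by
  have := P.finite_res
  exact IsAlgClosed.algebraMap_bijective_of_isIntegral.2

theorem Place.exists_const (P : Place k M) {u : M} (hu : P.v u ≤ 1) :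
    ∃ c : k, P.v (u - algebraMap k M c) < 1 := by
  obtain ⟨c, hc⟩ := gal1c_res_surj P (IsLocalRing.residue P.O ⟨u, hu⟩)
  refine ⟨c, ?_⟩
  have h1 : IsLocalRing.residue P.O ⟨u, hu⟩ = IsLocalRing.residue P.O (algebraMap k P.O c) := hc.symm
  exact (P.residue_eq_iff _ _).1 h1

theorem Place.deg_eq_one (P : Place k M) : P.deg = 1 := by
  unfold Place.deg
  rw [finrank_eq_one_iff_of_nonzero' (1 : P.Res) one_ne_zero]
  intro w
  obtain ⟨c, hc⟩ := gal1c_res_surj P w
  exact ⟨c, by rw [Algebra.smul_def, mul_one, hc]⟩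

variable {Y : Type} [Field Y] [Algebra M Y] [Algebra k Y] [IsScalarTower k M Y]
  [FiniteDimensional M Y]

theorem sum_ramIdx_eq (P : Place k M) :
    ∑ᶠ Q : Place k Y, Q.ramIdx P = Module.finrank M Y := by
  have := isFF_of_finite k M Y
  have h := sum_ramIdx_mul_deg (M' := Y) P
  rw [P.deg_eq_one, mul_one] at h
  rw [← h]
  refine finsum_congr fun Q => ?_
  rw [Q.deg_eq_one, mul_one]

omit [IsAlgClosed k] in
theorem gal1c_support (P : Place k M) :
    (Function.support fun Q : Place k Y => Q.ramIdx P).Finite := by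
  refine (Place.finite_over (M' := Y) P).subset fun Q hQ => ?_
  by_contra h
  exact hQ (Place.ramIdx_eq_zero h)

theorem Place.ramIdx_le_finrank (Q : Place k Y) (P : Place k M) :
    Q.ramIdx P ≤ Module.finrank M Y := by
  rw [← sum_ramIdx_eq (Y := Y) P]
  exact single_le_finsum Q (gal1c_support P) fun _ => Nat.zero_le _

theorem Place.unique_of_ramIdx_eq_finrank {Q Q' : Place k Y} {P : Place k M}
    (he : Q.ramIdx P = Module.finrank M Y) (h' : Q'.Over P) : Q' = Q := by
  classical
  by_contra hne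
  have h1 := sum_ramIdx_eq (Y := Y) P
  rw [finsum_eq_sum_of_support_subset (s := (gal1c_support (Y := Y) P).toFinset ∪ {Q', Q}) _
    (by
      intro R hR
      simp only [Finset.coe_union, Set.mem_union, Set.Finite.coe_toFinset]
      exact Or.inl hR)] at h1
  have h2 : ∑ R ∈ ({Q', Q} : Finset (Place k Y)), R.ramIdx P ≤
      ∑ R ∈ (gal1c_support (Y := Y) P).toFinset ∪ {Q', Q}, R.ramIdx P :=
    Finset.sum_le_sum_of_subset Finset.subset_union_right
  rw [Finset.sum_pair hne, h1, he] at h2
  have := h'.ramIdx_pos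
  omega

omit [IsFF k M] [IsAlgClosed k] [FiniteDimensional M Y] in
theorem gal1c_smulAut_one (Q : Place k Y) : Q.smulAut (1 : Y ≃ₐ[M] Y) = Q := by
  apply Place.ext
  ext y
  rfl

omit [IsFF k M] [IsAlgClosed k] [FiniteDimensional M Y] in
theorem gal1c_smulAut_mul (g g' : Y ≃ₐ[M] Y) (Q : Place k Y) :
    Q.smulAut (g * g') = (Q.smulAut g').smulAut g := by
  apply Place.ext
  ext y
  rfl

/-- the action of `Aut(Y/M)` on the places of `Y` -/
@[reducible] def gal1cAct : MulAction (Y ≃ₐ[M] Y) (Place k Y) where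
  smul g Q := Q.smulAut g
  one_smul Q := gal1c_smulAut_one Q
  mul_smul g g' Q := gal1c_smulAut_mul g g' Q

/-- `|D(Q)| = e(Q|P)` -/
theorem card_stabilizer_eq_ramIdx [IsGalois M Y] {Q : Place k Y} {P : Place k M} (h : Q.Over P) :
    Nat.card {g : Y ≃ₐ[M] Y // Q.smulAut g = Q} = Q.ramIdx P := by
  classical
  let _ : MulAction (Y ≃ₐ[M] Y) (Place k Y) := gal1cAct
  have horb : MulAction.orbit (Y ≃ₐ[M] Y) Q = {Q' : Place k Y | Q'.Over P} := by
    ext Q'
    constructor
    · rintro ⟨g, rfl⟩
      exact (Place.smulAut_over g h).1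
    · intro h'
      obtain ⟨g, hg⟩ := Place.exists_smulAut_eq h h'
      exact ⟨g, hg⟩
  have h1 : Nat.card (MulAction.stabilizer (Y ≃ₐ[M] Y) Q) * (MulAction.orbit (Y ≃ₐ[M] Y) Q).ncard
      = Module.finrank M Y := by
    rw [← MulAction.index_stabilizer, Subgroup.card_mul_index, IsGalois.card_aut_eq_finrank]
  have h2 : (MulAction.orbit (Y ≃ₐ[M] Y) Q).ncard * Q.ramIdx P = Module.finrank M Y := by
    rw [← sum_ramIdx_eq (Y := Y) P, horb,
      finsum_eq_sum_of_support_subset (s := (Place.finite_over (M' := Y) P).toFinset) _ (by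
        intro R hR
        rw [Set.Finite.coe_toFinset]
        by_contra hn
        exact hR (Place.ramIdx_eq_zero hn)),
      Set.ncard_eq_toFinset_card _ (Place.finite_over (M' := Y) P)]
    rw [Finset.sum_congr rfl (g := fun _ => Q.ramIdx P), Finset.sum_const, smul_eq_mul]
    intro R hR
    rw [Set.Finite.mem_toFinset] at hR
    obtain ⟨g, rfl⟩ := Place.exists_smulAut_eq h hR
    exact (Place.smulAut_over g h).2.1
  have h3 : 0 < (MulAction.orbit (Y ≃ₐ[M] Y) Q).ncard := by
    rcases Nat.eq_zero_or_pos (MulAction.orbit (Y ≃ₐ[M] Y) Q).ncard with h0 | h0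
    · rw [h0, zero_mul] at h2
      have : 0 < Module.finrank M Y := Module.finrank_pos
      omega
    · exact h0
  have h4 : Nat.card (MulAction.stabilizer (Y ≃ₐ[M] Y) Q) = Q.ramIdx P := by
    have h5 : (MulAction.orbit (Y ≃ₐ[M] Y) Q).ncard * Nat.card (MulAction.stabilizer (Y ≃ₐ[M] Y) Q)
        = (MulAction.orbit (Y ≃ₐ[M] Y) Q).ncard * Q.ramIdx P := by
      rw [h2, mul_comm, h1]
    exact Nat.eq_of_mul_eq_mul_left h3 h5
  rw [← h4]
  rfl

/-- no wild inertia in characteristic zero -/
theorem eq_one_of_tame [CharZero k] {Q : Place k Y} (σ : Y ≃ₐ[M] Y) (hσ : Q.smulAut σ = Q) {t : Y}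
    (ht : Q.v t = exp (-1)) (hσt : Q.v (σ t - t) < exp (-1)) : σ = 1 := by
  have hFF : IsFF k Y := isFF_of_finite k M Y
  -- `σ` preserves the valuation and fixes the constants
  have hinv : ∀ x, Q.v (σ x) = Q.v x := by
    intro x
    have h1 := congrArg (fun R : Place k Y => R.v (σ x)) hσ
    simp only [Place.smulAut_v_apply, AlgEquiv.symm_apply_apply] at h1
    exact h1.symm
  have hc : ∀ c : k, σ (algebraMap k Y c) = algebraMap k Y c := by
    intro c
    rw [IsScalarTower.algebraMap_apply k M Y, σ.commutes]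
  -- Step 1: `v (σ u - u) < v u` for all `u ≠ 0`
  have Tone : Q.v (σ 1 - 1) < Q.v 1 := by simp
  have Tmul : ∀ a b, Q.v (σ a - a) < Q.v a → Q.v (σ b - b) < Q.v b →
      Q.v (σ (a * b) - a * b) < Q.v (a * b) := by
    intro a b ha hb
    have e : σ (a * b) - a * b = (σ a - a) * σ b + a * (σ b - b) := by rw [map_mul]; ring
    rw [e, map_mul Q.v a b]
    apply Valuation.map_add_lt
    · rw [map_mul, hinv]
      exact mul_lt_mul_of_pos_right ha (lt_of_le_of_lt zero_le hb)
    · rw [map_mul]
      exact mul_lt_mul_of_pos_left hb (lt_of_le_of_lt zero_le ha)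
  have Tinv : ∀ a, Q.v (σ a - a) < Q.v a → Q.v (σ a⁻¹ - a⁻¹) < Q.v a⁻¹ := by
    intro a ha
    have hva : 0 < Q.v a := lt_of_le_of_lt zero_le ha
    have ha0 : a ≠ 0 := (Q.v.ne_zero_iff).1 hva.ne'
    have hsa0 : σ a ≠ 0 := by simpa using ha0
    have e : σ a⁻¹ - a⁻¹ = -((σ a - a) * ((σ a)⁻¹ * a⁻¹)) := by
      rw [map_inv₀]
      field_simp
      ring
    rw [e, Valuation.map_neg, map_mul, map_mul, map_inv₀, map_inv₀, hinv]
    calc Q.v (σ a - a) * ((Q.v a)⁻¹ * (Q.v a)⁻¹) < Q.v a * ((Q.v a)⁻¹ * (Q.v a)⁻¹) :=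
          mul_lt_mul_of_pos_right ha (mul_pos (inv_pos.2 hva) (inv_pos.2 hva))
      _ = (Q.v a)⁻¹ := by rw [← mul_assoc, mul_inv_cancel₀ hva.ne', one_mul]
  have Tpow : ∀ a, Q.v (σ a - a) < Q.v a → ∀ j : ℕ, Q.v (σ (a ^ j) - a ^ j) < Q.v (a ^ j) := by
    intro a ha j
    induction j with
    | zero => simp
    | succ j ih => rw [pow_succ]; exact Tmul _ _ ih ha
  have Tzpow : ∀ a, Q.v (σ a - a) < Q.v a → ∀ j : ℤ, Q.v (σ (a ^ j) - a ^ j) < Q.v (a ^ j) := by
    intro a ha j
    cases j with
    | ofNat j => simpa using Tpow a ha j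
    | negSucc j => rw [zpow_negSucc]; exact Tinv _ (Tpow a ha (j + 1))
  have Tunit : ∀ w, Q.v w = 1 → Q.v (σ w - w) < Q.v w := by
    intro w hw
    obtain ⟨c, hcw⟩ := Q.exists_const hw.le
    have e : σ w - w = σ (w - algebraMap k Y c) - (w - algebraMap k Y c) := by
      rw [map_sub, hc]; ring
    rw [e, hw]
    exact Valuation.map_sub_lt _ (by rw [hinv]; exact hcw) hcw
  have Tall : ∀ u, u ≠ 0 → Q.v (σ u - u) < Q.v u := by
    intro u hu
    have ht0 : t ≠ 0 := by
      rintro rfl
      rw [map_zero] at ht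
      exact exp_ne_zero ht.symm
    have htj : t ^ (Q.ord u) ≠ 0 := zpow_ne_zero _ ht0
    have hw : Q.v (u * (t ^ (Q.ord u))⁻¹) = 1 := by
      rw [map_mul, map_inv₀, map_zpow₀, ht, Q.v_eq_exp_neg_ord hu, ← exp_zsmul]
      simp
    have e : u = u * (t ^ (Q.ord u))⁻¹ * t ^ (Q.ord u) := by
      rw [mul_assoc, inv_mul_cancel₀ htj, mul_one]
    rw [e]
    exact Tmul _ _ (Tunit _ hw) (Tzpow t (by rw [ht]; exact hσt) _)
  -- Step 2: the same for the powers of `σ`
  have Tit : ∀ (i : ℕ) (x : Y), x ≠ 0 → Q.v ((σ ^ i) x - x) < Q.v x := by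
    intro i x hx
    have hvx : 0 < Q.v x := zero_lt_iff.2 (Q.v_ne_zero hx)
    induction i with
    | zero => simpa using hvx
    | succ i ih =>
      have e : (σ ^ (i + 1)) x - x = σ ((σ ^ i) x - x) + (σ x - x) := by
        rw [pow_succ', AlgEquiv.mul_apply, map_sub]; ring
      rw [e]
      exact Valuation.map_add_lt _ (by rw [hinv]; exact ih) (Tall x hx)
  -- Step 3: telescoping
  by_contra hne
  obtain ⟨u, hu⟩ : ∃ u, σ u ≠ u := by
    by_contra hcon
    push Not at hcon
    exact hne (AlgEquiv.ext hcon)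
  have hz : σ u - u ≠ 0 := sub_ne_zero.2 hu
  have hr : 0 < orderOf σ := orderOf_pos σ
  have htel : ∑ i ∈ Finset.range (orderOf σ), (σ ^ i) (σ u - u) = 0 := by
    have e : ∀ i ∈ Finset.range (orderOf σ), (σ ^ i) (σ u - u) = (σ ^ (i + 1)) u - (σ ^ i) u := by
      intro i _
      rw [pow_succ, AlgEquiv.mul_apply, map_sub]
    rw [Finset.sum_congr rfl e, Finset.sum_range_sub (fun i => (σ ^ i) u), pow_orderOf_eq_one]
    simp
  have hsplit : ∑ i ∈ Finset.range (orderOf σ), (σ ^ i) (σ u - u) =
      ∑ i ∈ Finset.range (orderOf σ), ((σ ^ i) (σ u - u) - (σ u - u)) +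
        algebraMap k Y (orderOf σ : k) * (σ u - u) := by
    rw [Finset.sum_sub_distrib, Finset.sum_const, Finset.card_range, nsmul_eq_mul, map_natCast]
    ring
  have hlt : Q.v (∑ i ∈ Finset.range (orderOf σ), ((σ ^ i) (σ u - u) - (σ u - u))) < Q.v (σ u - u) :=
    Valuation.map_sum_lt _ (Q.v_ne_zero hz) fun i _ => Tit i _ hz
  have heq : algebraMap k Y (orderOf σ : k) * (σ u - u) =
      -∑ i ∈ Finset.range (orderOf σ), ((σ ^ i) (σ u - u) - (σ u - u)) := by
    rw [eq_neg_iff_add_eq_zero, add_comm, ← hsplit, htel]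
  have hv : Q.v (algebraMap k Y (orderOf σ : k) * (σ u - u)) = Q.v (σ u - u) := by
    rw [map_mul, Q.triv _ (Nat.cast_ne_zero.2 hr.ne'), one_mul]
  rw [heq, Valuation.map_neg] at hv
  exact absurd hv hlt.ne

end Fin

section Big

variable {k M E : Type} [Field k] [Field M] [Field E] [Algebra k M] [Algebra M E] [IsFF k M]
  [IsAlgClosure M E] [IsAlgClosed k] [CharZero k]

omit [Field k] [Algebra k M] [IsFF k M] [IsAlgClosed k] [CharZero k] in
/-- auxiliary form of `valuation_apply_of_smul_eq` (finite orbits + monotonicity) -/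
private theorem v3t_valuation_apply {V : ValuationSubring E} {g : E ≃ₐ[M] E} (hg : g • V = V)
    (u : E) : V.valuation (g u) = V.valuation u := by
  have hmem : ∀ x : E, g x ∈ V ↔ x ∈ V := by
    intro x
    conv_lhs => rw [← hg]
    rw [ValuationSubring.mem_pointwise_smul_iff_inv_smul_mem]
    have : g⁻¹ • g x = x := by
      show g⁻¹ (g x) = x
      rw [← AlgEquiv.mul_apply, inv_mul_cancel, AlgEquiv.one_apply]
    rw [this]
  have hle : ∀ a b : E, V.valuation (g a) ≤ V.valuation (g b) ↔ V.valuation a ≤ V.valuation b := by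
    intro a b
    by_cases hb : b = 0
    · subst hb
      simp
    · have hgb : g b ≠ 0 := by simpa using hb
      have h1 : V.valuation (g a) ≤ V.valuation (g b) ↔ g (a / b) ∈ V := by
        rw [← ValuationSubring.valuation_le_one_iff, map_div₀, map_div₀,
          div_le_one₀ (zero_lt_iff.2 ((map_ne_zero _).2 hgb))]
      have h2 : V.valuation a ≤ V.valuation b ↔ a / b ∈ V := by
        rw [← ValuationSubring.valuation_le_one_iff, map_div₀,
          div_le_one₀ (zero_lt_iff.2 ((map_ne_zero _).2 hb))]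
      rw [h1, h2, hmem]
  have hlt : ∀ a b : E, V.valuation (g a) < V.valuation (g b) ↔ V.valuation a < V.valuation b := by
    intro a b
    rw [← not_le, ← not_le, hle]
  -- the orbit of `u` is finite
  obtain ⟨r, hr, hru⟩ : ∃ r : ℕ, 0 < r ∧ (g ^ r) u = u := by
    have halg : IsAlgebraic M u := (IsAlgClosure.isAlgebraic (R := M) (K := E)).isAlgebraic u
    have hfin : ((minpoly M u).rootSet E).Finite := Polynomial.rootSet_finite _ _
    have hmaps : ∀ i : ℕ, (g ^ i) u ∈ (minpoly M u).rootSet E := by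
      intro i
      rw [Polynomial.mem_rootSet]
      refine ⟨minpoly.ne_zero halg.isIntegral, ?_⟩
      have := Polynomial.aeval_algHom_apply ((g ^ i : E ≃ₐ[M] E) : E →ₐ[M] E) u (minpoly M u)
      rw [minpoly.aeval, map_zero] at this
      exact this
    obtain ⟨i, -, j, -, hij, he⟩ := Set.infinite_univ.exists_ne_map_eq_of_mapsTo
      (f := fun i : ℕ => (g ^ i) u) (fun i _ => hmaps i) hfin
    have key : ∀ i j : ℕ, i < j → (g ^ i) u = (g ^ j) u → ∃ r : ℕ, 0 < r ∧ (g ^ r) u = u := by
      intro i j hij he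
      refine ⟨j - i, by omega, ?_⟩
      have e : j = i + (j - i) := by omega
      rw [e, pow_add, AlgEquiv.mul_apply] at he
      exact ((g ^ i).injective he).symm
    rcases lt_or_gt_of_ne hij with h | h
    · exact key i j h he
    · exact key j i h he.symm
  rcases lt_trichotomy (V.valuation (g u)) (V.valuation u) with h | h | h
  · exfalso
    have hall : ∀ i : ℕ, V.valuation ((g ^ (i + 1)) u) < V.valuation u := by
      intro i
      induction i with
      | zero => simpa using h
      | succ i ih =>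
        rw [pow_succ', AlgEquiv.mul_apply]
        exact ((hlt _ _).2 ih).trans h
    have := hall (r - 1)
    rw [Nat.sub_add_cancel hr, hru] at this
    exact lt_irrefl _ this
  · exact h
  · exfalso
    have hall : ∀ i : ℕ, V.valuation u < V.valuation ((g ^ (i + 1)) u) := by
      intro i
      induction i with
      | zero => simpa using h
      | succ i ih =>
        rw [pow_succ', AlgEquiv.mul_apply]
        exact h.trans ((hlt _ _).2 ih)
    have := hall (r - 1)
    rw [Nat.sub_add_cancel hr, hru] at this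
    exact lt_irrefl _ this

/-- elements of the decomposition group act trivially on the residue field (`= k`) -/
theorem residue_trivial {P : Place k M} {V : ValuationSubring E} (h : P.Above E V) {g : E ≃ₐ[M] E}
    (hg : g • V = V) {u : E} (hu : u ∈ V) : V.valuation (g u - u) < 1 := by
  let _ : Algebra k E := ((algebraMap M E).comp (algebraMap k M)).toAlgebra
  have : IsScalarTower k M E := IsScalarTower.of_algebraMap_eq fun _ => rfl
  have halg : IsAlgebraic M u := (IsAlgClosure.isAlgebraic (R := M) (K := E)).isAlgebraic u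
  have : FiniteDimensional M (IntermediateField.adjoin M {u}) :=
    IntermediateField.adjoin.finiteDimensional halg.isIntegral
  have : IsFF k (IntermediateField.adjoin M {u}) := isFF_of_finite k M _
  obtain ⟨Q, hQ, -⟩ := Place.exists_mid (IntermediateField.adjoin M {u}) h
  let u' : IntermediateField.adjoin M {u} := ⟨u, IntermediateField.mem_adjoin_simple_self M u⟩
  have hu' : Q.v u' ≤ 1 := (hQ.mem_iff u').1 hu
  obtain ⟨c, hc⟩ := Q.exists_const hu'
  have h1 : V.valuation (u - algebraMap M E (algebraMap k M c)) < 1 :=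
    (hQ.valuation_lt_one_iff (u' - algebraMap k _ c)).2 hc
  have h2 : V.valuation (g (u - algebraMap M E (algebraMap k M c))) < 1 := by
    rw [v3t_valuation_apply hg]
    exact h1
  have e : g u - u = g (u - algebraMap M E (algebraMap k M c)) -
      (u - algebraMap M E (algebraMap k M c)) := by
    rw [map_sub, g.commutes]
    ring
  rw [e]
  exact Valuation.map_sub_lt _ h2 h1

/-- the decomposition group preserves the valuation -/
theorem valuation_apply_of_smul_eq {V : ValuationSubring E} {g : E ≃ₐ[M] E} (hg : g • V = V)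
    (u : E) : V.valuation (g u) = V.valuation u := v3t_valuation_apply hg u

variable {Y : Type} [Field Y] [Algebra M Y] [Algebra Y E] [IsScalarTower M Y E] [Algebra k Y]
  [IsScalarTower k M Y] [FiniteDimensional M Y]

/-- the restriction of an element of `D(V)` to a normal layer lies in `D(Q)` -/
theorem smulAut_restrict [Normal M Y] {Q : Place k Y} {V : ValuationSubring E} (hQ : Q.Above E V)
    {g : E ≃ₐ[M] E} (hg : g • V = V) : Q.smulAut (AlgEquiv.restrictNormalHom Y g) = Q := by
  apply Place.eq_of_O_eq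
  ext y
  rw [Valuation.mem_valuationSubring_iff, Valuation.mem_valuationSubring_iff, Place.smulAut_v_apply,
    ← hQ.mem_iff, ← hQ.mem_iff]
  have e : algebraMap Y E ((AlgEquiv.restrictNormalHom Y g).symm y) = g⁻¹ • algebraMap Y E y := by
    have h1 : (AlgEquiv.restrictNormalHom Y g).symm = AlgEquiv.restrictNormalHom Y g⁻¹ := by
      rw [map_inv]
      rfl
    rw [h1]
    exact AlgEquiv.restrictNormal_commutes g⁻¹ Y y
  rw [e, ← ValuationSubring.mem_pointwise_smul_iff_inv_smul_mem, hg]

end Big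

end Claimed.Agent.R280
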