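import Claimed.Agent.R280.Gal.V3Tame

/-!
# Row 280, package Gal1D (`Gal/V4Canon.lean`, ~700 lines): canonical inertia elements on finite layers

`k` algebraically closed of characteristic zero.  `θ(g) = g t / t mod 𝔪_V` for a uniformiser `t` of the place `Q` of `Y` below `V`.

* Gal1D-1 (~200 lines) `IsCanon.conj`, `IsCanon.of_mul`, `IsCanon.apply_root`.
  - `apply_root`: `hg` gives `π₀, τ₀`; `w := τ / τ₀`, `w ^ m = π / π₀ =: u`, `P.v u = 1` so `w ∈ V^×`; `(g w / w) ^ m = 1`, so `g w = η w` with `η ∈ k` an `m`-th root of unity (`hζ.eq_pow_of_pow_eq_one`);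
    `residue_trivial`: `V.valuation ((η - 1) w) < 1`, so `η = 1` (a nonzero constant is a unit of `V`).
* Gal1D-2 (~250 lines) `IsCanon.theta`: `e := e(Q|P)`, `τ_e := τ ^ (m / e)`, `τ_e ^ e = π`, `g τ_e = ζ_e τ_e`; `(t / τ_e) ^ e = t ^ e / π` is a unit of `Q`, so `w := t / τ_e ∈ V^×`, `g w ≡ w` (`residue_trivial`);
  `g t - ζ_e t = ζ_e τ_e (g w - w)`.
* Gal1D-3 (~250 lines) `IsCanon.orderOf_restrict`, `restrict_mem_zpowers`, `restrict_eq`.  `σ := g|_Y ∈ D(Q)` (`smulAut_restrict`).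
  - `θ (g ^ j) = ζ_e ^ j` by induction (`valuation_apply_of_smul_eq`); if `σ ^ j = 1` then `ζ_e ^ j = 1`, so `e ∣ j`; `σ ^ e = 1` because `|D(Q)| = e` (`card_stabilizer_eq_ramIdx`; `D(Q)` as a subgroup).
  - `zpowers σ ≤ D(Q)` with equal cardinalities.   - `restrict_eq`: `σ'⁻¹ σ ∈ D(Q)` has `θ = 1`, `eq_one_of_tame` (translate `V.valuation` to `Q.v` with `Place.Above.valuation_lt_one_iff`).

Owner of the statements: helper129 / helper256.
-/

set_option autoImplicit false

namespace Claimed.Agent.R280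

open WithZero
open scoped Pointwise

section V4cGen

variable {k M E : Type} [Field k] [Field M] [Field E] [Algebra k M] [Algebra M E]

theorem v4c_val_eq_one {P : Place k M} {V : ValuationSubring E} (h : P.Above E V) {f : M}
    (hf : P.v f = 1) : V.valuation (algebraMap M E f) = 1 := by
  refine le_antisymm ?_ (not_lt.1 fun hlt => ?_)
  · rw [ValuationSubring.valuation_le_one_iff, h.mem_iff, hf]
  · rw [h.valuation_lt_one_iff, hf] at hlt
    exact lt_irrefl _ hlt

theorem v4c_val_const {P : Place k M} {V : ValuationSubring E} (h : P.Above E V) {c : k}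
    (hc : c ≠ 0) : V.valuation (algebraMap M E (algebraMap k M c)) = 1 :=
  v4c_val_eq_one h (P.triv c hc)

theorem v4c_const_eq_zero {P : Place k M} {V : ValuationSubring E} (h : P.Above E V) {c : k}
    (hc : V.valuation (algebraMap M E (algebraMap k M c)) < 1) : c = 0 := by
  by_contra h0
  rw [v4c_val_const h h0] at hc
  exact lt_irrefl _ hc

theorem v4c_val_eq_one_of_pow (V : ValuationSubring E) {x : E} {n : ℕ} (hn : n ≠ 0)
    (h : V.valuation (x ^ n) = 1) : V.valuation x = 1 := by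
  rw [map_pow] at h
  exact (pow_eq_one_iff_of_nonneg zero_le hn).1 h

end V4cGen

variable {k M E : Type} [Field k] [Field M] [Field E] [Algebra k M] [Algebra M E] [IsFF k M]
  [IsAlgClosure M E] [IsAlgClosed k] [CharZero k]

/-- an element of the decomposition group that multiplies the unit `w` by an `m`-th root of unity fixes `w` -/
theorem v4c_fix_of_pow_mem {P : Place k M} {V : ValuationSubring E} (h : P.Above E V) {m : ℕ}
    (hm : m ≠ 0) {ζ : k} (hζ : IsPrimitiveRoot ζ m) {g : E ≃ₐ[M] E} (hg : g • V = V) {w : E} {u : M}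
    (hw : w ^ m = algebraMap M E u) (hu : P.v u = 1) : g w = w := by
  have hVw : V.valuation w = 1 := v4c_val_eq_one_of_pow V hm (by rw [hw]; exact v4c_val_eq_one h hu)
  have hw0 : w ≠ 0 := by
    rintro rfl
    simp at hVw
  have : NeZero m := ⟨hm⟩
  have hζE : IsPrimitiveRoot (algebraMap M E (algebraMap k M ζ)) m :=
    (hζ.map_of_injective (algebraMap k M).injective).map_of_injective (algebraMap M E).injective
  have h1 : (g w / w) ^ m = 1 := by
    rw [div_pow, ← map_pow, hw, AlgEquiv.commutes, div_self]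
    rw [← hw]; exact pow_ne_zero _ hw0
  obtain ⟨i, -, hi⟩ := hζE.eq_pow_of_pow_eq_one h1
  have hgw : g w = algebraMap M E (algebraMap k M (ζ ^ i)) * w := by
    rw [map_pow, map_pow, hi, div_mul_cancel₀ _ hw0]
  have hres := residue_trivial h hg ((ValuationSubring.valuation_le_one_iff V w).1 hVw.le)
  have h2 : g w - w = algebraMap M E (algebraMap k M (ζ ^ i - 1)) * w := by
    rw [hgw, map_sub, map_sub, map_one, map_one]; ring
  rw [h2, map_mul, hVw, mul_one] at hres
  have h3 := v4c_const_eq_zero h hres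
  rw [hgw, sub_eq_zero.1 h3, map_one, map_one, one_mul]

/-- independence of the uniformiser and of the root -/
theorem IsCanon.apply_root {P : Place k M} {V : ValuationSubring E} (h : P.Above E V) {m : ℕ}
    {ζ : k} (hζ : IsPrimitiveRoot ζ m) {g : E ≃ₐ[M] E} (hg : IsCanon E P V m ζ g) {π : M} {τ : E}
    (hπ : P.v π = exp (-1)) (hτ : τ ^ m = algebraMap M E π) :
    g τ = algebraMap M E (algebraMap k M ζ) * τ := by
  obtain ⟨hV, π₀, τ₀, hπ₀, hτ₀, hgτ₀⟩ := hg
  have hm : m ≠ 0 := by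
    rintro rfl
    rw [pow_zero, ← map_one (algebraMap M E)] at hτ
    have := (algebraMap M E).injective hτ
    rw [← this, map_one] at hπ
    exact absurd hπ (by decide)
  have hπ₀0 : π₀ ≠ 0 := by
    rintro rfl
    rw [map_zero] at hπ₀
    exact absurd hπ₀ (by decide)
  have hτ₀0 : τ₀ ≠ 0 := by
    rintro rfl
    rw [zero_pow hm] at hτ₀
    exact hπ₀0 ((algebraMap M E).injective (by rw [← hτ₀, map_zero]))
  have hw : (τ / τ₀) ^ m = algebraMap M E (π / π₀) := by
    rw [div_pow, hτ, hτ₀, map_div₀]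
  have hu : P.v (π / π₀) = 1 := by
    rw [map_div₀, hπ, hπ₀, div_self]
    exact exp_ne_zero
  have hfix := v4c_fix_of_pow_mem h hm hζ hV hw hu
  have h1 : τ = τ / τ₀ * τ₀ := (div_mul_cancel₀ _ hτ₀0).symm
  calc g τ = g (τ / τ₀ * τ₀) := by rw [← h1]
    _ = τ / τ₀ * (algebraMap M E (algebraMap k M ζ) * τ₀) := by rw [map_mul, hfix, hgτ₀]
    _ = algebraMap M E (algebraMap k M ζ) * (τ / τ₀ * τ₀) := by ring
    _ = _ := by rw [← h1]

theorem IsCanon.conj {P : Place k M} {V : ValuationSubring E} {m : ℕ} {ζ : k} {g : E ≃ₐ[M] E}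
    (hg : IsCanon E P V m ζ g) (g₀ : E ≃ₐ[M] E) : IsCanon E P (g₀ • V) m ζ (g₀ * g * g₀⁻¹) := by
  obtain ⟨hV, π, τ, hπ, hτ, hgτ⟩ := hg
  refine ⟨?_, π, g₀ τ, hπ, ?_, ?_⟩
  · rw [smul_smul, inv_mul_cancel_right, mul_smul, hV]
  · rw [← map_pow, hτ, AlgEquiv.commutes]
  · have h1 : (g₀ * g * g₀⁻¹) (g₀ τ) = g₀ (g τ) := by
      rw [AlgEquiv.mul_apply, AlgEquiv.mul_apply]
      congr 2
      show (g₀⁻¹ * g₀) τ = τ
      rw [inv_mul_cancel]; rfl
    rw [h1, hgτ, map_mul, AlgEquiv.commutes]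

theorem IsCanon.of_mul {P : Place k M} {V : ValuationSubring E} {m d : ℕ} {ζ : k} {g : E ≃ₐ[M] E}
    (hg : IsCanon E P V (m * d) ζ g) : IsCanon E P V m (ζ ^ d) g := by
  obtain ⟨hV, π, τ, hπ, hτ, hgτ⟩ := hg
  refine ⟨hV, π, τ ^ d, hπ, ?_, ?_⟩
  · rw [← pow_mul, mul_comm d m, hτ]
  · rw [map_pow, hgτ, mul_pow, map_pow, map_pow]

variable {Y : Type} [Field Y] [Algebra M Y] [Algebra Y E] [IsScalarTower M Y E] [Algebra k Y]
  [IsScalarTower k M Y] [FiniteDimensional M Y]

/-- the tame character of a canonical element: `g t ≡ ζ ^ (m / e) t` -/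
theorem IsCanon.theta {P : Place k M} {Q : Place k Y} {V : ValuationSubring E} (hP : P.Above E V)
    (hQ : Q.Above E V) {m : ℕ} {ζ : k} (hζ : IsPrimitiveRoot ζ m) (hm0 : 0 < m)
    (he : Q.ramIdx P ∣ m) {g : E ≃ₐ[M] E} (hg : IsCanon E P V m ζ g) {t : Y}
    (ht : Q.v t = exp (-1)) :
    V.valuation (g (algebraMap Y E t)
        - algebraMap M E (algebraMap k M (ζ ^ (m / Q.ramIdx P))) * algebraMap Y E t)
      < V.valuation (algebraMap Y E t) := by
  have hover : Q.Over P := Place.over_of_above hQ hP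
  obtain ⟨he0, hE⟩ := hover.overE_ramIdx
  generalize Q.ramIdx P = e at he he0 hE ⊢
  obtain ⟨π, hπ⟩ := P.exists_unif
  have : IsAlgClosed E := IsAlgClosure.isAlgClosed M
  obtain ⟨τ, hτ⟩ := IsAlgClosed.exists_pow_nat_eq (algebraMap M E π) hm0
  have hgτ := hg.apply_root hP hζ hπ hτ
  have hπ0 : π ≠ 0 := by
    rintro rfl
    rw [map_zero] at hπ
    exact absurd hπ (by decide)
  have hτ0 : τ ≠ 0 := by
    rintro rfl
    rw [zero_pow hm0.ne'] at hτ
    exact hπ0 ((algebraMap M E).injective (by rw [← hτ, map_zero]))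
  obtain ⟨τe, hτe_def⟩ : ∃ τe, τe = τ ^ (m / e) := ⟨_, rfl⟩
  have hτe0 : τe ≠ 0 := by rw [hτe_def]; exact pow_ne_zero _ hτ0
  have hτe : τe ^ e = algebraMap M E π := by rw [hτe_def, ← pow_mul, Nat.div_mul_cancel he, hτ]
  have hgτe : g τe = algebraMap M E (algebraMap k M (ζ ^ (m / e))) * τe := by
    rw [hτe_def, map_pow, hgτ, mul_pow, map_pow, map_pow]
  have hw : (algebraMap Y E t / τe) ^ e = algebraMap Y E (t ^ e / algebraMap M Y π) := by
    rw [div_pow, hτe, map_div₀, map_pow, ← IsScalarTower.algebraMap_apply]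
  have hu : Q.v (t ^ e / algebraMap M Y π) = 1 := by
    rw [map_div₀, map_pow, hE, ht, hπ, div_self]
    exact pow_ne_zero _ exp_ne_zero
  have hVw : V.valuation (algebraMap Y E t / τe) = 1 :=
    v4c_val_eq_one_of_pow V he0.ne' (by rw [hw]; exact v4c_val_eq_one hQ hu)
  have hres := residue_trivial hP hg.1 ((ValuationSubring.valuation_le_one_iff V _).1 hVw.le)
  have hζ0 : ζ ^ (m / e) ≠ 0 := pow_ne_zero _ (hζ.ne_zero hm0.ne')
  have h1 : algebraMap Y E t = algebraMap Y E t / τe * τe := (div_mul_cancel₀ _ hτe0).symm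
  have h2 : g (algebraMap Y E t) - algebraMap M E (algebraMap k M (ζ ^ (m / e))) * algebraMap Y E t
      = algebraMap M E (algebraMap k M (ζ ^ (m / e))) * τe
        * (g (algebraMap Y E t / τe) - algebraMap Y E t / τe) := by
    have h3 : g (algebraMap Y E t) = g (algebraMap Y E t / τe) * g τe := by
      rw [← map_mul, ← h1]
    rw [h3, hgτe]
    field_simp
  have hVt : V.valuation (algebraMap Y E t) = V.valuation τe := by
    conv_lhs => rw [h1, map_mul, hVw, one_mul]
  rw [h2, map_mul, map_mul, v4c_val_const hP hζ0, one_mul, hVt]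
  have hpos : 0 < V.valuation τe := by
    rw [zero_lt_iff]; exact (Valuation.ne_zero_iff _).2 hτe0
  calc V.valuation τe * V.valuation (g (algebraMap Y E t / τe) - algebraMap Y E t / τe)
      < V.valuation τe * 1 := by
        exact mul_lt_mul_of_pos_left hres hpos
    _ = _ := mul_one _

section V4cDec

omit [IsFF k M] [IsAlgClosed k] [CharZero k] [FiniteDimensional M Y]

theorem v4c_smulAut_mul (Q : Place k Y) (g h : Y ≃ₐ[M] Y) :
    Q.smulAut (g * h) = (Q.smulAut h).smulAut g := by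
  ext y
  rw [Place.smulAut_v_apply, Place.smulAut_v_apply, Place.smulAut_v_apply]
  rfl

theorem v4c_smulAut_one (Q : Place k Y) : Q.smulAut (1 : Y ≃ₐ[M] Y) = Q := by
  ext y
  rw [Place.smulAut_v_apply]
  rfl

/-- the decomposition group of `Q` as a subgroup -/
def v4cDec (Q : Place k Y) : Subgroup (Y ≃ₐ[M] Y) where
  carrier := {g | Q.smulAut g = Q}
  mul_mem' := fun {a b} ha hb => by
    show Q.smulAut (a * b) = Q
    rw [v4c_smulAut_mul, show Q.smulAut b = Q from hb, show Q.smulAut a = Q from ha]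
  one_mem' := v4c_smulAut_one Q
  inv_mem' := fun {a} ha => by
    show Q.smulAut a⁻¹ = Q
    have h1 : Q.smulAut a = Q := ha
    calc Q.smulAut a⁻¹ = (Q.smulAut a).smulAut a⁻¹ := by rw [h1]
      _ = Q.smulAut (a⁻¹ * a) := (v4c_smulAut_mul Q _ _).symm
      _ = Q := by rw [inv_mul_cancel, v4c_smulAut_one]

theorem v4c_mem_dec {Q : Place k Y} {g : Y ≃ₐ[M] Y} : g ∈ v4cDec Q ↔ Q.smulAut g = Q := Iff.rfl

theorem v4c_lt_of_val_lt {Q : Place k Y} {V : ValuationSubring E} (hQ : Q.Above E V) {x t : Y}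
    (h : V.valuation (algebraMap Y E x) < V.valuation (algebraMap Y E t)) : Q.v x < Q.v t := by
  have ht : t ≠ 0 := by
    rintro rfl
    rw [map_zero, map_zero] at h
    exact not_lt_zero h
  have hpos : 0 < V.valuation (algebraMap Y E t) := lt_of_le_of_lt zero_le h
  have h1 : V.valuation (algebraMap Y E (x / t)) < 1 := by
    rw [map_div₀, map_div₀, div_lt_one₀ hpos]
    exact h
  rw [hQ.valuation_lt_one_iff, map_div₀, div_lt_one₀] at h1
  · exact h1
  · rw [zero_lt_iff]; exact (Valuation.ne_zero_iff _).2 ht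

end V4cDec

omit [IsFF k M] [IsAlgClosure M E] [IsAlgClosed k] [CharZero k] in
theorem v4c_theta_pow {V : ValuationSubring E} {g : E ≃ₐ[M] E}
    (hgV : ∀ u : E, V.valuation (g u) = V.valuation u) {c : M}
    (hc : V.valuation (algebraMap M E c) ≤ 1) {x : E}
    (h : V.valuation (g x - algebraMap M E c * x) < V.valuation x) (j : ℕ) :
    V.valuation ((g ^ j) x - algebraMap M E (c ^ j) * x) < V.valuation x := by
  induction j with
  | zero =>
    rw [pow_zero, pow_zero, map_one, one_mul, AlgEquiv.one_apply, sub_self, map_zero]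
    exact lt_of_le_of_lt zero_le h
  | succ j ih =>
    have h1 : (g ^ (j + 1)) x - algebraMap M E (c ^ (j + 1)) * x
        = g ((g ^ j) x - algebraMap M E (c ^ j) * x)
          + algebraMap M E (c ^ j) * (g x - algebraMap M E c * x) := by
      rw [pow_succ' g, AlgEquiv.mul_apply, map_sub, map_mul, AlgEquiv.commutes, pow_succ, map_mul]
      ring
    rw [h1]
    refine Valuation.map_add_lt _ ?_ ?_
    · rw [hgV]; exact ih
    · rw [map_mul]
      refine lt_of_le_of_lt ?_ h
      have h2 : V.valuation (algebraMap M E (c ^ j)) ≤ 1 := by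
        rw [map_pow, map_pow]; exact pow_le_one₀ zero_le hc
      calc _ ≤ 1 * V.valuation (g x - algebraMap M E c * x) := mul_le_mul_left h2 _
        _ = _ := one_mul _

theorem v4c_card_dec [IsGalois M Y] {Q : Place k Y} {P : Place k M} (h : Q.Over P) :
    Nat.card (v4cDec (M := M) Q) = Q.ramIdx P :=
  card_stabilizer_eq_ramIdx h

theorem v4c_ramIdx_dvd [IsGalois M Y] {Q : Place k Y} {P : Place k M} (h : Q.Over P) :
    Q.ramIdx P ∣ Module.finrank M Y := by
  rw [← v4c_card_dec h, ← IsGalois.card_aut_eq_finrank M Y]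
  exact Subgroup.card_subgroup_dvd_card _

omit [IsFF k M] [IsAlgClosure M E] [IsAlgClosed k] [CharZero k] [Algebra k Y] [IsScalarTower k M Y]
  [FiniteDimensional M Y] in
theorem v4c_restrict_apply [Normal M Y] (g : E ≃ₐ[M] E) (y : Y) :
    algebraMap Y E (AlgEquiv.restrictNormalHom Y g y) = g (algebraMap Y E y) :=
  AlgEquiv.restrictNormal_commutes g Y y

theorem IsCanon.orderOf_restrict [IsGalois M Y] {P : Place k M} {Q : Place k Y}
    {V : ValuationSubring E} (hP : P.Above E V) (hQ : Q.Above E V) {m : ℕ} {ζ : k}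
    (hζ : IsPrimitiveRoot ζ m) (hm : Module.finrank M Y ∣ m) (hm0 : 0 < m) {g : E ≃ₐ[M] E}
    (hg : IsCanon E P V m ζ g) : orderOf (AlgEquiv.restrictNormalHom Y g) = Q.ramIdx P := by
  have hover : Q.Over P := Place.over_of_above hQ hP
  have he : Q.ramIdx P ∣ m := (v4c_ramIdx_dvd hover).trans hm
  have hσ : Q.smulAut (AlgEquiv.restrictNormalHom Y g) = Q := smulAut_restrict hQ hg.1
  obtain ⟨t, ht⟩ := Q.exists_unif
  have hth := hg.theta hP hQ hζ hm0 he ht
  have hζe : IsPrimitiveRoot (ζ ^ (m / Q.ramIdx P)) (Q.ramIdx P) :=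
    hζ.pow hm0 (Nat.div_mul_cancel he).symm
  have hζ0 : ζ ^ (m / Q.ramIdx P) ≠ 0 := pow_ne_zero _ (hζ.ne_zero hm0.ne')
  refine Nat.dvd_antisymm (orderOf_dvd_of_pow_eq_one ?_) ?_
  · have h1 : (⟨_, hσ⟩ : v4cDec (M := M) Q) ^ Nat.card (v4cDec (M := M) Q) = 1 := pow_card_eq_one'
    rw [v4c_card_dec hover] at h1
    exact congrArg Subtype.val h1
  · have hj : (AlgEquiv.restrictNormalHom Y g) ^ orderOf (AlgEquiv.restrictNormalHom Y g) = 1 :=
      pow_orderOf_eq_one _
    generalize orderOf (AlgEquiv.restrictNormalHom Y g) = j at hj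
    rw [← hζe.pow_eq_one_iff_dvd]
    have hp := v4c_theta_pow (valuation_apply_of_smul_eq hg.1) (v4c_val_const hP hζ0).le hth j
    have h2 : (g ^ j) (algebraMap Y E t) = algebraMap Y E t := by
      rw [← v4c_restrict_apply, map_pow, hj, AlgEquiv.one_apply]
    have h3 : algebraMap Y E t - algebraMap M E (algebraMap k M (ζ ^ (m / Q.ramIdx P)) ^ j)
          * algebraMap Y E t
        = algebraMap M E (algebraMap k M (1 - (ζ ^ (m / Q.ramIdx P)) ^ j)) * algebraMap Y E t := by
      rw [map_sub, map_sub, map_one, map_one, map_pow (algebraMap k M) (ζ ^ (m / Q.ramIdx P)) j, sub_mul,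
        one_mul]
    rw [h2, h3, map_mul] at hp
    have hpos : 0 < V.valuation (algebraMap Y E t) := lt_of_le_of_lt zero_le hp
    have h4 : V.valuation (algebraMap M E (algebraMap k M (1 - (ζ ^ (m / Q.ramIdx P)) ^ j))) < 1 := by
      by_contra hcon
      rw [not_lt] at hcon
      refine absurd hp (not_lt.2 ?_)
      calc V.valuation (algebraMap Y E t) = 1 * V.valuation (algebraMap Y E t) := (one_mul _).symm
        _ ≤ _ := mul_le_mul_left hcon _
    exact (sub_eq_zero.1 (v4c_const_eq_zero hP h4)).symm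

theorem IsCanon.restrict_mem_zpowers [IsGalois M Y] {P : Place k M} {V : ValuationSubring E}
    (hP : P.Above E V) {m : ℕ} {ζ : k} (hζ : IsPrimitiveRoot ζ m) (hm : Module.finrank M Y ∣ m)
    (hm0 : 0 < m) {g : E ≃ₐ[M] E} (hg : IsCanon E P V m ζ g) {g' : E ≃ₐ[M] E} (hg' : g' • V = V) :
    AlgEquiv.restrictNormalHom Y g' ∈ Subgroup.zpowers (AlgEquiv.restrictNormalHom Y g) := by
  obtain ⟨Q, hQ, hover⟩ := Place.exists_mid Y hP
  have hσ : Q.smulAut (AlgEquiv.restrictNormalHom Y g) = Q := smulAut_restrict hQ hg.1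
  have hσ' : Q.smulAut (AlgEquiv.restrictNormalHom Y g') = Q := smulAut_restrict hQ hg'
  have hle : Subgroup.zpowers (AlgEquiv.restrictNormalHom Y g) ≤ v4cDec (M := M) Q :=
    Subgroup.zpowers_le.2 hσ
  have heq := Subgroup.eq_of_le_of_card_ge hle (by
    rw [Nat.card_zpowers, hg.orderOf_restrict hP hQ hζ hm hm0, v4c_card_dec hover])
  rw [heq]
  exact hσ'

theorem IsCanon.restrict_eq [IsGalois M Y] {P : Place k M} {V : ValuationSubring E}
    (hP : P.Above E V) {m : ℕ} {ζ : k} (hζ : IsPrimitiveRoot ζ m) (hm : Module.finrank M Y ∣ m)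
    (hm0 : 0 < m) {g g' : E ≃ₐ[M] E} (hg : IsCanon E P V m ζ g) (hg' : IsCanon E P V m ζ g') :
    AlgEquiv.restrictNormalHom Y g = AlgEquiv.restrictNormalHom Y g' := by
  obtain ⟨Q, hQ, hover⟩ := Place.exists_mid Y hP
  have he : Q.ramIdx P ∣ m := (v4c_ramIdx_dvd hover).trans hm
  have hσ : Q.smulAut (AlgEquiv.restrictNormalHom Y g) = Q := smulAut_restrict hQ hg.1
  have hσ' : Q.smulAut (AlgEquiv.restrictNormalHom Y g') = Q := smulAut_restrict hQ hg'.1
  obtain ⟨t, ht⟩ := Q.exists_unif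
  have hth := hg.theta hP hQ hζ hm0 he ht
  have hth' := hg'.theta hP hQ hζ hm0 he ht
  have h1 : V.valuation (algebraMap Y E (AlgEquiv.restrictNormalHom Y g t
      - AlgEquiv.restrictNormalHom Y g' t)) < V.valuation (algebraMap Y E t) := by
    rw [map_sub, v4c_restrict_apply, v4c_restrict_apply]
    have := Valuation.map_sub_lt _ hth hth'
    rwa [sub_sub_sub_cancel_right] at this
  have h2 := v4c_lt_of_val_lt hQ h1
  have hρ : Q.smulAut ((AlgEquiv.restrictNormalHom Y g')⁻¹ * AlgEquiv.restrictNormalHom Y g) = Q :=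
    (v4cDec (M := M) Q).mul_mem ((v4cDec (M := M) Q).inv_mem hσ') hσ
  have h3 : Q.v (((AlgEquiv.restrictNormalHom Y g')⁻¹ * AlgEquiv.restrictNormalHom Y g) t - t)
      = Q.v (AlgEquiv.restrictNormalHom Y g t - AlgEquiv.restrictNormalHom Y g' t) := by
    conv_rhs => rw [← hσ', Place.smulAut_v_apply, map_sub, AlgEquiv.symm_apply_apply]
    rfl
  have h4 := eq_one_of_tame _ hρ ht (by rw [h3, ← ht]; exact h2)
  exact (inv_mul_eq_one.1 h4).symm

end Claimed.Agent.R280
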