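import Claimed.Agent.R280.Gal.V4Canon
import Claimed.Agent.R280.Gal.Res

/-!
# Row 280, package Gal1E (`Gal/V5Exists.lean`, ~450 lines): existence of canonical inertia elements

`π` a uniformiser at `P`, `τ ∈ E`, `τ ^ m = π`, `Y := M(τ)`.
* `kummer_finrank`: let `Q` be a place of `Y` over `P`, `e = e(Q|P)`; `Q.v τ ^ m = exp (-e)` gives `m ∣ e`... (`Q.v τ = exp (-a)`, `m a = e`), so `m ≤ e ≤ [Y : M] ≤ m` (`Place.ramIdx_le_finrank`;
  `τ` is a root of `X ^ m - π`, `IntermediateField.adjoin.finrank`, `minpoly.natDegree_le`/`Polynomial.natDegree_le_of_dvd`).  Hence `[Y : M] = m = e`, `minpoly M τ = X ^ m - C π`.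
* `exists_aut_root`: `ζ τ` is a root of `minpoly M τ`; `minpoly.exists_algEquiv_of_root` (normality of `E/M`) gives `g₀`, `g₀ τ = ζ τ`.
* `exists_isCanon`: `g₀ • V` and `V` are above places of `Y` over `P`, which coincide (`Place.unique_of_ramIdx_eq_finrank`); `E` is an algebraic closure of `Y`, `IsFF k Y`; `Place.above_conj` over `Y` gives
  `h ∈ Gal(E/Y)`, `h • g₀ • V = V`; `g := resΓ M h * g₀` (`resΓ_smul`), `g τ = h (ζ τ) = ζ τ`.

Owner of the statements: helper129 / helper256.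
-/

set_option autoImplicit false

namespace Claimed.Agent.R280

open WithZero Polynomial
open scoped Pointwise

section Eis

variable {k M : Type} [Field k] [Field M] [Algebra k M]

/-- in `ℤᵐ⁰`: `x < 1 → x ≤ exp (-1)` -/
theorem gal1e_le_exp_neg_one {x : ℤᵐ⁰} (hx : x < 1) : x ≤ exp (-1 : ℤ) := by
  by_cases h0 : x = 0
  · rw [h0]; exact zero_le
  · obtain ⟨a, rfl⟩ : ∃ a : ℤ, x = exp a := ⟨log x, (exp_log h0).symm⟩
    rw [← exp_zero, exp_lt_exp] at hx
    exact exp_le_exp.2 (by omega)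

theorem gal1e_mem_max_iff (P : Place k M) (x : P.O) :
    x ∈ IsLocalRing.maximalIdeal P.O ↔ P.v (x : M) < 1 :=
  Valuation.mem_maximalIdeal_iff M P.v

theorem gal1e_mem_sq (P : Place k M) {x : P.O} (hx : x ∈ IsLocalRing.maximalIdeal P.O ^ 2) :
    P.v (x : M) ≤ exp (-2 : ℤ) := by
  rw [pow_two] at hx
  refine Submodule.mul_induction_on hx ?_ ?_
  · intro a ha b hb
    have ha' := gal1e_le_exp_neg_one ((gal1e_mem_max_iff P a).1 ha)
    have hb' := gal1e_le_exp_neg_one ((gal1e_mem_max_iff P b).1 hb)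
    have h2 : (exp (-2 : ℤ) : ℤᵐ⁰) = exp (-1 : ℤ) * exp (-1 : ℤ) := by
      rw [← exp_add]; norm_num
    rw [h2]
    show P.v ((a : M) * (b : M)) ≤ _
    rw [map_mul]
    exact mul_le_mul' ha' hb'
  · intro a b ha hb
    exact (P.v.map_add _ _).trans (max_le ha hb)

/-- Eisenstein: `X ^ m - π` is irreducible over `M` for a uniformiser `π` -/
theorem gal1e_irreducible {P : Place k M} {π : M} (hπ : P.v π = exp (-1)) {m : ℕ} (hm : 0 < m) :
    Irreducible (X ^ m - C π : M[X]) := by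
  have hπ1 : P.v π < 1 := by
    rw [hπ, ← exp_zero]; exact exp_lt_exp.2 (by norm_num)
  let π' : P.O := ⟨π, hπ1.le⟩
  have hmon : (X ^ m - C π' : (P.O)[X]).Monic := monic_X_pow_sub_C π' hm.ne'
  have hdeg : (X ^ m - C π' : (P.O)[X]).degree = m := degree_X_pow_sub_C hm π'
  have hirr : Irreducible (X ^ m - C π' : (P.O)[X]) := by
    refine irreducible_of_eisenstein_criterion (P := IsLocalRing.maximalIdeal P.O)
      (Ideal.IsMaximal.isPrime inferInstance) ?_ ?_ ?_ ?_ hmon.isPrimitive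
    · rw [hmon.leadingCoeff]
      exact fun h => (Ideal.ne_top_iff_one _).1 (IsLocalRing.maximalIdeal.isMaximal _).ne_top h
    · intro n hn
      rw [hdeg] at hn
      have hn' : n < m := by exact_mod_cast hn
      rw [coeff_sub, coeff_X_pow, if_neg hn'.ne, coeff_C, zero_sub]
      split_ifs
      · exact neg_mem ((gal1e_mem_max_iff P π').2 hπ1)
      · simp
    · rw [hdeg]; exact_mod_cast hm
    · intro h
      have h1 := gal1e_mem_sq P h
      rw [coeff_sub, coeff_X_pow, if_neg hm.ne, coeff_C_zero, zero_sub] at h1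
      have h2 : P.v ((-π' : P.O) : M) = exp (-1) := by
        show P.v (-π) = _
        rw [Valuation.map_neg, hπ]
      rw [h2, exp_le_exp] at h1
      omega
  have h := (Monic.irreducible_iff_irreducible_map_fraction_map (K := M) hmon).1 hirr
  have e : (X ^ m - C π' : (P.O)[X]).map (algebraMap P.O M) = X ^ m - C π := by
    simp only [Polynomial.map_sub, Polynomial.map_pow, map_X, map_C]
    rfl
  rwa [e] at h

end Eis

variable {k M E : Type} [Field k] [Field M] [Field E] [Algebra k M] [Algebra M E] [IsFF k M]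
  [IsAlgClosure M E] [IsAlgClosed k] [CharZero k]

theorem kummer_minpoly {P : Place k M} {π : M} (hπ : P.v π = exp (-1)) {m : ℕ} (hm : 0 < m) {τ : E}
    (hτ : τ ^ m = algebraMap M E π) : minpoly M τ = X ^ m - C π := by
  refine (minpoly.eq_of_irreducible_of_monic (gal1e_irreducible hπ hm) ?_
    (monic_X_pow_sub_C π hm.ne')).symm
  simp [hτ]

theorem exists_aut_root {P : Place k M} {π : M} (hπ : P.v π = exp (-1)) {m : ℕ} (hm : 0 < m) {τ : E}
    (hτ : τ ^ m = algebraMap M E π) {ζ : k} (hζ : ζ ^ m = 1) :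
    ∃ g : E ≃ₐ[M] E, g τ = algebraMap M E (algebraMap k M ζ) * τ := by
  have halg : IsAlgebraic M τ := (IsAlgClosure.isAlgebraic (R := M) (K := E)).isAlgebraic τ
  refine minpoly.exists_algEquiv_of_root' halg ?_
  rw [kummer_minpoly hπ hm hτ]
  simp only [map_sub, map_pow, aeval_X, aeval_C, mul_pow, hτ]
  rw [← map_pow, ← map_pow, hζ, map_one, map_one, one_mul, sub_self]

/-- `M(τ)/M` is totally ramified at `P` -/
theorem kummer_ramIdx {P : Place k M} {π : M} (hπ : P.v π = exp (-1)) {m : ℕ} (hm : 0 < m) {τ : E}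
    (hτ : τ ^ m = algebraMap M E π) {Y : Type} [Field Y] [Algebra M Y] [Algebra Y E]
    [IsScalarTower M Y E] [Algebra k Y] [IsScalarTower k M Y] [FiniteDimensional M Y]
    (hY : Module.finrank M Y = m) (hτY : τ ∈ Set.range (algebraMap Y E)) {Q : Place k Y}
    (hQ : Q.Over P) : Q.ramIdx P = m := by
  obtain ⟨t, rfl⟩ := hτY
  have ht : t ^ m = algebraMap M Y π := by
    apply (algebraMap Y E).injective
    rw [map_pow, hτ, ← IsScalarTower.algebraMap_apply]
  have hle : Q.ramIdx P ≤ m := hY ▸ Q.ramIdx_le_finrank P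
  refine le_antisymm hle ?_
  have hpos := hQ.ramIdx_pos
  have hv : Q.v t ^ m = exp (-1) ^ (Q.ramIdx P) := by
    rw [← map_pow, ht, (Place.overE_ramIdx hQ).2 π, hπ]
  have ht0 : t ≠ 0 := by
    rintro rfl
    rw [map_zero, zero_pow hm.ne'] at hv
    exact (pow_ne_zero _ exp_ne_zero) hv.symm
  rw [Q.v_eq_exp_neg_ord ht0, ← exp_nsmul, ← exp_nsmul, exp_inj] at hv
  simp only [nsmul_eq_mul] at hv
  have h1 : (m : ℤ) * Q.ord t = Q.ramIdx P := by linarith
  have h2 : 0 < Q.ord t := by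
    by_contra hcon
    push Not at hcon
    have : (m : ℤ) * Q.ord t ≤ 0 := mul_nonpos_of_nonneg_of_nonpos (by positivity) hcon
    omega
  have h3 : (m : ℤ) ≤ m * Q.ord t := by nlinarith
  omega

/-- the construction of a canonical element, for an abstract model `Y` of `M(τ)` -/
theorem gal1e_exists_aux {P : Place k M} {V : ValuationSubring E} (h : P.Above E V) {π : M}
    (hπ : P.v π = exp (-1)) {m : ℕ} (hm : 0 < m) {τ : E} (hτ : τ ^ m = algebraMap M E π) {ζ : k}
    (hζ : ζ ^ m = 1) (Y : Type) [Field Y] [Algebra M Y] [Algebra Y E]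
    [IsScalarTower M Y E] [Algebra k Y] [IsScalarTower k M Y] [FiniteDimensional M Y]
    (hY : Module.finrank M Y = m) (hτY : τ ∈ Set.range (algebraMap Y E)) :
    ∃ g : E ≃ₐ[M] E, g • V = V ∧ g τ = algebraMap M E (algebraMap k M ζ) * τ := by
  obtain ⟨g₀, hg₀⟩ := exists_aut_root hπ hm hτ hζ
  have : IsFF k Y := isFF_of_finite k M Y
  have : IsAlgClosed E := IsAlgClosure.isAlgClosed M
  have : Algebra.IsAlgebraic M E := IsAlgClosure.isAlgebraic
  have : Algebra.IsAlgebraic Y E := Algebra.IsAlgebraic.tower_top (K := M) Y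
  have : IsAlgClosure Y E := ⟨inferInstance, inferInstance⟩
  obtain ⟨Q, hQV, hQP⟩ := Place.exists_mid Y h
  obtain ⟨Q', hQ'V, hQ'P⟩ := Place.exists_mid Y (Place.above_smul h g₀)
  have hQ : Q.ramIdx P = Module.finrank M Y := by
    rw [hY]; exact kummer_ramIdx hπ hm hτ hY hτY hQP
  have hQQ : Q' = Q := Place.unique_of_ramIdx_eq_finrank hQ hQ'P
  subst hQQ
  obtain ⟨d, hd⟩ := Place.above_conj hQ'V hQV
  refine ⟨resΓ M d * g₀, ?_, ?_⟩
  · rw [mul_smul, resΓ_smul, hd]
  · obtain ⟨t, rfl⟩ := hτY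
    rw [AlgEquiv.mul_apply, hg₀]
    show d _ = _
    rw [IsScalarTower.algebraMap_apply M Y E, ← map_mul, AlgEquiv.commutes]

theorem exists_isCanon {P : Place k M} {V : ValuationSubring E} (h : P.Above E V) {m : ℕ}
    (hm : 0 < m) {ζ : k} (hζ : IsPrimitiveRoot ζ m) : ∃ g : E ≃ₐ[M] E, IsCanon E P V m ζ g := by
  obtain ⟨π, hπ⟩ := P.exists_unif
  have : IsAlgClosed E := IsAlgClosure.isAlgClosed M
  obtain ⟨τ, hτ⟩ := IsAlgClosed.exists_pow_nat_eq (algebraMap M E π) hm
  have hint : IsIntegral M τ :=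
    ((IsAlgClosure.isAlgebraic (R := M) (K := E)).isAlgebraic τ).isIntegral
  let _ : Algebra k (IntermediateField.adjoin M {τ}) :=
    ((algebraMap M (IntermediateField.adjoin M {τ})).comp (algebraMap k M)).toAlgebra
  have : IsScalarTower k M (IntermediateField.adjoin M {τ}) :=
    IsScalarTower.of_algebraMap_eq fun _ => rfl
  have : FiniteDimensional M (IntermediateField.adjoin M {τ}) :=
    IntermediateField.adjoin.finiteDimensional hint
  have hY : Module.finrank M (IntermediateField.adjoin M {τ}) = m := by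
    rw [IntermediateField.adjoin.finrank hint, kummer_minpoly hπ hm hτ, natDegree_X_pow_sub_C]
  obtain ⟨g, hgV, hgτ⟩ := gal1e_exists_aux h hπ hm hτ hζ.pow_eq_one
    (IntermediateField.adjoin M {τ}) hY ⟨IntermediateField.AdjoinSimple.gen M τ, rfl⟩
  exact ⟨g, hgV, π, τ, hπ, hτ, hgτ⟩

end Claimed.Agent.R280
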