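import Claimed.Agent.R280.Gal.V5Exists
import Claimed.Agent.R280.Gal.Res

/-!
# Row 280, package Gal1F (`Gal/V6Tower.lean`, ~600 lines): canonical elements and decomposition groups in a tower `M ⊆ Y ⊆ E`, `Y/M` finite (not nec. Galois)

* `IsCanon.pow_tower` (~250 lines): `e := e(Q|P)`, `τ ^ (m e) = π` from `hg`.  `t` a uniformiser of `Q`, `τ'` an `m`-th root of `t` in `E`.  `w' := τ' / τ`; `w' ^ (m e) = t ^ e / π =: u ∈ Y`, `Q.v u = 1`, so `w' ∈ V^×`.
  `g'` fixes `u`, so `g' w' = η w'`, `η ^ (m e) = 1`, `η ∈ k`; `residue_trivial` (over `Y`, for `g'`; `g' • V = V` because `g • V = V`) gives `η = 1`.  `g' τ' = g ^ e τ · w' = ζ ^ e τ'`.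
* `fixes_of_ramIdx_eq_one` (~350 lines): `N ⊆ E` the normal closure of `Y/M` (finite Galois over `M` and over `Y`), `R` the place of `N` below `V`.
  `e(R|P) = e(R|Q) e(Q|P) = e(R|Q)` (`Place.OverE.trans`, `Place.ramIdx_eq_of_overE`).  `D(R|Q) → D(R|P)` (restriction of scalars `Gal(N/Y) → Gal(N/M)`) is injective between sets of the same
  finite cardinality (`card_stabilizer_eq_ramIdx` twice), hence onto; `g|_N ∈ D(R|P)` (`smulAut_restrict`) comes from `Gal(N/Y)`, so `g` fixes `Y`.

Owner of the statements: helper129 / helper256.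
-/

set_option autoImplicit false

namespace Claimed.Agent.R280

open WithZero
open scoped Pointwise

variable {k M E : Type} [Field k] [Field M] [Field E] [Algebra k M] [Algebra M E] [IsFF k M]
  [IsAlgClosure M E] [IsAlgClosed k] [CharZero k]

variable {Y : Type} [Field Y] [Algebra M Y] [Algebra Y E] [IsScalarTower M Y E] [Algebra k Y]
  [IsScalarTower k M Y] [FiniteDimensional M Y]

/-- `E` is an algebraic closure of every intermediate field -/
theorem v6_isAlgClosure_mid (M Y E : Type*) [Field M] [Field Y] [Field E] [Algebra M Y] [Algebra Y E]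
    [Algebra M E] [IsScalarTower M Y E] [IsAlgClosure M E] : IsAlgClosure Y E :=
  have : Algebra.IsAlgebraic M E := IsAlgClosure.isAlgebraic
  ⟨IsAlgClosure.isAlgClosed M, Algebra.IsAlgebraic.tower_top (K := M) Y⟩

/-- canonical elements in a tower: `g ^ e` is canonical over the place `Q` of `Y`, `e = e(Q|P)` -/
theorem IsCanon.pow_tower {P : Place k M} {Q : Place k Y} {V : ValuationSubring E}
    (hP : P.Above E V) (hQ : Q.Above E V) {m : ℕ} {ζ : k} (hm0 : 0 < m)
    (hζ : IsPrimitiveRoot ζ (m * Q.ramIdx P)) {g : E ≃ₐ[M] E}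
    (hg : IsCanon E P V (m * Q.ramIdx P) ζ g) {g' : E ≃ₐ[Y] E}
    (hgg' : ∀ z : E, g' z = (g ^ Q.ramIdx P) z) : IsCanon E Q V m (ζ ^ Q.ramIdx P) g' := by
  have : IsFF k Y := isFF_of_finite k M Y
  have : IsAlgClosure Y E := v6_isAlgClosure_mid M Y E
  have : IsAlgClosed E := IsAlgClosure.isAlgClosed M
  have hQP : Q.Over P := Place.over_of_above hQ hP
  obtain ⟨he0, hev⟩ := Place.overE_ramIdx hQP
  obtain ⟨e, hedef⟩ : ∃ e, e = Q.ramIdx P := ⟨_, rfl⟩
  rw [← hedef] at he0 hev hζ hg hgg' ⊢
  obtain ⟨hgV, π, τ, hπ, hτ, hgτ⟩ := hg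
  have hme : m * e ≠ 0 := (Nat.mul_pos hm0 he0).ne'
  have : NeZero (m * e) := ⟨hme⟩
  -- `g' • V = V`
  have hpowV : ∀ j : ℕ, (g ^ j) • V = V := by
    intro j
    induction j with
    | zero => simp
    | succ j ih => rw [pow_succ, mul_smul, hgV, ih]
  have hg'V : g' • V = V := by
    conv_rhs => rw [← hpowV e]
    ext x
    rw [ValuationSubring.mem_smul_pointwise_iff_exists, ValuationSubring.mem_smul_pointwise_iff_exists]
    constructor
    · rintro ⟨s, hs, rfl⟩
      exact ⟨s, hs, (hgg' s).symm⟩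
    · rintro ⟨s, hs, rfl⟩
      exact ⟨s, hs, hgg' s⟩
  -- constants
  have hconst : ∀ a : k, algebraMap M E (algebraMap k M a) = algebraMap Y E (algebraMap k Y a) := by
    intro a
    rw [IsScalarTower.algebraMap_apply k M Y, ← IsScalarTower.algebraMap_apply M Y E]
  have hpowτ : ∀ j : ℕ, (g ^ j) τ = algebraMap M E (algebraMap k M (ζ ^ j)) * τ := by
    intro j
    induction j with
    | zero => simp
    | succ j ih =>
      rw [pow_succ', AlgEquiv.mul_apply, ih, map_mul, g.commutes, hgτ, pow_succ, map_mul, map_mul]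
      ring
  obtain ⟨t, ht⟩ := Q.exists_unif
  obtain ⟨τ', hτ'⟩ := IsAlgClosed.exists_pow_nat_eq (algebraMap Y E t) hm0
  have hπ0 : π ≠ 0 := by
    rintro rfl
    rw [map_zero] at hπ
    exact exp_ne_zero hπ.symm
  have hτ0 : τ ≠ 0 := by
    rintro rfl
    rw [zero_pow hme] at hτ
    exact hπ0 ((map_eq_zero _).1 hτ.symm)
  -- the unit `u = t ^ e / π`
  have hu : Q.v (t ^ e / algebraMap M Y π) = 1 := by
    rw [map_div₀, map_pow, hev, ht, hπ]
    exact div_self (pow_ne_zero _ exp_ne_zero)
  have hwpow : (τ' / τ) ^ (m * e) = algebraMap Y E (t ^ e / algebraMap M Y π) := by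
    rw [div_pow, hτ, pow_mul, hτ', map_div₀, map_pow, ← IsScalarTower.algebraMap_apply M Y E]
  have hval1 : ∀ f : Y, Q.v f = 1 → V.valuation (algebraMap Y E f) = 1 := by
    intro f hf
    refine le_antisymm ((ValuationSubring.valuation_le_one_iff V _).2 ((hQ.mem_iff f).2 hf.le)) ?_
    rw [← not_lt, hQ.valuation_lt_one_iff, hf]
    exact lt_irrefl _
  have hwval : V.valuation (τ' / τ) = 1 := by
    have h1 : V.valuation (τ' / τ) ^ (m * e) = 1 := by rw [← map_pow, hwpow, hval1 _ hu]
    exact le_antisymm ((pow_le_one_iff hme).1 h1.le) ((one_le_pow_iff hme).1 h1.ge)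
  have hw0 : τ' / τ ≠ 0 := by
    intro h
    rw [h, map_zero] at hwval
    exact zero_ne_one hwval
  -- `g'` multiplies `w` by a root of unity
  have hroot : (g' (τ' / τ) / (τ' / τ)) ^ (m * e) = 1 := by
    rw [div_pow, ← map_pow, hwpow, g'.commutes]
    exact div_self (by rw [← hwpow]; exact pow_ne_zero _ hw0)
  have hζE : IsPrimitiveRoot (algebraMap M E (algebraMap k M ζ)) (m * e) :=
    hζ.map_of_injective (f := (algebraMap M E).comp (algebraMap k M))
      ((algebraMap M E).comp (algebraMap k M)).injective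
  obtain ⟨i, -, hi⟩ := hζE.eq_pow_of_pow_eq_one hroot
  have hgw : g' (τ' / τ) = algebraMap Y E (algebraMap k Y (ζ ^ i)) * (τ' / τ) := by
    rw [← hconst, map_pow, map_pow, hi, div_mul_cancel₀ _ hw0]
  have hres := residue_trivial hQ hg'V ((ValuationSubring.valuation_le_one_iff V _).1 hwval.le)
  have hη : ζ ^ i = 1 := by
    by_contra hne
    have h1 : g' (τ' / τ) - τ' / τ = algebraMap Y E (algebraMap k Y (ζ ^ i - 1)) * (τ' / τ) := by
      rw [hgw, map_sub, map_sub, map_one, map_one]
      ring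
    rw [h1, map_mul, hwval, mul_one, hval1 _ (Q.triv _ (sub_ne_zero.2 hne))] at hres
    exact lt_irrefl _ hres
  have hgw' : g' (τ' / τ) = τ' / τ := by rw [hgw, hη, map_one, map_one, one_mul]
  refine ⟨hg'V, t, τ', ht, hτ', ?_⟩
  have h1 : τ' = τ' / τ * τ := (div_mul_cancel₀ _ hτ0).symm
  calc g' τ' = g' (τ' / τ * τ) := by rw [← h1]
    _ = τ' / τ * (algebraMap M E (algebraMap k M (ζ ^ e)) * τ) := by
        rw [map_mul, hgw', hgg', hpowτ]
    _ = algebraMap Y E (algebraMap k Y (ζ ^ e)) * (τ' / τ * τ) := by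
        rw [hconst]
        ring
    _ = algebraMap Y E (algebraMap k Y (ζ ^ e)) * τ' := by rw [← h1]

/-- `fixes_of_ramIdx_eq_one`, given a finite Galois layer `N ⊇ Y` -/
theorem v6_fixes_aux (N : Type) [Field N] [Algebra M N] [Algebra Y N] [Algebra N E] [Algebra k N]
    [IsScalarTower M Y N] [IsScalarTower M N E] [IsScalarTower Y N E] [IsScalarTower k M N]
    [IsScalarTower k Y N] [FiniteDimensional M N] [IsGalois M N]
    {P : Place k M} {Q : Place k Y} {V : ValuationSubring E}
    (hP : P.Above E V) (hQ : Q.Above E V) (he : Q.ramIdx P = 1) {g : E ≃ₐ[M] E} (hg : g • V = V)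
    (z : Y) : g (algebraMap Y E z) = algebraMap Y E z := by
  have : IsFF k Y := isFF_of_finite k M Y
  have : IsAlgClosure Y E := v6_isAlgClosure_mid M Y E
  have : FiniteDimensional Y N := Module.Finite.of_restrictScalars_finite M Y N
  have : IsGalois Y N := IsGalois.tower_top_of_isGalois M Y N
  obtain ⟨R, hR, hRP⟩ := Place.exists_mid N hP
  have hRQ : R.Over Q := Place.over_of_above hR hQ
  have hQP : Q.Over P := Place.over_of_above hQ hP
  have hee : R.ramIdx P = R.ramIdx Q := by rw [Place.ramIdx_trans hRQ hQP, he, mul_one]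
  have c1 := card_stabilizer_eq_ramIdx hRP
  have c2 := card_stabilizer_eq_ramIdx hRQ
  have hres : ∀ σ : N ≃ₐ[Y] N, R.smulAut (σ.restrictScalars M) = R.smulAut σ := by
    intro σ
    ext y
    rfl
  let ι : {σ : N ≃ₐ[Y] N // R.smulAut σ = R} → {σ : N ≃ₐ[M] N // R.smulAut σ = R} :=
    fun σ => ⟨σ.1.restrictScalars M, by rw [hres]; exact σ.2⟩
  have hι : Function.Injective ι := by
    intro σ σ' h
    apply Subtype.ext
    exact AlgEquiv.restrictScalars_injective M (congrArg Subtype.val h)
  have hbij : Function.Bijective ι :=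
    hι.bijective_of_nat_card_le (by rw [c1, c2, hee])
  obtain ⟨σ, hσ⟩ := hbij.2 ⟨AlgEquiv.restrictNormalHom N g, smulAut_restrict hR hg⟩
  have hσ' : σ.1.restrictScalars M = AlgEquiv.restrictNormalHom N g := congrArg Subtype.val hσ
  rw [IsScalarTower.algebraMap_apply Y N E, ← AlgEquiv.restrictNormal_commutes]
  congr 1
  have h1 : (AlgEquiv.restrictNormalHom N g) (algebraMap Y N z) = σ.1 (algebraMap Y N z) := by
    rw [← hσ']
    rfl
  exact h1.trans (σ.1.commutes z)

/-- an element of `D(V|M)` lies in `Gal(E/Y)` as soon as `e(Q|P) = 1` -/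
theorem fixes_of_ramIdx_eq_one {P : Place k M} {Q : Place k Y} {V : ValuationSubring E}
    (hP : P.Above E V) (hQ : Q.Above E V) (he : Q.ramIdx P = 1) {g : E ≃ₐ[M] E} (hg : g • V = V)
    (z : Y) : g (algebraMap Y E z) = algebraMap Y E z := by
  have : CharZero M := charZero_of_injective_algebraMap (algebraMap k M).injective
  have : Algebra.IsAlgebraic M E := IsAlgClosure.isAlgebraic
  have : Normal M E := IsAlgClosure.normal M E
  let _ : Algebra k (IntermediateField.normalClosure M Y E) :=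
    ((algebraMap M (IntermediateField.normalClosure M Y E)).comp (algebraMap k M)).toAlgebra
  have : IsScalarTower k M (IntermediateField.normalClosure M Y E) :=
    IsScalarTower.of_algebraMap_eq fun _ => rfl
  have : IsScalarTower k Y (IntermediateField.normalClosure M Y E) :=
    IsScalarTower.of_algebraMap_eq fun a => by
      rw [IsScalarTower.algebraMap_apply k M Y,
        ← IsScalarTower.algebraMap_apply M Y (IntermediateField.normalClosure M Y E)]
      rfl
  have : IsGalois M (IntermediateField.normalClosure M Y E) := ⟨⟩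
  exact v6_fixes_aux (IntermediateField.normalClosure M Y E) hP hQ he hg z

end Claimed.Agent.R280
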