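import Claimed.Agent.R280.Gal.V6Tower
import Claimed.Agent.R280.Gal.Fix

/-!
# Row 280, package Gal1G (`Gal/V7Hom.lean`, ~300 lines): canonical elements under homomorphisms with o p e n kernel

`E/M` is Galois (algebraic closure, characteristic zero).  `Y₀ := IntermediateField.fixedField φ.ker`: `isFixOf_fixedField`, `IsFixOf.finite`, `IsFixOf.isGalois`, `IsFixOf.finrank_dvd` (so `[Y₀ : M] ∣ |G| ∣ m`),
`IsFixOf.restrict_eq_iff` translates statements about `φ` into statements about `restrictNormalHom Y₀`: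
* `map_eq` ⇐ `IsCanon.restrict_eq`;  * `map_mem_zpowers` ⇐ `IsCanon.restrict_mem_zpowers` (`g'|_Y = (g|_Y) ^ j = (g ^ j)|_Y` ⇒ `φ g' = φ g ^ j`);
* `orderOf_map` ⇐ `IsCanon.orderOf_restrict` for the given `Y` (`hY` is `IsFixOf φ.ker Y`): `orderOf (φ g) = orderOf (g|_Y)` since `φ (g ^ j) = 1 ↔ (g|_Y) ^ j = 1` (`orderOf_eq_orderOf_iff`).

Owner of the statements: helper129 / helper256.
-/

set_option autoImplicit false

namespace Claimed.Agent.R280

open WithZero
open scoped Pointwise

variable {k M E : Type} [Field k] [Field M] [Field E] [Algebra k M] [Algebra M E] [IsFF k M]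
  [IsAlgClosure M E] [IsAlgClosed k] [CharZero k] {G : Type} [Group G] [Finite G]

omit [IsFF k M] [IsAlgClosed k] in
theorem v7_isGalois (k : Type) {M E : Type} [Field k] [Field M] [Field E] [Algebra k M] [Algebra M E]
    [IsAlgClosure M E] [CharZero k] : IsGalois M E := by
  have : CharZero M := charZero_of_injective_algebraMap (algebraMap k M).injective
  have : Normal M E := IsAlgClosure.normal M E
  have : Algebra.IsAlgebraic M E := IsAlgClosure.isAlgebraic
  exact ⟨⟩

theorem IsCanon.map_eq (φ : (E ≃ₐ[M] E) →* G) (hφ : IsOpen (φ.ker : Set (E ≃ₐ[M] E)))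
    {P : Place k M} {V : ValuationSubring E} (hP : P.Above E V) {m : ℕ} {ζ : k}
    (hζ : IsPrimitiveRoot ζ m) (hm : Nat.card G ∣ m) (hm0 : 0 < m) {g g' : E ≃ₐ[M] E}
    (hg : IsCanon E P V m ζ g) (hg' : IsCanon E P V m ζ g') : φ g = φ g' := by
  have hgal : IsGalois M E := v7_isGalois k
  letI : Algebra k E := ((algebraMap M E).comp (algebraMap k M)).toAlgebra
  have : IsScalarTower k M E := IsScalarTower.of_algebraMap_eq fun _ => rfl
  have hY := isFixOf_fixedField φ.ker
  have : FiniteDimensional M (IntermediateField.fixedField φ.ker) := hY.finite hφ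
  have : IsGalois M (IntermediateField.fixedField φ.ker) := hY.isGalois hφ
  rw [← hY.restrict_eq_iff φ hφ]
  exact IsCanon.restrict_eq hP hζ ((hY.finrank_dvd φ hφ).trans hm) hm0 hg hg'

theorem IsCanon.map_mem_zpowers (φ : (E ≃ₐ[M] E) →* G) (hφ : IsOpen (φ.ker : Set (E ≃ₐ[M] E)))
    {P : Place k M} {V : ValuationSubring E} (hP : P.Above E V) {m : ℕ} {ζ : k}
    (hζ : IsPrimitiveRoot ζ m) (hm : Nat.card G ∣ m) (hm0 : 0 < m) {g g' : E ≃ₐ[M] E}
    (hg : IsCanon E P V m ζ g) (hg' : g' • V = V) : φ g' ∈ Subgroup.zpowers (φ g) := by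
  have hgal : IsGalois M E := v7_isGalois k
  letI : Algebra k E := ((algebraMap M E).comp (algebraMap k M)).toAlgebra
  have : IsScalarTower k M E := IsScalarTower.of_algebraMap_eq fun _ => rfl
  have hY := isFixOf_fixedField φ.ker
  have : FiniteDimensional M (IntermediateField.fixedField φ.ker) := hY.finite hφ
  have : IsGalois M (IntermediateField.fixedField φ.ker) := hY.isGalois hφ
  obtain ⟨j, hj⟩ := Subgroup.mem_zpowers_iff.1
    (IsCanon.restrict_mem_zpowers (Y := IntermediateField.fixedField φ.ker) hP hζ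
      ((hY.finrank_dvd φ hφ).trans hm) hm0 hg hg')
  rw [← map_zpow, hY.restrict_eq_iff φ hφ, map_zpow] at hj
  exact Subgroup.mem_zpowers_iff.2 ⟨j, hj⟩

/-- the order of the canonical inertia class is the ramification index in the fixed field of `ker φ` -/
theorem IsCanon.orderOf_map (φ : (E ≃ₐ[M] E) →* G) (hφ : IsOpen (φ.ker : Set (E ≃ₐ[M] E)))
    {P : Place k M} {V : ValuationSubring E} (hP : P.Above E V) {m : ℕ} {ζ : k}
    (hζ : IsPrimitiveRoot ζ m) (hm : Nat.card G ∣ m) (hm0 : 0 < m) {g : E ≃ₐ[M] E}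
    (hg : IsCanon E P V m ζ g)
    {Y : Type} [Field Y] [Algebra M Y] [Algebra Y E] [IsScalarTower M Y E] [Algebra k Y]
    [IsScalarTower k M Y] [FiniteDimensional M Y]
    (hY : ∀ z : E, z ∈ Set.range (algebraMap Y E) ↔ ∀ σ ∈ φ.ker, σ z = z)
    {Q : Place k Y} (hQ : Q.Above E V) : orderOf (φ g) = Q.ramIdx P := by
  have hgal : IsGalois M E := v7_isGalois k
  have hY' : IsFixOf φ.ker Y := hY
  have : IsGalois M Y := hY'.isGalois hφ
  rw [← IsCanon.orderOf_restrict hP hQ hζ ((hY'.finrank_dvd φ hφ).trans hm) hm0 hg,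
    orderOf_eq_orderOf_iff]
  intro n
  rw [← map_pow, ← map_pow, ← map_one φ,
    ← map_one (AlgEquiv.restrictNormalHom (F := M) (K₁ := E) Y), hY'.restrict_eq_iff φ hφ]

end Claimed.Agent.R280
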